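import Vale.Agent.P166.Pattern.Model

/-!
Concavity of the one-pattern functional for a negative strength.
-/

open MeasureTheory ProbabilityTheory Filter Set
open scoped Topology

noncomputable section

namespace Vale.Agent.P166.Pattern.Signed

variable {S κ : Type*} [Fintype S] [Fintype κ]

lemma mul_exp_half_le (s : ℝ) : s * Real.exp (-(s / 2)) ≤ 1 := by
  rw [Real.exp_neg, ← div_eq_mul_inv, div_le_one (Real.exp_pos _)]
  nlinarith [Real.add_one_le_exp (s / 4), Real.exp_pos (s / 4), sq_nonneg (s / 4 - 1),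
    show Real.exp (s / 2) = Real.exp (s / 4) * Real.exp (s / 4) by rw [← Real.exp_add]; ring_nf]

/-- pointwise lower bound for the two-point quantity -/
lemma neg_key {a c : ℝ} (ha : 0 ≤ a) (hc : 0 ≤ c) :
    Real.exp (-((a + c) / 2)) - 3 * (a + c) ≤
      Real.exp (-((a + c) / 2)) * ((1 - a) * (1 - c) - 2 * (|1 - a| * c + |1 - c| * a)) := by
  set W := Real.exp (-((a + c) / 2))
  have hW0 : 0 < W := Real.exp_pos _
  have hW1 : W ≤ 1 := Real.exp_le_one_iff.2 (by linarith)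
  have hs := mul_exp_half_le (a + c)
  have hWs : W * (a + c) ≤ a + c := mul_le_of_le_one_left (by linarith) hW1
  have h4 : W * (a * c) ≤ (a + c) / 4 := by
    have h : a * c ≤ (a + c) * (a + c) / 4 := by nlinarith [sq_nonneg (a - c)]
    nlinarith [mul_le_mul_of_nonneg_left h hW0.le, mul_le_mul_of_nonneg_left hs (show 0 ≤ (a + c) / 4 by linarith)]
  rcases le_total a 1 with h | h <;> rcases le_total c 1 with h' | h'
  · rw [abs_of_nonneg (sub_nonneg.2 h), abs_of_nonneg (sub_nonneg.2 h')]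
    nlinarith [mul_nonneg hW0.le (mul_nonneg ha hc)]
  · rw [abs_of_nonneg (sub_nonneg.2 h), abs_of_nonpos (sub_nonpos.2 h')]
    nlinarith [mul_nonneg hW0.le (mul_nonneg ha hc), mul_nonneg hW0.le ha, mul_nonneg hW0.le hc]
  · rw [abs_of_nonpos (sub_nonpos.2 h), abs_of_nonneg (sub_nonneg.2 h')]
    nlinarith [mul_nonneg hW0.le (mul_nonneg ha hc), mul_nonneg hW0.le ha, mul_nonneg hW0.le hc]
  · rw [abs_of_nonpos (sub_nonpos.2 h), abs_of_nonpos (sub_nonpos.2 h')]
    nlinarith [mul_nonneg hW0.le ha, mul_nonneg hW0.le hc]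

/-- the pointwise split of the cross term -/
lemma cross_le (p q : ℝ) :
    Real.exp ((1 / 10) * p ^ 2) * q ^ 2 / 10 ≤
      8 * (8 / 9 * Real.exp ((9 / 80) * p ^ 2) + 1 / 9 * Real.exp ((9 / 80) * q ^ 2) -
        Real.exp ((1 / 10) * p ^ 2)) := by
  have h := convexOn_exp.2 (mem_univ ((9 / 80) * p ^ 2)) (mem_univ ((9 / 80) * q ^ 2))
    (show (0:ℝ) ≤ 8 / 9 by norm_num) (show (0:ℝ) ≤ 1 / 9 by norm_num) (by norm_num)
  simp only [smul_eq_mul] at h
  rw [show 8 / 9 * (9 / 80 * p ^ 2) + 1 / 9 * (9 / 80 * q ^ 2) = (1 / 10) * p ^ 2 + q ^ 2 / 80 by ring,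
    Real.exp_add] at h
  nlinarith [mul_le_mul_of_nonneg_left (Real.add_one_le_exp (q ^ 2 / 80)) (Real.exp_pos ((1 / 10) * p ^ 2)).le]

theorem quad_pair_nonneg_neg {b : ℝ} (hb0 : b ≤ 0) (hb : -(1 / 10) ≤ b) (w : S → ℝ) (hw : ∀ σ, 0 < w σ)
    [Nonempty S] (hw1 : ∑ σ, w σ = 1) (c : S → κ → ℝ) (hc : ∀ σ, cov c σ σ = 1) (σ τ : S) :
    0 ≤ ∫ x, (quad b).pair w σ τ (lin c x) ∂gauss κ := by
  set P := quad b
  have hunit : ∀ ρ, ∑ k, c ρ k ^ 2 = 1 := fun ρ => by
    rw [← hc ρ]; exact Finset.sum_congr rfl fun k _ => sq (c ρ k)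
  set a := fun ρ x => -b * lin c x ρ ^ 2
  set Z := fun x => P.Z w (lin c x)
  set Q := fun x => 1 / Z x ^ 2
  set J := fun ρ' x => ∑ ρ, w ρ * (Real.exp ((1 / 10) * lin c x ρ ^ 2) * lin c x ρ' ^ 2 / 10)
  have ha : ∀ ρ x, 0 ≤ a ρ x := fun ρ x => mul_nonneg (by linarith) (sq_nonneg _)
  have hZ0 : ∀ x, 0 < Z x := fun x => P.Z_pos w hw _
  have hZ1 : ∀ x, Z x ≤ 1 := fun x => by
    calc Z x = ∑ ρ, w ρ * Real.exp (b * lin c x ρ ^ 2 / 2) := rfl
      _ ≤ ∑ ρ, w ρ * 1 := Finset.sum_le_sum fun ρ _ => mul_le_mul_of_nonneg_left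
          (Real.exp_le_one_iff.2 (by nlinarith [sq_nonneg (lin c x ρ)])) (hw ρ).le
      _ = 1 := by simp [hw1]
  have hQ1 : ∀ x, 1 ≤ Q x := fun x => by
    simp only [Q]
    rw [le_div_iff₀ (pow_pos (hZ0 x) 2), one_mul]
    exact pow_le_one₀ (hZ0 x).le (hZ1 x)
  have hQ2 : ∀ x, Q x ≤ ∑ ρ, w ρ * Real.exp ((1 / 10) * lin c x ρ ^ 2) := fun x => by
    set m := ∑ ρ, w ρ * (b * lin c x ρ ^ 2 / 2)
    have j1 : Real.exp m ≤ Z x := by
      have := convexOn_exp.map_sum_le (t := Finset.univ) (w := w) (p := fun ρ => b * lin c x ρ ^ 2 / 2)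
        (fun ρ _ => (hw ρ).le) hw1 (fun ρ _ => mem_univ _)
      simp only [smul_eq_mul] at this
      exact this
    have j2 : Real.exp (-(2 * m)) ≤ ∑ ρ, w ρ * Real.exp ((1 / 10) * lin c x ρ ^ 2) := by
      have := convexOn_exp.map_sum_le (t := Finset.univ) (w := w) (p := fun ρ => (1 / 10) * lin c x ρ ^ 2)
        (fun ρ _ => (hw ρ).le) hw1 (fun ρ _ => mem_univ _)
      simp only [smul_eq_mul] at this
      refine le_trans (Real.exp_le_exp.2 ?_) this
      simp only [m]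
      rw [Finset.mul_sum, ← Finset.sum_neg_distrib]
      exact Finset.sum_le_sum fun ρ _ => by nlinarith [mul_nonneg (hw ρ).le (sq_nonneg (lin c x ρ))]
    refine le_trans ?_ j2
    simp only [Q]
    rw [Real.exp_neg, one_div, two_mul m, Real.exp_add]
    refine inv_anti₀ (by positivity) ?_
    rw [sq]
    exact mul_le_mul j1 j1 (Real.exp_pos _).le (hZ0 x).le
  have key : ∀ x, 2 * b ^ 2 * (w σ * w τ) * ((1 - (a σ x + a τ x) / 2) - 3 * (J σ x + J τ x)) ≤
      P.pair w σ τ (lin c x) := by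
    intro x
    set W := Real.exp (-((a σ x + a τ x) / 2))
    have e : P.pair w σ τ (lin c x) = 2 * b ^ 2 * (w σ * w τ) *
        (Q x * (W * ((1 - a σ x) * (1 - a τ x) - 2 * (|1 - a σ x| * a τ x + |1 - a τ x| * a σ x)))) := by
      have hA : ∀ t : ℝ, P.A t = b * (1 - -b * t ^ 2) := fun t => by
        simp only [Pot.A, P, quad]; ring
      have hf1 : ∀ t : ℝ, P.f1 t = b * t := fun t => rfl
      have hf : ∀ t : ℝ, P.f t = b * t ^ 2 / 2 := fun t => rfl
      simp only [Pot.pair, hA, hf1, abs_mul, abs_of_nonpos hb0, Pot.p, hf, W, Q, Z, a]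
      rw [show -((-b * lin c x σ ^ 2 + -b * lin c x τ ^ 2) / 2) =
        b * lin c x σ ^ 2 / 2 + b * lin c x τ ^ 2 / 2 by ring, Real.exp_add]
      have hne : P.Z w (lin c x) ≠ 0 := (P.Z_pos w hw _).ne'
      field_simp
      ring
    rw [e]
    refine mul_le_mul_of_nonneg_left ?_ (by have := hw σ; have := hw τ; positivity)
    have h1 := mul_le_mul_of_nonneg_left (neg_key (ha σ x) (ha τ x)) (zero_le_one.trans (hQ1 x))
    refine le_trans ?_ h1
    have h2 : ∀ ρ', Q x * a ρ' x ≤ J ρ' x := fun ρ' => by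
      refine (mul_le_mul_of_nonneg_right (hQ2 x) (ha ρ' x)).trans ?_
      simp only [J, a, Finset.sum_mul]
      refine Finset.sum_le_sum fun ρ _ => ?_
      rw [mul_assoc]
      refine mul_le_mul_of_nonneg_left ?_ (hw ρ).le
      rw [mul_div_assoc]
      exact mul_le_mul_of_nonneg_left (by nlinarith [sq_nonneg (lin c x ρ')]) (Real.exp_pos _).le
    have h3 : 1 - (a σ x + a τ x) / 2 ≤ Q x * W := by
      refine le_trans ?_ (le_mul_of_one_le_left (Real.exp_pos _).le (hQ1 x))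
      linarith [Real.add_one_le_exp (-((a σ x + a τ x) / 2))]
    nlinarith [h2 σ, h2 τ]
  have hE : ∀ (θ : ℝ), θ < 1 / 2 → ∀ ρ, Integrable (fun x => Real.exp (θ * lin c x ρ ^ 2)) (gauss κ) ∧
      ∫ x, Real.exp (θ * lin c x ρ ^ 2) ∂gauss κ = (√(1 - 2 * θ))⁻¹ := fun θ hθ ρ =>
    ⟨integrable_linear (c ρ) (hunit ρ) (integrable_exp_sq hθ), by
      rw [show (∫ x, Real.exp (θ * lin c x ρ ^ 2) ∂gauss κ) = ∫ t, Real.exp (θ * t ^ 2) ∂gaussianReal 0 1 from
        integral_linear (c ρ) (hunit ρ) (F := fun t => Real.exp (θ * t ^ 2)) (by fun_prop), integral_exp_sq hθ]⟩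
  have hsq : ∀ ρ, Integrable (fun x => lin c x ρ ^ 2) (gauss κ) ∧ ∫ x, lin c x ρ ^ 2 ∂gauss κ = 1 := fun ρ => by
    have hi : Integrable (fun t : ℝ => t ^ 2) (gaussianReal 0 1) :=
      integrable_poly1 (by fun_prop) (Poly.pow (F := fun x : ℝ => x) ⟨1, 1, fun x => by simp [Real.norm_eq_abs]⟩ 2)
    refine ⟨integrable_linear (c ρ) (hunit ρ) hi, ?_⟩
    rw [show (∫ x, lin c x ρ ^ 2 ∂gauss κ) = ∫ t, t ^ 2 ∂gaussianReal 0 1 from
      integral_linear (c ρ) (hunit ρ) (F := fun t => t ^ 2) (by fun_prop)]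
    have h := variance_id_gaussianReal (μ := 0) (v := 1)
    rw [variance_eq_integral measurable_id.aemeasurable] at h
    simpa using h
  set U := fun (ρ' ρ : S) x => 8 * (8 / 9 * Real.exp ((9 / 80) * lin c x ρ ^ 2) +
    1 / 9 * Real.exp ((9 / 80) * lin c x ρ' ^ 2) - Real.exp ((1 / 10) * lin c x ρ ^ 2))
  have hUi : ∀ ρ' ρ, Integrable (U ρ' ρ) (gauss κ) ∧ ∫ x, U ρ' ρ x ∂gauss κ ≤ 148 / 1000 := fun ρ' ρ => by
    obtain ⟨i1, v1⟩ := hE (9 / 80) (by norm_num) ρ
    obtain ⟨i2, v2⟩ := hE (9 / 80) (by norm_num) ρ'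
    obtain ⟨i3, v3⟩ := hE (1 / 10) (by norm_num) ρ
    have i12 : Integrable (fun x => 8 / 9 * Real.exp ((9 / 80) * lin c x ρ ^ 2) +
        1 / 9 * Real.exp ((9 / 80) * lin c x ρ' ^ 2)) (gauss κ) := (i1.const_mul _).add (i2.const_mul _)
    refine ⟨(i12.sub i3).const_mul 8, ?_⟩
    simp only [U]
    rw [integral_const_mul, integral_sub i12 i3, integral_add (i1.const_mul _) (i2.const_mul _),
      integral_const_mul, integral_const_mul, v1, v2, v3]
    have h1 : (√(1 - 2 * (9 / 80 : ℝ)))⁻¹ ≤ 1136 / 1000 := by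
      rw [inv_le_comm₀ (by positivity) (by norm_num), Real.le_sqrt (by norm_num) (by norm_num)]
      norm_num
    have h2 : (11178 / 10000 : ℝ) ≤ (√(1 - 2 * (1 / 10 : ℝ)))⁻¹ := by
      rw [le_inv_comm₀ (by norm_num) (by positivity), Real.sqrt_le_iff]
      norm_num
    linarith
  have hJU : ∀ ρ' x, J ρ' x ≤ ∑ ρ, w ρ * U ρ' ρ x := fun ρ' x =>
    Finset.sum_le_sum fun ρ _ => mul_le_mul_of_nonneg_left (cross_le _ _) (hw ρ).le
  have iU : ∀ ρ', Integrable (fun x => ∑ ρ, w ρ * U ρ' ρ x) (gauss κ) := fun ρ' =>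
    integrable_finsetSum _ fun ρ _ => (hUi ρ' ρ).1.const_mul _
  have vU : ∀ ρ', ∫ x, ∑ ρ, w ρ * U ρ' ρ x ∂gauss κ ≤ 148 / 1000 := fun ρ' => by
    rw [integral_finsetSum _ fun ρ _ => (hUi ρ' ρ).1.const_mul _]
    refine (Finset.sum_le_sum fun ρ _ => (integral_const_mul (w ρ) _).le.trans
      (mul_le_mul_of_nonneg_left (hUi ρ' ρ).2 (hw ρ).le)).trans_eq ?_
    rw [← Finset.sum_mul, hw1, one_mul]
  have ia : Integrable (fun x => 1 - (a σ x + a τ x) / 2) (gauss κ) :=
    (integrable_const _).sub ((((hsq σ).1.const_mul (-b)).add ((hsq τ).1.const_mul (-b))).div_const 2)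
  have i3 : Integrable (fun x => 3 * ((∑ ρ, w ρ * U σ ρ x) + ∑ ρ, w ρ * U τ ρ x)) (gauss κ) :=
    ((iU σ).add (iU τ)).const_mul 3
  refine le_trans ?_ (integral_mono ((ia.sub i3).const_mul (2 * b ^ 2 * (w σ * w τ)))
    (integrable_lin _ (P.cont_pair w hw σ τ) (P.poly_pair w hw σ τ)) fun x =>
      le_trans (mul_le_mul_of_nonneg_left (by
        simp only [Pi.sub_apply]; linarith [hJU σ x, hJU τ x]) (by have := hw σ; have := hw τ; positivity)) (key x))
  rw [integral_const_mul]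
  refine mul_nonneg (by have := hw σ; have := hw τ; positivity) ?_
  simp only [Pi.sub_apply]
  rw [integral_sub ia i3, integral_const_mul, integral_add (iU σ) (iU τ)]
  have hv : ∫ x, (1 - (a σ x + a τ x) / 2) ∂gauss κ = 1 + b := by
    have i1 : Integrable (fun x => (a σ x + a τ x) / 2) (gauss κ) :=
      (((hsq σ).1.const_mul (-b)).add ((hsq τ).1.const_mul (-b))).div_const 2
    rw [integral_sub (integrable_const _) i1, integral_div]
    simp only [a]
    rw [integral_add ((hsq σ).1.const_mul (-b)) ((hsq τ).1.const_mul (-b)), integral_const_mul, integral_const_mul,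
      (hsq σ).2, (hsq τ).2]
    simp
  linarith [vU σ, vU τ]

variable {ι : Type*} [Fintype ι] [DecidableEq ι]

/-- concavity of the one-pattern functional for strengths of modulus at most `1/10` -/
theorem concaveOn_psi_abs {b : ℝ} (hb : |b| ≤ 1 / 10) {w : (ι → Bool) → ℝ}
    (hw : ∀ σ, 0 < w σ) : ConcaveOn ℝ (Simplex ι) (psi b w) := by
  rcases le_total 0 b with h | h
  · exact concaveOn_psi h (le_of_abs_le hb) hw
  refine ⟨convex_simplex, fun u hu v hv a c ha hc hac => ?_⟩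
  have hW : 0 < ∑ σ, w σ := Finset.sum_pos (fun σ _ => hw σ) Finset.univ_nonempty
  set W := ∑ σ, w σ
  set w' := fun σ => w σ / W
  have hw' : ∀ σ, 0 < w' σ := fun σ => div_pos (hw σ) hW
  have hw1 : ∑ σ, w' σ = 1 := by simp only [w', ← Finset.sum_div]; exact div_self hW.ne'
  have hsplit : ∀ z, psi b w z = Real.log W + ∫ g, (quad b).H w' (lin (co z) g) ∂gauss ι := by
    intro z
    have hi : Integrable (fun g => (quad b).H w' (lin (co z) g)) (gauss ι) :=
      integrable_lin _ ((quad b).smooth_H w' hw' hw1).cont ((quad b).smooth_H w' hw' hw1).p0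
    rw [show Real.log W + ∫ g, (quad b).H w' (lin (co z) g) ∂gauss ι =
      ∫ g, (Real.log W + (quad b).H w' (lin (co z) g)) ∂gauss ι by
        rw [integral_add (integrable_const _) hi]; simp]
    refine integral_congr_ae (.of_forall fun g => ?_)
    simp only [quad_H, X]
    rw [← Real.log_mul hW.ne' (Finset.sum_pos (fun σ _ => mul_pos (hw' σ) (Real.exp_pos _))
      Finset.univ_nonempty).ne', Finset.mul_sum]
    congr 1
    refine Finset.sum_congr rfl fun σ _ => ?_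
    simp only [w']; field_simp
  have hm := convex_simplex hu hv ha hc hac
  have ha' : a = 1 - c := by linarith
  have key := (quad b).concave w' hw' hw1 (co u) (co v) (cov_co_self hu) (cov_co_self hv)
    (fun t ht σ τ => quad_pair_nonneg_neg h (abs_le.1 hb).1 w' hw' hw1 _ (fun ρ => ?_) σ τ)
    (co (a • u + c • v)) (t := c) ⟨hc, by linarith⟩ (fun σ τ => ?_)
  · simp only [smul_eq_mul, hsplit]
    rw [← ha'] at key
    have e : a * Real.log W + c * Real.log W = Real.log W := by rw [← add_mul, hac, one_mul]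
    linarith
  · have a0 := Real.mul_self_sqrt (show 0 ≤ 1 - t by linarith [ht.2])
    have a1 := Real.mul_self_sqrt ht.1.le
    have e0 := cov_co_self hu ρ
    have e1 := cov_co_self hv ρ
    simp only [cov] at e0 e1
    simp only [cov, ct, Fintype.sum_sum_type, Sum.elim_inl, Sum.elim_inr]
    have h3 : ∑ k, √(1 - t) * co u ρ k * (√(1 - t) * co u ρ k) = (1 - t) * ∑ k, co u ρ k * co u ρ k := by
      rw [Finset.mul_sum]
      exact Finset.sum_congr rfl fun k _ => by linear_combination (co u ρ k * co u ρ k) * a0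
    have h4 : ∑ k, √t * co v ρ k * (√t * co v ρ k) = t * ∑ k, co v ρ k * co v ρ k := by
      rw [Finset.mul_sum]
      exact Finset.sum_congr rfl fun k _ => by linear_combination (co v ρ k * co v ρ k) * a1
    rw [h3, h4, e0, e1]
    ring
  · rw [cov_co hm, cov_co hu, cov_co hv, Finset.mul_sum, Finset.mul_sum, ← Finset.sum_add_distrib]
    refine Finset.sum_congr rfl fun i _ => ?_
    simp only [Pi.add_apply, Pi.smul_apply, smul_eq_mul, ha']
    ring

end Vale.Agent.P166.Pattern.Signed
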