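import Vale.Agent.P166.Pattern.Signed.Kernel
import Vale.Agent.P166.Pattern.Multi.Diag

/-!
Diagonal selection for jump measures of either sign.
-/

open MeasureTheory Filter
open scoped Topology

noncomputable section

namespace Vale.Agent.P166.Pattern.Signed
open Multi (Rk dom edgeR cauchy Law cauchy_series cauchy_bounds cauchy_pos integral_unique diag exists_cluster_bdd)

/-- a limit of spectra whose kernels converge -/
theorem diag_law {ρ : Measure ℝ} {A : ℝ} (hρ : Carried ρ A) (γ : ℝ) {L W0 : ℝ}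
    (hW : L < W0) (hW' : A < W0 - L)
    (X : ℕ → ∀ N : ℕ, Fin N → ℝ) (R : ℕ → ℝ → ℝ) (E : ℕ → ℝ) (F : ℕ → ℕ → ℝ)
    (hbdd : ∀ k, ∀ᶠ N : ℕ in atTop, ∀ i, |X k N i| ≤ L)
    (htop : ∀ k, ∀ ε : ℝ, 0 < ε → ∀ᶠ N : ℕ in atTop, ∀ i, X k N i ≤ E k + ε)
    (hE : ∀ ε : ℝ, 0 < ε → ∀ᶠ k in atTop, E k ≤ edgeR γ ρ + ε)
    (htr : ∀ k w, W0 ≤ w → ∃ y, 0 < y ∧ y ≤ 1 / (w - L) ∧ w = 1 / y + R k y ∧
      Tendsto (fun N : ℕ => (∑ i, 1 / (w - X k N i)) / (N:ℝ)) atTop (𝓝 y))
    (hR : ∀ y0 ∈ dom ρ, Tendsto (fun q : ℕ × ℝ => R q.1 q.2) (atTop ×ˢ 𝓝 y0) (𝓝 (Rk γ ρ y0)))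
    (hF : ∀ k, Tendsto (F k) atTop (𝓝 0)) :
    ∃ (μ : Measure ℝ) (κ : ℕ → ℕ), Law μ (-L) L ∧ IsCompact μ.support ∧
      (∀ᶠ w in atTop, 0 < cauchy μ w ∧ w = 1 / cauchy μ w + Rk γ ρ (cauchy μ w)) ∧
      sSup μ.support = edgeR γ ρ ∧ Near μ L (fun N => X (κ N) N) ∧
      Tendsto κ atTop atTop ∧ Tendsto (fun N => F (κ N) N) atTop (𝓝 0) := by
  classical
  have hL : 0 ≤ L := by
    obtain ⟨N, hN, hN0⟩ := ((hbdd 0).and (eventually_gt_atTop 0)).exists
    exact (abs_nonneg _).trans (hN ⟨0, hN0⟩)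
  obtain ⟨e, he⟩ := exists_surjective_nat ℚ
  set q : ℕ → ℝ := fun j => max (e j : ℝ) W0
  have hq : ∀ k j, ∃ y, 0 < y ∧ y ≤ 1 / (q j - L) ∧ q j = 1 / y + R k y ∧
      Tendsto (fun N : ℕ => (∑ i, 1 / (q j - X k N i)) / (N:ℝ)) atTop (𝓝 y) := fun k j =>
    htr k (q j) (le_max_right _ _)
  choose y hy0 hyb hyeq hylim using hq
  -- diagonal
  set G : ℕ → ℕ → ℝ := fun k N => |F k N| + (if ∀ i, |X k N i| ≤ L then (0:ℝ) else 1) +
    (if ∀ i, X k N i ≤ E k + 1 / ((k:ℝ) + 1) then (0:ℝ) else 1) +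
    ∑ j ∈ Finset.range (k + 1), |(∑ i, 1 / (q j - X k N i)) / (N:ℝ) - y k j|
  have hG : ∀ k, Tendsto (G k) atTop (𝓝 0) := fun k => by
    have h1 : Tendsto (fun N : ℕ => if ∀ i, |X k N i| ≤ L then (0:ℝ) else 1) atTop (𝓝 0) :=
      tendsto_const_nhds.congr' ((hbdd k).mono fun N hN => (if_pos hN).symm)
    have h2 : Tendsto (fun N : ℕ => if ∀ i, X k N i ≤ E k + 1 / ((k:ℝ) + 1) then (0:ℝ) else 1) atTop (𝓝 0) :=
      tendsto_const_nhds.congr' ((htop k _ (by positivity)).mono fun N hN => (if_pos hN).symm)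
    have h3 : Tendsto (fun N : ℕ => ∑ j ∈ Finset.range (k + 1), |(∑ i, 1 / (q j - X k N i)) / (N:ℝ) - y k j|)
        atTop (𝓝 0) := by
      simpa using tendsto_finsetSum (Finset.range (k + 1)) fun j _ => ((hylim k j).sub_const (y k j)).abs
    simpa [G] using (((hF k).abs.add h1).add h2).add h3
  obtain ⟨κ, hκ, hκG⟩ := diag G hG
  have p2 : ∀ k N, (0:ℝ) ≤ if ∀ i, |X k N i| ≤ L then (0:ℝ) else 1 := fun k N => by split <;> norm_num
  have p3 : ∀ k N, (0:ℝ) ≤ if ∀ i, X k N i ≤ E k + 1 / ((k:ℝ) + 1) then (0:ℝ) else 1 := fun k N => by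
    split <;> norm_num
  have p4 : ∀ k N : ℕ, (0:ℝ) ≤ ∑ j ∈ Finset.range (k + 1), |(∑ i, 1 / (q j - X k N i)) / (N:ℝ) - y k j| :=
    fun k N => Finset.sum_nonneg fun j _ => abs_nonneg _
  have hκF : Tendsto (fun N => F (κ N) N) atTop (𝓝 0) := squeeze_zero_norm (fun N => by
    rw [Real.norm_eq_abs]; simp only [G]; linarith [p2 (κ N) N, p3 (κ N) N, p4 (κ N) N]) hκG
  have hsmall := hκG.eventually (eventually_lt_nhds (zero_lt_one (α := ℝ)))
  set lam : ∀ N : ℕ, Fin N → ℝ := fun N => X (κ N) N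
  have hlb : ∀ᶠ N : ℕ in atTop, ∀ i, |lam N i| ≤ L := hsmall.mono fun N hN => by
    by_contra hc
    simp only [G, lam] at hN hc
    rw [if_neg hc] at hN
    linarith [abs_nonneg (F (κ N) N), p3 (κ N) N, p4 (κ N) N]
  have hlt : ∀ ε : ℝ, 0 < ε → ∀ᶠ N : ℕ in atTop, ∀ i, lam N i ≤ edgeR γ ρ + ε := fun ε hε => by
    have h1 := hκ.eventually ((hE (ε / 2) (by linarith)).and
      (tendsto_one_div_add_atTop_nhds_zero_nat.eventually (eventually_le_nhds (show (0:ℝ) < ε / 2 by linarith))))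
    filter_upwards [hsmall, h1] with N hN hN'
    have hc : ∀ i, X (κ N) N i ≤ E (κ N) + 1 / ((κ N : ℝ) + 1) := by
      by_contra hc
      simp only [G] at hN
      rw [if_neg hc] at hN
      linarith [abs_nonneg (F (κ N) N), p2 (κ N) N, p4 (κ N) N]
    intro i
    exact (hc i).trans (by linarith [hN'.1, hN'.2])
  -- every cluster law
  have key : ∀ U : Ultrafilter ℕ, (U : Filter ℕ) ≤ atTop → ∃ μ : Measure ℝ, Law μ (-L) L ∧
      (∀ w, W0 < w → w = 1 / cauchy μ w + Rk γ ρ (cauchy μ w)) ∧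
      (∀ᵐ x ∂μ, x ≤ edgeR γ ρ) ∧
      ∀ g : BoundedContinuousFunction ℝ ℝ,
        Tendsto (fun N : ℕ => (∑ i, g (lam N i)) / (N:ℝ)) (U : Filter ℕ) (𝓝 (∫ x, g x ∂μ)) := by
    intro U hU
    obtain ⟨μ, hμ, hlim⟩ := exists_cluster_bdd hL hlb U hU
    have := hμ.prob
    have hdom : ∀ w, W0 ≤ w → cauchy μ w ∈ dom ρ := fun w hw => by
      have hsw : L < w := hW.trans_le hw
      refine ⟨cauchy_pos hμ hsw, ?_⟩
      refine ((mul_le_mul_of_nonneg_left hρ.top_le (cauchy_pos hμ hsw).le).trans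
        (mul_le_mul_of_nonneg_right (cauchy_bounds hμ hsw).2 hρ.nonneg)).trans_lt ?_
      rw [one_div, inv_mul_lt_iff₀ (sub_pos.2 hsw)]
      linarith
    have hrat : ∀ j, q j = 1 / cauchy μ (q j) + Rk γ ρ (cauchy μ (q j)) := by
      intro j
      have hqW : W0 ≤ q j := le_max_right _ _
      have hav : Tendsto (fun N : ℕ => (∑ i, 1 / (q j - lam N i)) / (N:ℝ)) (U : Filter ℕ)
          (𝓝 (cauchy μ (q j))) := by
        refine hlim (fun x => 1 / (q j - x)) (continuousOn_const.div (by fun_prop) fun x hx => ?_) (by fun_prop)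
        linarith [hx.2]
      have hd : Tendsto (fun N : ℕ => (∑ i, 1 / (q j - lam N i)) / (N:ℝ) - y (κ N) j) atTop (𝓝 0) := by
        refine squeeze_zero_norm' ?_ hκG
        filter_upwards [hκ.eventually (eventually_ge_atTop j)] with N hN
        have h := Finset.single_le_sum (f := fun j => |(∑ i, 1 / (q j - X (κ N) N i)) / (N:ℝ) - y (κ N) j|)
          (fun j _ => abs_nonneg _) (Finset.mem_range.2 (Nat.lt_succ_of_le hN))
        rw [Real.norm_eq_abs]
        simp only [G, lam] at h ⊢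
        linarith [abs_nonneg (F (κ N) N), p2 (κ N) N, p3 (κ N) N]
      have hy : Tendsto (fun N => y (κ N) j) (U : Filter ℕ) (𝓝 (cauchy μ (q j))) := by
        simpa using hav.sub (hd.mono_left hU)
      have hRy := (hR _ (hdom _ hqW)).comp ((hκ.mono_left hU).prodMk hy)
      have hne : cauchy μ (q j) ≠ 0 := (hdom _ hqW).1.ne'
      refine tendsto_nhds_unique ?_ (((tendsto_const_nhds (x := (1:ℝ))).div hy hne).add hRy)
      exact tendsto_const_nhds.congr' (.of_forall fun N => hyeq (κ N) j)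
    refine ⟨μ, hμ, fun w hw => ?_, ?_, fun g => hlim g g.continuous.continuousOn g.continuous.measurable⟩
    · by_contra hne
      set φ := fun w => 1 / cauchy μ w + Rk γ ρ (cauchy μ w) - w
      have hG := (cauchy_series hμ (hW.trans hw)).analyticAt
      have hφ : ContinuousAt φ w := ((analyticAt_const.div hG (hdom w hw.le).1.ne').continuousAt.add
        ((analytic_Rk hρ γ (hdom w hw.le)).comp hG).continuousAt).sub continuousAt_id
      have h1 : ∀ᶠ v in 𝓝 w, φ v ≠ 0 ∧ W0 < v :=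
        (hφ.eventually_ne (show φ w ≠ 0 from fun h => hne (by simp only [φ] at h; linarith))).and
          (eventually_gt_nhds hw)
      obtain ⟨r, hr⟩ := (Rat.denseRange_cast (𝕜 := ℝ)).exists_mem_open
        (isOpen_interior (s := {v | φ v ≠ 0 ∧ W0 < v})) ⟨w, mem_interior_iff_mem_nhds.2 h1⟩
      obtain ⟨hv, hvW⟩ := interior_subset hr
      obtain ⟨j, rfl⟩ := he r
      have := hrat j
      simp only [q, max_eq_left hvW.le] at this
      exact hv (by simp only [φ]; linarith)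
    · have h2 : ∀ n : ℕ, ∀ᵐ x ∂μ, x ≤ edgeR γ ρ + 1 / ((n:ℝ) + 1) := fun n => by
        set c := edgeR γ ρ + 1 / ((n:ℝ) + 1)
        set g : ℝ → ℝ := fun x => max 0 (min 1 (x - c))
        have hg0 : ∀ x, 0 ≤ g x := fun x => le_max_left _ _
        have hlim0 : ∫ x, g x ∂μ = 0 := by
          refine tendsto_nhds_unique (hlim g (by fun_prop) (by fun_prop)) (tendsto_const_nhds.congr' ?_)
          refine Filter.Eventually.filter_mono hU ?_
          filter_upwards [hlt _ (show (0:ℝ) < 1 / ((n:ℝ) + 1) by positivity)] with N hN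
          have : ∀ i, g (lam N i) = 0 := fun i =>
            max_eq_left ((min_le_right _ _).trans (by linarith [hN i]))
          simp [this]
        have hgi : Integrable g μ := Integrable.of_bound (by fun_prop : Continuous g).aestronglyMeasurable 1
          (.of_forall fun x => by rw [Real.norm_eq_abs, abs_of_nonneg (hg0 x)]; exact max_le zero_le_one (min_le_left _ _))
        filter_upwards [(integral_eq_zero_iff_of_nonneg hg0 hgi).1 hlim0] with x hx
        by_contra hc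
        push Not at hc
        have : 0 < g x := lt_max_of_lt_right (lt_min one_pos (by linarith))
        simp only [Pi.zero_apply] at hx
        linarith
      filter_upwards [ae_all_iff.2 h2] with x hx
      refine le_of_forall_pos_le_add fun d hd => ?_
      obtain ⟨n, hn⟩ := exists_nat_one_div_lt hd
      linarith [hx n]
  obtain ⟨μ, hμ, heq, htopμ, hlimμ⟩ := key (Ultrafilter.of atTop) (Ultrafilter.of_le _)
  have := hμ.prob
  have hsub : μ.support ⊆ Set.Icc (-L) L := Measure.support_subset_of_isClosed isClosed_Icc hμ.mem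
  have hne : μ.support.Nonempty := Measure.nonempty_support (IsProbabilityMeasure.ne_zero μ)
  have hbA : BddAbove μ.support := bddAbove_Icc.mono hsub
  have hsup_le : sSup μ.support ≤ edgeR γ ρ := by
    refine csSup_le hne fun x hx => ?_
    exact Measure.support_subset_of_isClosed (isClosed_Iic (a := edgeR γ ρ)) htopμ hx
  have hev : ∀ᶠ w in atTop, 0 < cauchy μ w ∧ w = 1 / cauchy μ w + Rk γ ρ (cauchy μ w) := by
    filter_upwards [eventually_gt_atTop W0] with w hw
    exact ⟨cauchy_pos hμ (hW.trans hw), heq w hw⟩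
  have hsup : sSup μ.support = edgeR γ ρ := by
    refine le_antisymm hsup_le (edge_le_top hρ γ (L := -L) ⟨hμ.prob, ?_⟩ ?_ ⟨γ, ?_⟩)
    · filter_upwards [hμ.mem, Measure.support_mem_ae (μ := μ)] with x hx hx'
      exact ⟨hx.1, le_csSup hbA hx'⟩
    · filter_upwards [hev, eventually_gt_atTop W0] with w hw hw'
      refine ⟨?_, hw.2⟩
      have hsw : L < w := hW.trans hw'
      refine ((mul_le_mul_of_nonneg_left hρ.top_le (cauchy_pos hμ hsw).le).trans
        (mul_le_mul_of_nonneg_right (cauchy_bounds hμ hsw).2 hρ.nonneg)).trans_lt ?_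
      rw [one_div, inv_mul_lt_iff₀ (sub_pos.2 hsw)]
      linarith
    · rintro _ ⟨v, hv, rfl⟩
      have h1 : 0 ≤ ∫ x, v / (1 - x * v) ∂ρ := integral_nonneg_of_ae ((hρ.den_pos hv).mono fun x hx =>
        div_nonneg hv.1.le ((sub_pos.2 hv.2).le.trans hx.2))
      have h2 : 0 < 1 / v := one_div_pos.2 hv.1
      show γ ≤ 1 / v + Rk γ ρ v
      simp only [Rk]
      linarith
  refine ⟨μ, κ, hμ, isCompact_Icc.of_isClosed_subset Measure.isClosed_support hsub, hev, hsup,
    ⟨fun g => ?_, hlb, fun δ hδ => by rw [hsup]; exact hlt δ hδ⟩, hκ, hκF⟩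
  rw [tendsto_iff_ultrafilter]
  intro U hU
  obtain ⟨μ', hμ', heq', -, hlim'⟩ := key U hU
  have hev' : ∀ᶠ w in atTop, w = 1 / cauchy μ' w + Rk γ ρ (cauchy μ' w) :=
    (eventually_gt_atTop W0).mono fun w hw => heq' w hw
  rw [integral_unique hμ hμ' (cauchy_unique hρ γ hμ hμ' (hev.mono fun w h => h.2) hev') g]
  exact hlim' g

end Vale.Agent.P166.Pattern.Signed
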