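import Vale.Agent.P166.Pattern.Signed.Stage
import Vale.Agent.P166.Pattern.Signed.Diag
import Vale.Agent.P166.Pattern.Assemble
import Vale.Agent.P166.Haar

/-!
The limit of the pressure for every compactly supported free infinitely divisible law: semicircle part,
drift and any bounded family of jumps of either sign.
-/

open MeasureTheory Filter Matrix
open scoped Topology

noncomputable section

namespace Vale.Agent.P166.Pattern.Signed

open Multi (Rk dom edgeR cauchy Law)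

variable {ρ : Measure ℝ} {A : ℝ}

lemma law_mono {μ : Measure ℝ} {L L' : ℝ} (hL : L ≤ L') (h : Law μ (-L) L) : Law μ (-L') L' :=
  ⟨h.prob, h.mem.mono fun _ hx => ⟨(neg_le_neg hL).trans hx.1, hx.2.trans hL⟩⟩

lemma near_mono {μ : Measure ℝ} {L L' : ℝ} (hL : L ≤ L') {lam : ∀ N : ℕ, Fin N → ℝ} (h : Near μ L lam) :
    Near μ L' lam :=
  ⟨h.weak, h.bdd.mono fun _ hN k => (hN k).trans hL, h.top⟩

lemma reindex {f : ℕ → ℝ → ℝ} {φ : ℕ → ℕ} (hφ : Tendsto φ atTop atTop) {y l : ℝ}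
    (h : Tendsto (fun q : ℕ × ℝ => f q.1 q.2) (atTop ×ˢ 𝓝 y) (𝓝 l)) :
    Tendsto (fun q : ℕ × ℝ => f (φ q.1) q.2) (atTop ×ˢ 𝓝 y) (𝓝 l) :=
  h.comp (Tendsto.prodMap hφ tendsto_id)

/-- a law with the given kernel, and spectra near it along which the pressure tends to `p` -/
def CoreAt (γ : ℝ) (ρ : Measure ℝ) (A β p : ℝ) : Prop :=
  ∀ ν : ∀ N : ℕ, Measure (Mat N), (∀ N, IsHaarOrthogonal (ν N)) →
    ∃ (μ : Measure ℝ) (X : ∀ N : ℕ, Fin N → ℝ), Law μ (-Lb γ ρ A) (Lb γ ρ A) ∧ IsCompact μ.support ∧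
      (∀ᶠ w in atTop, 0 < cauchy μ w ∧ w = 1 / cauchy μ w + Rk γ ρ (cauchy μ w)) ∧
      Near μ (Lb γ ρ A) X ∧
      Tendsto (fun N : ℕ => ∫ U, min |pressure β (X N) U - p| 1 ∂ν N) atTop (𝓝 0)

/-- spectra at each discretisation step whose pressures `P n` tend to `p` along `φ` give `CoreAt` -/
theorem core_of (h : Carried ρ A) (γ : ℝ) {β δ : ℝ} (hβ : 0 ≤ β) (hδ : 0 < δ) {P : ℕ → ℝ}
    (hP : ∀ n, ∀ ν : ∀ N : ℕ, Measure (Mat N), (∀ N, IsHaarOrthogonal (ν N)) → ∃ X : ∀ N : ℕ, Fin N → ℝ,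
      (∀ᶠ N : ℕ in atTop, ∀ i, |X N i| ≤ Lb γ ρ A) ∧
      (∀ ε : ℝ, 0 < ε → ∀ᶠ N : ℕ in atTop, ∀ i, X N i ≤ En γ ρ A δ n + ε) ∧
      (∀ w, Lb γ ρ A + A + RT ρ + 3 ≤ w → ∃ y, 0 < y ∧ y ≤ 1 / (w - Lb γ ρ A) ∧
        w = 1 / y + Rn γ ρ A δ n y ∧ Tendsto (fun N : ℕ => (∑ i, 1 / (w - X N i)) / (N:ℝ)) atTop (𝓝 y)) ∧
      Tendsto (fun N : ℕ => ∫ U, min |pressure β (X N) U - P n| 1 ∂ν N) atTop (𝓝 0))
    {φ : ℕ → ℕ} (hφ : StrictMono φ) {p : ℝ} (hp : Tendsto (P ∘ φ) atTop (𝓝 p)) :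
    CoreAt γ ρ A β p := by
  intro ν hν
  set L := Lb γ ρ A
  choose X hXb hXt hXtr hX0 using fun k => hP (φ k) ν hν
  have hR := RT_pos (ρ := ρ)
  obtain ⟨μ, κ, hμ, hμc, heq, -, hnear, hκ, hF⟩ :=
    diag_law h γ (L := L) (W0 := L + A + RT ρ + 3) (by linarith [h.nonneg]) (by linarith)
      X (fun k => Rn γ ρ A δ (φ k)) (fun k => En γ ρ A δ (φ k))
      (fun k N => ∫ U, min |pressure β (X k N) U - P (φ k)| 1 ∂ν N) hXb hXt
      (fun ε hε => hφ.tendsto_atTop.eventually (En_eventually h hδ γ hε)) hXtr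
      (fun y0 hy => reindex (f := Rn γ ρ A δ) hφ.tendsto_atTop (Rn_tendsto h hδ γ hy)) hX0
  refine ⟨μ, fun N => X (κ N) N, hμ, hμc, heq, hnear, ?_⟩
  have hz : Tendsto (fun N : ℕ => (∫ U, min |pressure β (X (κ N) N) U - P (φ (κ N))| 1 ∂ν N) +
      |P (φ (κ N)) - p|) atTop (𝓝 0) := by
    simpa using hF.add (((hp.comp hκ).sub_const p).abs)
  refine squeeze_zero' (.of_forall fun N => integral_nonneg fun U => le_min (abs_nonneg _) zero_le_one) ?_ hz
  filter_upwards [eventually_gt_atTop 0] with N hN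
  have := (hν N).1
  have i1 : Integrable (fun U => min |pressure β (X (κ N) N) U - P (φ (κ N))| 1) (ν N) :=
    integrable_of_continuous (hν N) hN hβ _ (φ := fun x => min |x - P (φ (κ N))| 1) (by fun_prop)
  refine (integral_mono_ae (integrable_of_continuous (hν N) hN hβ _ (φ := fun x => min |x - p| 1) (by fun_prop))
    (i1.add (integrable_const |P (φ (κ N)) - p|)) (.of_forall fun U => ?_)).trans_eq ?_
  · simp only [Pi.add_apply]
    rw [← min_add_add_right]
    exact min_le_min (abs_sub_le _ _ _) (le_add_of_nonneg_right (abs_nonneg _))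
  · rw [integral_add' i1 (integrable_const _)]
    simp

/-- a law with the given kernel, and a sequence of spectra near it along which the pressure converges -/
theorem core (h : Carried ρ A) (γ : ℝ) {β : ℝ} (hβ : 0 ≤ β) (hβA : β * A ≤ 1 / 10) :
    ∃ p : ℝ, CoreAt γ ρ A β p := by
  set δ := min (1:ℝ) (1 / (10 * β + 1))
  have hδ : 0 < δ := lt_min one_pos (by positivity)
  have hδ1 : δ ≤ 1 := min_le_left _ _
  have hβB : β * max A δ ≤ 1 / 10 := by
    rw [mul_max_of_nonneg _ _ hβ]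
    refine max_le hβA ((mul_le_mul_of_nonneg_left (min_le_right _ _) hβ).trans ?_)
    rw [mul_one_div, div_le_iff₀ (by positivity)]
    linarith
  choose P hP using fun n => stage h hδ hδ1 γ n hβ hβB
  choose ν0 hν0 using exists_haar
  set L := Lb γ ρ A
  have hPb : ∀ n, P n ∈ Set.Icc (-(β * L / 2)) (β * L / 2) := fun n => by
    refine abs_le.1 ?_
    by_contra hlt
    push Not at hlt
    obtain ⟨X, hX, -, -, hX0⟩ := hP n ν0 hν0
    set c := min (|P n| - β * L / 2) 1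
    have hc : 0 < c := lt_min (sub_pos.2 hlt) one_pos
    obtain ⟨N, ⟨hN1, hN2⟩, hN3⟩ := ((hX.and (eventually_gt_atTop 0)).and
      (hX0.eventually (eventually_lt_nhds hc))).exists
    have := (hν0 N).1
    refine not_lt.2 ?_ hN3
    calc c = ∫ _U, c ∂ν0 N := by simp
      _ ≤ _ := by
          refine integral_mono_ae (integrable_const _)
            (integrable_of_continuous (hν0 N) hN2 hβ (X N) (φ := fun x => min |x - P n| 1) (by fun_prop))
            ((hν0 N).2.1.mono fun U hU => min_le_min ?_ le_rfl)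
          have h1 := abs_pressure_le hN2 hβ hN1 hU
          have h2 := abs_sub_abs_le_abs_sub (P n) (pressure β (X N) U)
          rw [abs_sub_comm (P n)] at h2
          linarith
  obtain ⟨p, -, φ, hφ, hp⟩ := isCompact_Icc.tendsto_subseq hPb
  exact ⟨p, core_of h γ hβ hδ hP hφ hp⟩

/-- **the law, and the limit of the pressure wherever the limit along its discretisation is known** -/
theorem limit_free_id_at (γ : ℝ) (h : Carried ρ A) :
    ∃ μ : Measure ℝ, IsProbabilityMeasure μ ∧ IsCompact μ.support ∧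
      (∀ᶠ w in atTop, 0 < cauchy μ w ∧ w = 1 / cauchy μ w + Rk γ ρ (cauchy μ w)) ∧
      (∃ lam, Admissible μ lam) ∧
      ∀ β : ℝ, 0 ≤ β → (∀ᵐ x ∂ρ, |β * x| ≤ 1 / 10) → ∃ A', Carried ρ A' ∧ β * A' ≤ 1 / 10 ∧
        ∀ p : ℝ, CoreAt γ ρ A' β p → ∀ lam : ∀ N : ℕ, Fin N → ℝ, Admissible μ lam →
        ∀ ν : ∀ N : ℕ, Measure (Mat N), (∀ N, IsHaarOrthogonal (ν N)) → ∀ ε : ℝ, 0 < ε →
          Tendsto (fun N : ℕ => (ν N).real {U | ε ≤ |pressure β (lam N) U - p|}) atTop (𝓝 0) := by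
  choose ν0 hν0 using exists_haar
  obtain ⟨p0, hp0⟩ := core h γ le_rfl (by norm_num)
  obtain ⟨μ, X0, hμ, hμc, heq, hX0, -⟩ := hp0 ν0 hν0
  haveI := hμ.prob
  refine ⟨μ, hμ.prob, hμc, heq, exists_admissible hμc hX0.weak, fun β hβ hβρ => ?_⟩
  -- a carrier adapted to `β`
  obtain ⟨A', h', hA'⟩ : ∃ A', Carried ρ A' ∧ β * A' ≤ 1 / 10 := by
    rcases eq_or_lt_of_le hβ with h0 | h0
    · exact ⟨A, h, by rw [← h0]; norm_num⟩
    · refine ⟨min A (1 / (10 * β)), ⟨h.finite, le_min h.nonneg (by positivity), ?_⟩, ?_⟩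
      · filter_upwards [h.mem, hβρ] with x hx hx'
        have h2 : |x| ≤ min A (1 / (10 * β)) := by
          refine le_min (abs_le.2 hx) ?_
          rw [abs_mul, abs_of_pos h0] at hx'
          rw [le_div_iff₀ (by positivity)]
          linarith
        exact abs_le.1 h2
      · refine (mul_le_mul_of_nonneg_left (min_le_right _ _) hβ).trans (le_of_eq ?_)
        field_simp
  refine ⟨A', h', hA', fun p hp lam hlam ν hν ε hε => ?_⟩
  obtain ⟨μ', X, hμ', -, heq', hX, hS⟩ := hp ν hν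
  haveI := hμ'.prob
  set L0 := max (Lb γ ρ A) (Lb γ ρ A')
  have h1' : Law μ' (-L0) L0 := law_mono (le_max_right _ _) hμ'
  have h2' : Law μ (-L0) L0 := law_mono (le_max_left _ _) hμ
  have he : μ' = μ := ext_of_forall_integral_eq_of_IsFiniteMeasure fun g =>
    Multi.integral_unique h1' h2'
      (cauchy_unique h γ h1' h2' (heq'.mono fun _ hw => hw.2) (heq.mono fun _ hw => hw.2)) g
  subst he
  set L := max (Lb γ ρ A') (|sSup μ'.support| + |sInf μ'.support| + 1)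
  have hbL : |sSup μ'.support| ≤ L := le_trans (by linarith [abs_nonneg (sInf μ'.support)]) (le_max_right _ _)
  set φ := fun x : ℝ => min |x - p| 1
  have hφ : Continuous φ := by fun_prop
  have h1 : Tendsto (fun N : ℕ => ∫ U, φ (pressure β (lam N) U) ∂ν N) atTop (𝓝 0) := by
    simpa [φ] using (near_phi_diff hμc hbL (near_mono (le_max_left _ _) hX) (near_mono (le_max_right _ _) (hlam.near hμc))
      hβ hν hφ).add hS
  have hmin : 0 < min ε 1 := lt_min hε one_pos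
  refine squeeze_zero' (Eventually.of_forall fun N => measureReal_nonneg) ?_
    (by simpa using h1.div_const (min ε 1))
  filter_upwards [eventually_gt_atTop 0] with N hN
  have := (hν N).1
  rw [le_div_iff₀ hmin, mul_comm]
  refine le_trans ?_ (mul_meas_ge_le_integral_of_nonneg
    (.of_forall fun U => le_min (abs_nonneg _) zero_le_one)
    (integrable_of_continuous (hν N) hN hβ (lam N) hφ) (min ε 1))
  exact mul_le_mul_of_nonneg_left
    (measureReal_mono fun U (hU : ε ≤ |pressure β (lam N) U - p|) => min_le_min hU le_rfl) hmin.le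

/-- the limit exists for every compactly supported free infinitely divisible law -/
theorem limit_free_id (γ : ℝ) (h : Carried ρ A) :
    ∃ μ : Measure ℝ, IsProbabilityMeasure μ ∧ IsCompact μ.support ∧
      (∀ᶠ w in atTop, 0 < cauchy μ w ∧ w = 1 / cauchy μ w + Rk γ ρ (cauchy μ w)) ∧
      (∃ lam, Admissible μ lam) ∧
      ∀ β : ℝ, 0 ≤ β → (∀ᵐ x ∂ρ, |β * x| ≤ 1 / 10) → ∃ p : ℝ, ∀ lam : ∀ N : ℕ, Fin N → ℝ, Admissible μ lam →
        ∀ ν : ∀ N : ℕ, Measure (Mat N), (∀ N, IsHaarOrthogonal (ν N)) → ∀ ε : ℝ, 0 < ε →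
          Tendsto (fun N : ℕ => (ν N).real {U | ε ≤ |pressure β (lam N) U - p|}) atTop (𝓝 0) := by
  obtain ⟨μ, hμ, hμc, heq, hadm, hlim⟩ := limit_free_id_at γ h
  refine ⟨μ, hμ, hμc, heq, hadm, fun β hβ hβρ => ?_⟩
  obtain ⟨A', h', hA', hl⟩ := hlim β hβ hβρ
  obtain ⟨p, hp⟩ := core h' γ hβ hA'
  exact ⟨p, hl p hp⟩

end Vale.Agent.P166.Pattern.Signed
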