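import Vale.Agent.P166.Pattern.Signed.Limit
import Vale.Agent.P166.Pattern.Multi.Link

/-!
From the pattern model with strengths of either sign to rotated diagonal couplings.
-/

open MeasureTheory ProbabilityTheory Filter Matrix
open scoped Topology

noncomputable section

namespace Vale.Agent.P166.Pattern.Signed

variable {ι : Type*} [Fintype ι] [DecidableEq ι]

lemma good_sLw {M : ℕ} (b : Fin M → ℝ) {w : (ι → Bool) → ℝ} (hw : ∀ σ, 0 < w σ) (v : Fin M → ι → ℝ) :
    Good (sLw b w v) := by
  refine ⟨(continuous_sLw b hw v).measurable, ?_⟩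
  have h1 : Poly fun g : Fin M → ι → ℝ => |Real.log (∑ σ, w σ)| + ∑ σ, |sen b v g σ| := by
    refine (Poly.const _).add (Poly.sum _ fun σ _ => (Poly.sum _ fun k _ => Poly.const_mul (Poly.pow ?_ 2) _).abs)
    have h2 : Poly fun y : ι → ℝ => X (v k) y σ :=
      poly_lin (co (v k)) (F := fun z => z σ) (Pot.poly_eval (F := fun x => x)
        ⟨1, 1, fun x => by simp [Real.norm_eq_abs]⟩ σ)
    exact h2.comp 1 fun g => by rw [one_mul]; linarith [norm_le_pi_norm g k]
  refine h1.mono fun g => ?_
  have := abs_le.1 (sLw_bounds b hw v g)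
  rw [abs_of_nonneg (a := |Real.log (∑ σ, w σ)| + ∑ σ, |sen b v g σ|) (by positivity), abs_le]
  constructor <;> linarith [neg_abs_le (Real.log (∑ σ, w σ)), le_abs_self (Real.log (∑ σ, w σ))]

/-- the variance of the log partition function is at most linear in the number of patterns -/
theorem var_sLw {w : (ι → Bool) → ℝ} (hw : ∀ σ, 0 < w σ) (M : ℕ) (b : Fin M → ℝ)
    (hb : ∀ k, |b k| ≤ 1 / 10) {v : ι → ℝ} (hv : v ∈ Simplex ι) :
    ∫ g, (sLw b w (fun _ => v) g - sFw b w fun _ => v) ^ 2 ∂pats ι M ≤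
      M * (√(1 - 2 * (1 / 10 : ℝ)))⁻¹ := by
  set F := sLw b w (fun _ => v)
  set b' := fun (k : Fin M) => Function.update b k 0
  set Fk := fun k g => sLw (b' k) w (fun _ => v) g
  have hF : Good F := good_sLw b hw _
  have hFk : ∀ k, Good (Fk k) := fun k => good_sLw _ hw _
  have hsplit : ∀ k (g : Fin M → ι → ℝ) σ, sen b (fun _ => v) g σ =
      b k / 2 * X v (g k) σ ^ 2 + sen (b' k) (fun _ => v) g σ := fun k g σ => by
    simp only [sen]
    rw [← Finset.add_sum_erase _ _ (Finset.mem_univ k),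
      ← Finset.add_sum_erase _ (fun j => b' k j / 2 * X v (g j) σ ^ 2) (Finset.mem_univ k)]
    simp only [b', Function.update_self, zero_div, zero_mul, zero_add]
    congr 1
    exact Finset.sum_congr rfl fun j hj => by rw [Function.update_of_ne (Finset.ne_of_mem_erase hj)]
  have hu' : ∀ k g y σ, sen (b' k) (fun _ => v) (Function.update g k y) σ = sen (b' k) (fun _ => v) g σ :=
    fun k g y σ => Finset.sum_congr rfl fun j _ => by
      by_cases h : j = k
      · subst h; simp [b']
      · rw [Function.update_of_ne h]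
  have hup : ∀ k g y, Fk k (Function.update g k y) = Fk k g := fun k g y => by simp only [Fk, sLw, hu']
  have hu : ∀ σ, ∑ i, co v σ i ^ 2 = 1 := fun σ => by
    rw [← cov_co_self hv σ]; exact Finset.sum_congr rfl fun i _ => sq _
  have hi : ∀ σ, Integrable (fun y => Real.exp (1 / 10 * X v y σ ^ 2)) (gauss ι) := fun σ =>
    integrable_linear (co v σ) (hu σ) (F := fun t => Real.exp (1 / 10 * t ^ 2)) (integrable_exp_sq (by norm_num))
  have hC : ∀ k, ∫ g, (F g - Fk k g) * (F g - Fk k g) ∂pats ι M ≤ (√(1 - 2 * (1 / 10 : ℝ)))⁻¹ := by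
    intro k
    have hd := good_sub hF (hFk k)
    have hdd := good_mul hd hd
    have h := mp_update (ι := ι) k
    conv_lhs => rw [← h.map_eq, integral_map h.measurable.aemeasurable hdd.1.aestronglyMeasurable]
    have hint : Integrable (fun p : (Fin M → ι → ℝ) × (ι → ℝ) =>
        (F (Function.update p.1 k p.2) - Fk k (Function.update p.1 k p.2)) *
        (F (Function.update p.1 k p.2) - Fk k (Function.update p.1 k p.2))) ((pats ι M).prod (gauss ι)) :=
      (h.integrable_comp hdd.1.aestronglyMeasurable).2 (integrable_pats hdd)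
    rw [integral_prod _ hint]
    refine (integral_mono hint.integral_prod_left
      (integrable_const ((√(1 - 2 * (1 / 10 : ℝ)))⁻¹)) fun g => ?_).trans (le_of_eq (by simp))
    set S := ∑ σ, w σ * Real.exp (sen (b' k) (fun _ => v) g σ)
    have hS : 0 < S := sum_w_pos hw _
    have hpt : ∀ y, (F (Function.update g k y) - Fk k (Function.update g k y)) *
        (F (Function.update g k y) - Fk k (Function.update g k y)) ≤
          ∑ σ, w σ * Real.exp (sen (b' k) (fun _ => v) g σ) / S * Real.exp (1 / 10 * X v y σ ^ 2) := by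
      intro y
      rw [hup]
      set p := fun σ => w σ * Real.exp (sen (b' k) (fun _ => v) g σ) / S
      have hp : ∀ σ, 0 < p σ := fun σ => div_pos (mul_pos (hw σ) (Real.exp_pos _)) hS
      have hp1 : ∑ σ, p σ = 1 := by simp only [p, ← Finset.sum_div]; exact div_self hS.ne'
      set Y := ∑ σ, p σ * Real.exp (1 / 10 / 2 * X v y σ ^ 2)
      have e : F (Function.update g k y) - Fk k g =
          Real.log (∑ σ, p σ * Real.exp (b k / 2 * X v y σ ^ 2)) := by
        simp only [F, Fk, sLw, hsplit k, Function.update_self, hu', Real.exp_add]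
        rw [← Real.log_div (Finset.sum_pos (fun σ _ => by have := hw σ; positivity) Finset.univ_nonempty).ne'
          hS.ne', Finset.sum_div]
        congr 1
        exact Finset.sum_congr rfl fun σ _ => by simp only [p]; ring
      have hY : |F (Function.update g k y) - Fk k g| ≤ Real.log Y := by
        have := (abs_log_le hp (fun σ => b k / 2 * X v y σ ^ 2) (fun σ => 1 / 10 / 2 * X v y σ ^ 2) fun σ => by
          rw [abs_mul, abs_of_nonneg (sq_nonneg (X v y σ)), abs_div, abs_two]; gcongr; exact hb k).1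
        simpa only [hp1, Real.log_one, sub_zero, ← e] using this
      have hY0 : 0 < Y := Finset.sum_pos (fun σ _ => mul_pos (hp σ) (Real.exp_pos _)) Finset.univ_nonempty
      have hl1 := Real.log_le_sub_one_of_pos hY0
      have hY2 : Y ^ 2 ≤ ∑ σ, p σ * Real.exp (1 / 10 * X v y σ ^ 2) := by
        have h0 := Finset.sum_sq_le_sum_mul_sum_of_sq_le_mul Finset.univ (fun σ _ => (hp σ).le)
          (fun σ _ => (mul_pos (hp σ) (Real.exp_pos (1 / 10 * X v y σ ^ 2))).le)
          (r := fun σ => p σ * Real.exp (1 / 10 / 2 * X v y σ ^ 2)) fun σ _ => le_of_eq (by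
            rw [mul_pow, sq (Real.exp _), ← Real.exp_add]; ring_nf)
        rwa [hp1, one_mul] at h0
      have h0 := abs_nonneg (F (Function.update g k y) - Fk k g)
      rw [← abs_mul_abs_self]
      nlinarith
    refine (integral_mono_of_nonneg (.of_forall fun y => mul_self_nonneg _)
      (integrable_finsetSum _ fun σ _ => (hi σ).const_mul _) (.of_forall hpt)).trans (le_of_eq ?_)
    rw [integral_finsetSum _ fun σ _ => (hi σ).const_mul _]
    have h1 : ∀ σ, ∫ y, Real.exp (1 / 10 * X v y σ ^ 2) ∂gauss ι = (√(1 - 2 * (1 / 10 : ℝ)))⁻¹ := fun σ => by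
      rw [show (∫ y, Real.exp (1 / 10 * X v y σ ^ 2) ∂gauss ι) = ∫ t, Real.exp (1 / 10 * t ^ 2) ∂gaussianReal 0 1
        from integral_linear (co v σ) (hu σ) (F := fun t => Real.exp (1 / 10 * t ^ 2)) (by fun_prop),
        integral_exp_sq (by norm_num)]
    simp only [integral_const_mul, h1, ← Finset.sum_mul, ← Finset.sum_div]
    rw [div_self hS.ne', one_mul]
  have h := efron M F Fk _ hF hFk hup hC
  have i1 := integrable_pats (good_mul hF hF)
  have i2 : Integrable (fun g => 2 * (∫ g, F g ∂pats ι M) * F g) (pats ι M) := (integrable_pats hF).const_mul _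
  have i3 : Integrable (fun g => F g * F g - 2 * (∫ g, F g ∂pats ι M) * F g) (pats ι M) := i1.sub i2
  refine le_trans (le_of_eq ?_) h
  rw [show (fun g => (F g - sFw b w fun _ => v) ^ 2) = fun g => F g * F g - 2 * (∫ g, F g ∂pats ι M) * F g +
      (∫ g, F g ∂pats ι M) ^ 2 by funext g; simp only [sFw, F]; ring,
    integral_add i3 (integrable_const _), integral_sub i1 i2, integral_const_mul, integral_const]
  simp only [probReal_univ, one_smul]
  ring

variable {M N : ℕ}

lemma pC_one (β : ℝ) (c : Fin M → ℝ) (g : Fin M → Fin N → ℝ) {V : Mat N}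
    (hV : V = fun i j => if i = j then 1 else 0) :
    Multi.pC β c (fun p => g p.1 p.2) V =
      sLw (fun k => β * c k) (w0 (Fin N)) (fun _ => unif (Fin N)) g / N := by
  subst hV
  simp only [Multi.pC, rot, mul_ite, mul_one, mul_zero, Finset.sum_ite_eq', Finset.mem_univ, if_true, sLw, w0,
    Fintype.card_fin, ← Finset.mul_sum]
  rw [one_div_mul_eq_div]
  congr 4
  funext σ
  congr 1
  simp only [sen, X, lin, co, unif, Fintype.card_fin, Finset.mul_sum]
  refine Finset.sum_congr rfl fun m _ => ?_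
  have hs : √((N:ℝ)⁻¹) * √((N:ℝ)⁻¹) = (N:ℝ)⁻¹ := Real.mul_self_sqrt (by positivity)
  have e : ∑ i, √((N:ℝ)⁻¹) * sg (σ i) * g m i = √((N:ℝ)⁻¹) * ∑ i, g m i * spin (σ i) := by
    rw [Finset.mul_sum]
    exact Finset.sum_congr rfl fun i _ => by simp only [sg, spin]; ring
  rw [e, mul_pow, sq (√((N:ℝ)⁻¹)), hs]
  ring

/-- the functional of a pattern model with a given limit -/
theorem good_functional_at {r : ℕ} {β : ℝ} {a : Fin r → ℝ} (ha : ∀ j, |β * a j| ≤ 1 / 10) {α : Fin r → ℝ}
    (hα : ∀ j, 0 < α j) {p : ℝ}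
    (hp : Tendsto (fun N : ℕ => fC (fun j => β * a j) N (Multi.Ks α N) / N) atTop (𝓝 p)) :
    ∀ ν : ∀ N, Measure (Mat N), (∀ N, IsHaarOrthogonal (ν N)) →
      ∃ Ψ : ∀ N : ℕ, (Fin (∑ j, Multi.Ks α N j) × Fin N → ℝ) → ℝ,
        (∀ N, Measurable (Ψ N)) ∧ (∀ N g, 0 ≤ Ψ N g ∧ Ψ N g ≤ 1) ∧
        Tendsto (fun N : ℕ => ∫ g, Ψ N g ∂gauss (Fin (∑ j, Multi.Ks α N j) × Fin N)) atTop (𝓝 0) ∧
        ∀ N g (lam : Fin N → ℝ) (Q : Matrix (Fin N) (Fin N) ℝ), Q ∈ Matrix.orthogonalGroup (Fin N) ℝ →
          Multi.WC (Multi.cs a α N) g = Qᵀ * Matrix.diagonal lam * Q →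
          ∫ U, min |pressure β lam U - p| 1 ∂ν N = Ψ N g := by
  intro ν hν
  set bs : Fin r → ℝ := fun j => β * a j
  set φ : ℝ → ℝ := fun x => min |x - p| 1 with hφ
  have hφ0 : ∀ x, 0 ≤ φ x := fun x => le_min (abs_nonneg _) zero_le_one
  have hφ1 : ∀ x, φ x ≤ 1 := fun x => min_le_right _ _
  have hφc : Continuous φ := by unfold φ; fun_prop
  set Ψ := fun (N : ℕ) (g : Fin (∑ j, Multi.Ks α N j) × Fin N → ℝ) =>
    ∫ U, φ (Multi.pC β (Multi.cs a α N) g U) ∂ν N
  have hP : ∀ N : ℕ, IsProbabilityMeasure (ν N) := fun N => (hν N).1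
  have hj : ∀ N : ℕ, Continuous fun q : (Fin (∑ j, Multi.Ks α N j) × Fin N → ℝ) × Mat N =>
      φ (Multi.pC β (Multi.cs a α N) q.1 q.2) := fun N => hφc.comp (Multi.continuous_pC β _)
  refine ⟨Ψ, fun N => (hj N).measurable.stronglyMeasurable.integral_prod_right'.measurable, fun N g => ?_, ?_, ?_⟩
  · refine ⟨integral_nonneg fun U => hφ0 _, ?_⟩
    refine (integral_mono_of_nonneg (.of_forall fun U => hφ0 _) (integrable_const (1:ℝ))
      (.of_forall fun U => hφ1 _)).trans (le_of_eq ?_)
    simp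
  swap
  · intro N g lam Q hQ hW
    have hm : Measurable fun (U : Mat N) (i j : Fin N) => ∑ k, Q i k * U k j := by fun_prop
    have hinv := (hν N).2.2 (fun i j => Q i j) hQ
    show _ = ∫ U, φ (Multi.pC β (Multi.cs a α N) g U) ∂ν N
    conv_lhs => rw [← hinv]
    have hmp : Measurable fun V : Mat N => min |pressure β lam V - p| 1 :=
      hφc.measurable.comp (measurable_pressure β lam)
    rw [integral_map hm.aemeasurable hmp.aestronglyMeasurable]
    simp only [Multi.pC_eq_pressure β _ hW, φ]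
  · set C := (√(1 - 2 * (1 / 10 : ℝ)))⁻¹
    have hC : 0 ≤ C := by positivity
    have hlim : Tendsto (fun N : ℕ => ((∑ j, α j) * C + 1) / 2 * (√(N:ℝ))⁻¹ +
        |fC bs N (Multi.Ks α N) / N - p|) atTop (𝓝 0) := by
      simpa using ((tendsto_inv_atTop_zero.comp (Real.tendsto_sqrt_atTop.comp tendsto_natCast_atTop_atTop)).const_mul
        (((∑ j, α j) * C + 1) / 2)).add ((hp.sub_const p).abs)
    refine squeeze_zero' (.of_forall fun N => integral_nonneg fun g => integral_nonneg fun U => hφ0 _) ?_ hlim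
    filter_upwards [eventually_gt_atTop 0] with N hN
    set M := (∑ j, Multi.Ks α N j)
    set c := fun k => β * Multi.cs a α N k
    have hc01 : ∀ k, |c k| ≤ 1 / 10 := fun k => ha _
    set one : Mat N := fun i j => if i = j then 1 else 0
    have hint : Integrable (fun q : (Fin M × Fin N → ℝ) × Mat N => φ (Multi.pC β (Multi.cs a α N) q.1 q.2))
        ((gauss (Fin M × Fin N)).prod (ν N)) :=
      Integrable.of_bound (hj N).aestronglyMeasurable 1 (.of_forall fun q => by
        rw [Real.norm_eq_abs, abs_of_nonneg (hφ0 _)]; exact hφ1 _)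
    have hmo : Measurable fun g : Fin M × Fin N → ℝ => φ (Multi.pC β (Multi.cs a α N) g one) :=
      ((hj N).comp (by fun_prop : Continuous fun g : Fin M × Fin N → ℝ => (g, one))).measurable
    have h1 : ∫ g, Ψ N g ∂gauss (Fin M × Fin N) =
        ∫ g, φ (Multi.pC β (Multi.cs a α N) g one) ∂gauss (Fin M × Fin N) := by
      simp only [Ψ]
      rw [integral_integral_swap hint]
      refine (integral_congr_ae ((hν N).2.1.mono fun U hU => ?_)).trans (by simp :
        ∫ _, ∫ g, φ (Multi.pC β (Multi.cs a α N) g one) ∂gauss (Fin M × Fin N) ∂ν N = _)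
      have hm : Measurable (rot (M := M) U) := by unfold rot; fun_prop
      conv_rhs => rw [← mp_rot (M := M) hU, integral_map hm.aemeasurable
        hmo.aestronglyMeasurable]
      exact integral_congr_ae (.of_forall fun g =>
        congrArg φ (Multi.pC_rot β (Multi.cs a α N) g (U := U) (V := one) rfl))
    have h2 : ∫ g, φ (Multi.pC β (Multi.cs a α N) g one) ∂gauss (Fin M × Fin N) =
        ∫ g, φ (sLw c (w0 (Fin N)) (fun _ => unif (Fin N)) g / N) ∂pats (Fin N) M := by
      have h := mp_uncurry (Fin N) M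
      rw [← h.map_eq, integral_map h.measurable.aemeasurable
        hmo.aestronglyMeasurable]
      exact integral_congr_ae (.of_forall fun g => congrArg φ (pC_one β (Multi.cs a α N) g (V := one) rfl))
    rw [h1, h2]
    have hv : unif (Fin N) ∈ Simplex (Fin N) := unif_mem (by simpa using hN)
    set L := fun g => sLw c (w0 (Fin N)) (fun _ => unif (Fin N)) g
    set F := sFw c (w0 (Fin N)) (fun _ => unif (Fin N))
    have hvar : ∫ g, (L g - F) ^ 2 ∂pats (Fin N) M ≤ M * C := var_sLw w0_pos M c hc01 hv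
    have hG : Good L := good_sLw _ w0_pos _
    have hd : Good fun g => (L g - F) ^ 2 := ⟨(hG.1.sub_const F).pow_const 2, (hG.2.sub (Poly.const F)).pow 2⟩
    have hN' : (0:ℝ) < N := by exact_mod_cast hN
    set s := √(N:ℝ)
    have hs : 0 < s := Real.sqrt_pos.2 hN'
    have i1 : Integrable (fun g => (L g - F) ^ 2 / (2 * s * N)) (pats (Fin N) M) :=
      (integrable_pats hd).div_const _
    refine (integral_mono_of_nonneg (.of_forall fun g => hφ0 _) (i1.add (integrable_const
      (s / (2 * N) + |fC bs N (Multi.Ks α N) / N - p|))) (.of_forall fun g => ?_)).trans ?_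
    · refine (min_le_left _ _).trans ?_
      show |L g / N - p| ≤ (L g - F) ^ 2 / (2 * s * N) + (s / (2 * N) + |fC bs N (Multi.Ks α N) / N - p|)
      have e : L g / N - p = (L g - F) / N + (fC bs N (Multi.Ks α N) / N - p) := by
        simp only [F, fC, fT, c, bs, Multi.cs]; ring
      rw [e, ← add_assoc]
      refine (abs_add_le _ _).trans (add_le_add ?_ le_rfl)
      rw [abs_div, abs_of_pos hN', show (L g - F) ^ 2 / (2 * s * N) + s / (2 * N) =
        ((L g - F) ^ 2 + s ^ 2) / (2 * s) / N by field_simp]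
      refine div_le_div_of_nonneg_right ?_ hN'.le
      rw [le_div_iff₀ (by positivity), ← sq_abs (L g - F)]
      nlinarith [sq_nonneg (|L g - F| - s)]
    · rw [integral_add' i1 (integrable_const _), integral_div, integral_const]
      simp only [probReal_univ, one_smul]
      rw [← add_assoc]
      refine add_le_add ?_ le_rfl
      have hss : s * s = N := Real.mul_self_sqrt hN'.le
      have hM : (M:ℝ) ≤ (∑ j, α j) * N := by
        simp only [M]; push_cast; rw [Finset.sum_mul]
        exact Finset.sum_le_sum fun j _ => Nat.floor_le (by have := hα j; positivity)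
      refine (add_le_add (div_le_div_of_nonneg_right (hvar.trans (mul_le_mul_of_nonneg_right hM hC)) (by positivity))
        le_rfl).trans (le_of_eq ?_)
      field_simp
      linear_combination hss

theorem good_functional {r : ℕ} {β : ℝ} {a : Fin r → ℝ} (ha : ∀ j, |β * a j| ≤ 1 / 10) {α : Fin r → ℝ}
    (hα : ∀ j, 0 < α j) :
    ∃ p : ℝ, ∀ ν : ∀ N, Measure (Mat N), (∀ N, IsHaarOrthogonal (ν N)) →
      ∃ Ψ : ∀ N : ℕ, (Fin (∑ j, Multi.Ks α N j) × Fin N → ℝ) → ℝ,
        (∀ N, Measurable (Ψ N)) ∧ (∀ N g, 0 ≤ Ψ N g ∧ Ψ N g ≤ 1) ∧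
        Tendsto (fun N : ℕ => ∫ g, Ψ N g ∂gauss (Fin (∑ j, Multi.Ks α N j) × Fin N)) atTop (𝓝 0) ∧
        ∀ N g (lam : Fin N → ℝ) (Q : Matrix (Fin N) (Fin N) ℝ), Q ∈ Matrix.orthogonalGroup (Fin N) ℝ →
          Multi.WC (Multi.cs a α N) g = Qᵀ * Matrix.diagonal lam * Q →
          ∫ U, min |pressure β lam U - p| 1 ∂ν N = Ψ N g := by
  obtain ⟨p, hp⟩ := exists_limit (b := fun j => β * a j) ha hα
  exact ⟨p, good_functional_at ha hα hp⟩

end Vale.Agent.P166.Pattern.Signed
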