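import Vale.Agent.P166.Pattern.Signed.Conc
import Vale.Agent.P166.Pattern.Multi.Bottom

/-!
Large-size behaviour of the spherical integral of a diagonal quadratic form: the tilted Gaussian bound
and the cost of an eigenvalue near the top.
-/

open MeasureTheory ProbabilityTheory Filter Matrix
open scoped Topology

noncomputable section

namespace Vale.Agent.P166.Pattern.Signed

open Multi (WC)

variable {M N : ℕ}

/-- quadratic form of the weighted Wishart matrix in an eigenbasis -/
lemma quad_eig {c : Fin M → ℝ} {g : Fin M × Fin N → ℝ} {lam : Fin N → ℝ}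
    {Q : Matrix (Fin N) (Fin N) ℝ} (hW : WC c g = Qᵀ * Matrix.diagonal lam * Q) (y : Fin N → ℝ) :
    ∑ m, c m * ((∑ i, g (m, i) * y i) ^ 2 / N) = ∑ k, lam k * (∑ i, Q k i * y i) ^ 2 := by
  have hA : ∀ k l, (N:ℝ)⁻¹ * ∑ m, g (m, k) * c m * g (m, l) = ∑ j, Q j k * lam j * Q j l := fun k l => by
    have h := congrFun (congrFun hW k) l
    simp only [WC, XM, Matrix.smul_apply, smul_eq_mul, Matrix.mul_apply, Matrix.transpose_apply, Matrix.of_apply,
      Matrix.diagonal_apply, mul_ite, mul_zero, Finset.sum_ite_eq', Finset.mem_univ, if_true] at h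
    exact h
  calc ∑ m, c m * ((∑ i, g (m, i) * y i) ^ 2 / N)
      = ∑ k, ∑ l, y k * y l * ((N:ℝ)⁻¹ * ∑ m, g (m, k) * c m * g (m, l)) := by
        simp only [sq, Finset.sum_mul_sum, Finset.sum_div]
        simp only [Finset.mul_sum]
        rw [Finset.sum_comm]
        refine Finset.sum_congr rfl fun k _ => ?_
        rw [Finset.sum_comm]
        exact Finset.sum_congr rfl fun l _ => Finset.sum_congr rfl fun m _ => by ring
    _ = _ := by
        simp only [hA, sq, Finset.sum_mul_sum]
        simp only [Finset.mul_sum]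
        conv_rhs => rw [Finset.sum_comm]
        refine Finset.sum_congr rfl fun k _ => ?_
        conv_rhs => rw [Finset.sum_comm]
        exact Finset.sum_congr rfl fun l _ => Finset.sum_congr rfl fun j _ => by ring

/-- spherical integral of a diagonal form -/
def Zl (s : ℝ) (lam : Fin N → ℝ) : ℝ :=
  ∫ y, (shell N).indicator (fun y => Real.exp (s / 2 * ∑ k, lam k * Sv y k ^ 2)) y ∂gauss (Fin N)

lemma Zs_eig (s : ℝ) {c : Fin M → ℝ} {g : Fin M × Fin N → ℝ} {lam : Fin N → ℝ}
    {Q : Matrix (Fin N) (Fin N) ℝ} (hQ : Q ∈ Matrix.orthogonalGroup (Fin N) ℝ)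
    (hW : WC c g = Qᵀ * Matrix.diagonal lam * Q) : Zs s c g = Zl s lam := by
  have hrow : ∀ a b, ∑ k, Q a k * Q b k = if a = b then 1 else 0 := fun a b => by
    have := congrFun (congrFun ((Matrix.mem_orthogonalGroup_iff (Fin N) ℝ).1 hQ) a) b
    simpa [Matrix.mul_apply, Matrix.transpose_apply, Matrix.one_apply] using this
  have hcol : ∀ a b, ∑ k, Q k a * Q k b = if a = b then 1 else 0 := fun a b => by
    have := congrFun (congrFun ((Matrix.mem_orthogonalGroup_iff' (Fin N) ℝ).1 hQ) a) b
    simpa [Matrix.mul_apply, Matrix.transpose_apply, Matrix.one_apply] using this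
  set T : (Fin N → ℝ) → Fin N → ℝ := fun y a => ∑ k, Q a k * y k
  have hnorm : ∀ y, ∑ a, T y a ^ 2 = ∑ i, y i ^ 2 := fun y => by
    simp only [T, sq, Finset.sum_mul_sum]
    rw [Finset.sum_comm]
    refine Finset.sum_congr rfl fun i _ => ?_
    rw [Finset.sum_comm]
    calc ∑ j, ∑ k, Q k i * y i * (Q k j * y j) = ∑ j, y i * y j * ∑ k, Q k i * Q k j :=
          Finset.sum_congr rfl fun j _ => by
            rw [Finset.mul_sum]; exact Finset.sum_congr rfl fun k _ => by ring
      _ = _ := by simp [hcol]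
  have hSv : ∀ y a, Sv (T y) a = ∑ k, Q a k * Sv y k := fun y a => by
    simp only [Sv, hnorm]
    simp only [T, Finset.mul_sum, Finset.sum_div]
    exact Finset.sum_congr rfl fun k _ => by ring
  set F := (shell N).indicator fun y : Fin N → ℝ => Real.exp (s / 2 * ∑ k, lam k * Sv y k ^ 2)
  have hFm : Measurable F := Measurable.indicator (by unfold Sv; fun_prop) measurableSet_shell
  have hTm : Measurable T := by fun_prop
  calc Zs s c g = ∫ y, F (T y) ∂gauss (Fin N) := by
        refine integral_congr_ae (.of_forall fun y => ?_)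
        have e : ∑ m, s * c m / 2 * ((∑ i, g (m, i) * Sv y i) ^ 2 / N) =
            s / 2 * ∑ k, lam k * Sv (T y) k ^ 2 := by
          simp only [hSv]
          rw [← quad_eig hW, Finset.mul_sum]
          exact Finset.sum_congr rfl fun m _ => by ring
        by_cases hy : y ∈ shell N
        · have hy' : T y ∈ shell N := by
            show |∑ i, T y i ^ 2 - (N:ℝ)| ≤ wid N
            rw [hnorm]; exact hy
          simp only [F, Set.indicator_of_mem hy, Set.indicator_of_mem hy', e]
        · have hy' : T y ∉ shell N := fun h => hy (by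
            show |∑ i, y i ^ 2 - (N:ℝ)| ≤ wid N
            rw [← hnorm]; exact h)
          simp only [F, Set.indicator_of_notMem hy, Set.indicator_of_notMem hy']
    _ = Zl s lam := by
        rw [← integral_map hTm.aemeasurable hFm.aestronglyMeasurable, map_orth (fun a k => Q a k) hrow]
        rfl

/-- probability of the shell after rescaling the coordinates -/
def Pw (D : Fin N → ℝ) : ℝ := (gauss (Fin N)).real {z | |∑ i, z i ^ 2 / D i - N| ≤ wid N}

lemma tilt_line {d : ℝ} (hd : 0 < d) {s : Set ℝ} (hs : MeasurableSet s) :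
    ∫ x, s.indicator (fun x => √d * Real.exp ((1 - d) * x ^ 2 / 2)) x ∂gaussianReal 0 1 =
      ((gaussianReal 0 1).map (fun x => x / √d)).real s := by
  have hd' : 0 < √d := Real.sqrt_pos.2 hd
  rw [gaussianReal_map_div_const, ← integral_indicator_one hs, integral_gaussianReal_eq_integral_smul one_ne_zero,
    integral_gaussianReal_eq_integral_smul (by simp [← NNReal.coe_ne_zero, hd'.ne'])]
  refine integral_congr_ae (.of_forall fun x => ?_)
  by_cases hx : x ∈ s
  · simp only [Set.indicator_of_mem hx, Pi.one_apply, smul_eq_mul, mul_one, gaussianPDFReal_def, zero_div, sub_zero,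
      NNReal.coe_div, NNReal.coe_one, NNReal.coe_mk, mul_one]
    rw [Real.sq_sqrt hd.le, show 2 * Real.pi * (1 / d) = 2 * Real.pi / d by ring,
      Real.sqrt_div (by positivity), inv_div, div_eq_mul_inv (√d), mul_comm (√d) (√(2 * Real.pi))⁻¹]
    rw [mul_mul_mul_comm, mul_assoc, ← Real.exp_add, mul_comm (√d)]
    rw [mul_assoc, mul_comm (Real.exp _) (√d)]
    congr 3
    field_simp
    ring
  · simp [Set.indicator_of_notMem hx]

/-- change of variables to the tilted Gaussian -/
theorem tilt {D : Fin N → ℝ} (hD : ∀ i, 0 < D i) {S : Set (Fin N → ℝ)} (hS : MeasurableSet S)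
    (hi : Integrable (S.indicator fun y => ∏ i, √(D i) * Real.exp ((1 - D i) * y i ^ 2 / 2)) (gauss (Fin N))) :
    ∫ y, S.indicator (fun y => ∏ i, √(D i) * Real.exp ((1 - D i) * y i ^ 2 / 2)) y ∂gauss (Fin N) =
      (gauss (Fin N)).real {z | (fun i => z i / √(D i)) ∈ S} := by
  classical
  set h := fun (i : Fin N) (t : ℝ) => √(D i) * Real.exp ((1 - D i) * t ^ 2 / 2)
  set H := fun y : Fin N → ℝ => ∏ i, h i (y i)
  have hH0 : ∀ y, 0 ≤ H y := fun y => Finset.prod_nonneg fun i _ => by positivity
  have hHm : Measurable H := by fun_prop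
  set μ2 := (gauss (Fin N)).withDensity fun y => ENNReal.ofReal (H y)
  haveI : ∀ i, IsProbabilityMeasure ((gaussianReal 0 1).map fun x => x / √(D i)) := fun i =>
    Measure.isProbabilityMeasure_map (by fun_prop)
  have hμ : Measure.pi (fun i => (gaussianReal 0 1).map fun x => x / √(D i)) = μ2 := by
    refine Measure.pi_eq fun t ht => ?_
    have hb : MeasurableSet (Set.univ.pi t) := MeasurableSet.univ_pi ht
    rw [withDensity_apply _ hb, ← lintegral_indicator hb]
    have e : ∀ y, (Set.univ.pi t).indicator (fun y => ENNReal.ofReal (H y)) y =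
        ENNReal.ofReal (∏ i, (t i).indicator (h i) (y i)) := fun y => by
      by_cases hy : y ∈ Set.univ.pi t
      · rw [Set.indicator_of_mem hy]
        simp only [H, fun i => Set.indicator_of_mem (hy i (Set.mem_univ i)) (h i)]
      · rw [Set.indicator_of_notMem hy]
        obtain ⟨i, hi⟩ : ∃ i, y i ∉ t i := by
          simpa [Set.mem_univ_pi] using hy
        rw [Finset.prod_eq_zero (Finset.mem_univ i) (Set.indicator_of_notMem hi _), ENNReal.ofReal_zero]
    simp only [e]
    have hline : ∀ i, Integrable ((t i).indicator (h i)) (gaussianReal 0 1) := fun i => by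
      refine Integrable.indicator ?_ (ht i)
      refine ((integrable_exp_sq (θ := (1 - D i) / 2) (by linarith [hD i])).const_mul (√(D i))).congr
        (.of_forall fun x => ?_)
      simp only [h]
      congr 2
      ring
    rw [← ofReal_integral_eq_lintegral_ofReal (by exact Integrable.fintype_prod hline)
      (.of_forall fun y => Finset.prod_nonneg fun i _ => Set.indicator_nonneg (fun x _ => by positivity) _), gauss,
      integral_fintype_prod_eq_prod fun i x => (t i).indicator (h i) x,
      ENNReal.ofReal_prod_of_nonneg fun i _ => integral_nonneg fun x => Set.indicator_nonneg (fun x _ => by positivity) _]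
    refine Finset.prod_congr rfl fun i _ => ?_
    rw [tilt_line (hD i) (ht i), ofReal_measureReal]
  have hT : Measurable fun (z : Fin N → ℝ) i => z i / √(D i) := by fun_prop
  have h1 : μ2.real S = (gauss (Fin N)).real {z | (fun i => z i / √(D i)) ∈ S} := by
    rw [← hμ, ← Measure.pi_map_pi (f := fun i x => x / √(D i)) fun i => by fun_prop,
      map_measureReal_apply hT hS]
    rfl
  rw [← h1, measureReal_def, withDensity_apply _ hS, ← lintegral_indicator hS,
    integral_eq_lintegral_of_nonneg_ae (.of_forall fun y => Set.indicator_nonneg (fun y _ => hH0 y) _)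
      hi.aestronglyMeasurable]
  congr 1
  refine lintegral_congr fun y => ?_
  by_cases hy : y ∈ S <;> simp [hy, H, h]

/-- exponential rate of the tilted bound -/
def Phi (s θ : ℝ) (lam : Fin N → ℝ) : ℝ := s * θ - 1 - (∑ i, Real.log (s * (θ - lam i))) / N

/-- error of the tilted bound -/
def Er (L s θ : ℝ) (N : ℕ) : ℝ := (s * L + |1 - s * θ|) * wid N / 2

/-- the spherical integral against the tilted Gaussian -/
theorem Zl_two_sided {L s θ : ℝ} {lam : Fin N → ℝ} (hN : 1 < N) (hs : 0 < s) (hl : ∀ i, |lam i| ≤ L)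
    (hθ : ∀ i, lam i < θ) :
    Pw (fun i => s * (θ - lam i)) * Real.exp (N * Phi s θ lam / 2 - Er L s θ N) ≤ Zl s lam ∧
      Zl s lam ≤ Pw (fun i => s * (θ - lam i)) * Real.exp (N * Phi s θ lam / 2 + Er L s θ N) := by
  have hN0 : (0:ℝ) < N := by exact_mod_cast (show 0 < N by omega)
  set D := fun i => s * (θ - lam i)
  have hD : ∀ i, 0 < D i := fun i => mul_pos hs (sub_pos.2 (hθ i))
  set H := fun y : Fin N → ℝ => ∏ i, √(D i) * Real.exp ((1 - D i) * y i ^ 2 / 2)
  set E := Er L s θ N
  have hH : ∀ y, H y = Real.exp ((∑ i, Real.log (D i)) / 2 + ∑ i, (1 - D i) * y i ^ 2 / 2) := fun y => by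
    rw [Real.exp_add, Real.exp_sum, Finset.sum_div, Real.exp_sum, ← Finset.prod_mul_distrib]
    refine Finset.prod_congr rfl fun i _ => ?_
    rw [Real.exp_half (Real.log (D i)), Real.exp_log (hD i)]
  have hexp : ∀ y ∈ shell N,
      |s / 2 * ∑ k, lam k * Sv y k ^ 2 -
        (N * Phi s θ lam / 2 + ((∑ i, Real.log (D i)) / 2 + ∑ i, (1 - D i) * y i ^ 2 / 2))| ≤ E := by
    intro y hy
    set R := ∑ i, y i ^ 2
    have hR : R ≠ 0 := shell_ne_zero hN hy
    have hR0 : 0 < R := lt_of_le_of_ne (Finset.sum_nonneg fun i _ => sq_nonneg _) (Ne.symm hR)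
    have hy' : |R - N| ≤ wid N := hy
    set S := ∑ k, lam k * y k ^ 2
    have hS : |S| ≤ L * R := by
      simp only [S, R, Finset.mul_sum]
      refine (Finset.abs_sum_le_sum_abs _ _).trans (Finset.sum_le_sum fun k _ => ?_)
      rw [abs_mul, abs_of_nonneg (sq_nonneg (y k))]
      exact mul_le_mul_of_nonneg_right (hl k) (sq_nonneg _)
    have e1 : ∑ k, lam k * Sv y k ^ 2 = N / R * S := by
      simp only [Sv, div_pow, mul_pow, Real.sq_sqrt hN0.le, Real.sq_sqrt hR0.le, S, R, Finset.mul_sum]
      exact Finset.sum_congr rfl fun k _ => by ring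
    have e2 : ∑ i, (1 - D i) * y i ^ 2 / 2 = ((1 - s * θ) * R + s * S) / 2 := by
      simp only [R, S, Finset.mul_sum, ← Finset.sum_add_distrib, Finset.sum_div]
      exact Finset.sum_congr rfl fun i _ => by simp only [D]; ring
    have e3 : (N:ℝ) * Phi s θ lam / 2 = (N * (s * θ - 1) - ∑ i, Real.log (D i)) / 2 := by
      simp only [Phi, D]; field_simp
    rw [e1, e2, e3, show s / 2 * (N / R * S) -
      ((N * (s * θ - 1) - ∑ i, Real.log (D i)) / 2 + ((∑ i, Real.log (D i)) / 2 + ((1 - s * θ) * R + s * S) / 2)) =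
      -((1 - s * θ) + s * (S / R)) * (R - N) / 2 by field_simp; ring, abs_div, abs_mul, abs_neg, abs_two]
    simp only [E, Er]
    refine div_le_div_of_nonneg_right (mul_le_mul ?_ hy' (abs_nonneg _) ?_) two_pos.le
    · refine (abs_add_le _ _).trans ?_
      rw [abs_mul, abs_of_pos hs, abs_div, abs_of_pos hR0, add_comm]
      exact add_le_add (mul_le_mul_of_nonneg_left ((div_le_iff₀ hR0).2 hS) hs.le) le_rfl
    · have : 0 ≤ L := (abs_nonneg _).trans (hl ⟨0, by omega⟩)
      positivity
  set J := (shell N).indicator fun y : Fin N → ℝ => Real.exp (s / 2 * ∑ k, lam k * Sv y k ^ 2)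
  have hJ : Integrable J (gauss (Fin N)) := by
    refine Integrable.of_bound (Measurable.indicator (by unfold Sv; fun_prop) measurableSet_shell).aestronglyMeasurable
      (Real.exp (s / 2 * (L * N))) (.of_forall fun y => ?_)
    rw [Real.norm_eq_abs, abs_of_nonneg (Set.indicator_nonneg (fun _ _ => (Real.exp_pos _).le) _)]
    refine Set.indicator_le' (fun y hy => Real.exp_le_exp.2 (mul_le_mul_of_nonneg_left ?_ (by positivity)))
      (fun _ _ => (Real.exp_pos _).le) _
    rw [← sum_Sv_sq (shell_ne_zero hN hy), Finset.mul_sum]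
    exact Finset.sum_le_sum fun k _ => mul_le_mul_of_nonneg_right ((le_abs_self _).trans (hl k)) (sq_nonneg _)
  set K := (shell N).indicator H
  have hKb : ∀ y, K y * Real.exp (N * Phi s θ lam / 2 - E) ≤ J y ∧ J y ≤ K y * Real.exp (N * Phi s θ lam / 2 + E) :=
    fun y => by
    by_cases hy : y ∈ shell N
    · have h := abs_le.1 (hexp y hy)
      simp only [K, J, Set.indicator_of_mem hy, hH, ← Real.exp_add]
      constructor <;> refine Real.exp_le_exp.2 ?_ <;> linarith [h.1, h.2]
    · simp [K, J, hy]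
  have hK0 : ∀ y, 0 ≤ K y := fun y => Set.indicator_nonneg (fun y _ => by
    rw [hH]; exact (Real.exp_pos _).le) _
  have hK : Integrable K (gauss (Fin N)) := by
    refine (hJ.div_const (Real.exp (N * Phi s θ lam / 2 - E))).mono'
      (Measurable.indicator (by fun_prop) measurableSet_shell).aestronglyMeasurable (.of_forall fun y => ?_)
    rw [Real.norm_eq_abs, abs_of_nonneg (hK0 y), le_div_iff₀ (Real.exp_pos _)]
    exact (hKb y).1
  have hP : ∫ y, K y ∂gauss (Fin N) = Pw D := by
    rw [tilt hD measurableSet_shell hK, Pw]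
    congr 1
    ext z
    simp only [shell, Set.mem_setOf_eq, div_pow, Real.sq_sqrt (hD _).le]
  rw [← hP, ← integral_mul_const, ← integral_mul_const]
  exact ⟨integral_mono (hK.mul_const _) hJ fun y => (hKb y).1, integral_mono hJ (hK.mul_const _) fun y => (hKb y).2⟩

theorem Zl_upper {L s θ : ℝ} {lam : Fin N → ℝ} (hN : 1 < N) (hs : 0 < s) (hl : ∀ i, |lam i| ≤ L)
    (hθ : ∀ i, lam i < θ) : Zl s lam ≤ Real.exp (N * Phi s θ lam / 2 + Er L s θ N) :=
  (Zl_two_sided hN hs hl hθ).2.trans (mul_le_of_le_one_left (Real.exp_pos _).le measureReal_le_one)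

lemma diag_var {D : Fin N → ℝ} :
    ∫ z, (∑ i, z i ^ 2 / D i - ∑ i, 1 / D i) ^ 2 ∂gauss (Fin N) = 2 * ∑ i, (1 / D i) ^ 2 := by
  have h := Multi.quad_var (R := Matrix.diagonal fun i => 1 / D i) (Matrix.diagonal_transpose _)
  simp only [Matrix.trace_diagonal, Matrix.mulVec_diagonal, dotProduct] at h
  rw [show (fun z : Fin N → ℝ => (∑ i, z i ^ 2 / D i - ∑ i, 1 / D i) ^ 2) =
    fun z => (∑ i, z i * (1 / D i * z i) - ∑ i, 1 / D i) ^ 2 by
      funext z; congr 2; exact Finset.sum_congr rfl fun i _ => by ring, h]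
  congr 1
  refine Finset.sum_congr rfl fun i _ => ?_
  rw [Finset.sum_eq_single i (fun j _ hji => by simp [Matrix.diagonal_apply_ne _ (Ne.symm hji)]) (by simp)]
  simp

/-- the shell is reached at the cost of moving one coordinate -/
theorem Pw_lower {D : Fin N → ℝ} {d : ℝ} (hd : 0 < d) (hD : ∀ i, d ≤ D i) (i0 : Fin N)
    (hsum : ∑ i ∈ Finset.univ.erase i0, 1 / D i ≤ N)
    (hw : (2 * √(D i0 * N) + 1) / d ≤ wid N / 2) (hN : 16 * N / d ^ 2 ≤ wid N ^ 2) :
    (√(2 * Real.pi))⁻¹ * Real.exp (-(√(((N:ℝ) - ∑ i ∈ Finset.univ.erase i0, 1 / D i) * D i0) + 1) ^ 2 / 2) / 2 ≤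
      Pw D := by
  classical
  set m := ∑ i ∈ Finset.univ.erase i0, 1 / D i
  set a := √(((N:ℝ) - m) * D i0)
  have hD0 : 0 < D i0 := hd.trans_le (hD i0)
  have hN0 : (0:ℝ) < N := by exact_mod_cast i0.pos
  have hw0 : 0 < wid N := by
    have : 0 < (2 * √(D i0 * N) + 1) / d := by positivity
    linarith
  have ha0 : 0 ≤ a := Real.sqrt_nonneg _
  have haa : a ^ 2 = ((N:ℝ) - m) * D i0 := Real.sq_sqrt (mul_nonneg (sub_nonneg.2 hsum) hD0.le)
  have ha1 : a ≤ √(D i0 * N) := Real.sqrt_le_sqrt (by
    have : 0 ≤ m := Finset.sum_nonneg fun i _ => one_div_nonneg.2 (hd.le.trans (hD i))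
    nlinarith)
  set X := fun z : Fin N → ℝ => ∑ i, z i ^ 2 / Function.update (fun i => D i) i0 0 i
  have hX : ∀ z, X z = ∑ i ∈ Finset.univ.erase i0, z i ^ 2 / D i := fun z => by
    simp only [X]
    rw [← Finset.add_sum_erase _ _ (Finset.mem_univ i0), Function.update_self, div_zero, zero_add]
    exact Finset.sum_congr rfl fun i hi => by rw [Function.update_of_ne (Finset.ne_of_mem_erase hi)]
  set B := {z : Fin N → ℝ | |X z - m| ≤ wid N / 2}
  have hBm : MeasurableSet B := measurableSet_le (by fun_prop) measurable_const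
  have hm : m = ∑ i, 1 / Function.update (fun i => D i) i0 0 i := by
    rw [← Finset.add_sum_erase _ _ (Finset.mem_univ i0), Function.update_self, div_zero, zero_add]
    exact Finset.sum_congr rfl fun i hi => by rw [Function.update_of_ne (Finset.ne_of_mem_erase hi)]
  have hB : 1 / 2 ≤ (gauss (Fin N)).real B := by
    set q := fun z : Fin N → ℝ => (X z - m) ^ 2
    have hqi : Integrable q (gauss (Fin N)) := by
      refine integrable_poly (by fun_prop) (Poly.pow ((Poly.sum _ fun i _ => ?_).sub (Poly.const m)) 2)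
      simpa [div_eq_inv_mul] using ((poly_coord i).pow 2).const_mul (Function.update (fun i => D i) i0 0 i)⁻¹
    have hc : (wid N / 2) ^ 2 * (gauss (Fin N)).real Bᶜ ≤ ∫ z, q z ∂gauss (Fin N) := by
      refine le_trans (mul_le_mul_of_nonneg_left (measureReal_mono fun z hz => ?_) (sq_nonneg _))
        (mul_meas_ge_le_integral_of_nonneg (.of_forall fun z => sq_nonneg _) hqi _)
      have hz' : wid N / 2 < |X z - m| := not_le.1 hz
      show (wid N / 2) ^ 2 ≤ (X z - m) ^ 2
      rw [← sq_abs (X z - m)]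
      exact pow_le_pow_left₀ (by positivity) hz'.le 2
    have hv : ∫ z, q z ∂gauss (Fin N) ≤ 2 * (N / d ^ 2) := by
      simp only [q, X, hm]
      rw [diag_var]
      refine mul_le_mul_of_nonneg_left ((Finset.sum_le_card_nsmul _ _ (1 / d ^ 2) fun i _ => ?_).trans_eq (by
        simp [div_eq_mul_inv])) two_pos.le
      by_cases hi : i = i0
      · subst hi; simp only [Function.update_self, div_zero, ne_eq, OfNat.ofNat_ne_zero, not_false_eq_true, zero_pow]; positivity
      · rw [Function.update_of_ne hi, div_pow, one_pow]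
        exact one_div_le_one_div_of_le (pow_pos hd 2) (pow_le_pow_left₀ hd.le (hD i) 2)
    rw [probReal_compl_eq_one_sub hBm] at hc
    have h16 : 16 * ((N:ℝ) / d ^ 2) ≤ wid N ^ 2 := by rw [← mul_div_assoc]; exact hN
    nlinarith [hc.trans hv, sq_pos_of_pos hw0]
  set I := Set.Icc a (a + 1)
  have hIlow := Multi.gauss_interval_lower ha0
  have hsub : {z : Fin N → ℝ | z i0 ∈ I} ∩ B ⊆ {z | |∑ i, z i ^ 2 / D i - N| ≤ wid N} := by
    rintro z ⟨hz, hzB⟩
    show |∑ i, z i ^ 2 / D i - N| ≤ wid N
    rw [← Finset.add_sum_erase _ _ (Finset.mem_univ i0), ← hX]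
    have h1 : |z i0 ^ 2 / D i0 - (N - m)| ≤ wid N / 2 := by
      refine le_trans ?_ hw
      have hz2 : |z i0 ^ 2 - a ^ 2| ≤ 2 * √(D i0 * N) + 1 := by
        rw [abs_of_nonneg (by nlinarith [hz.1])]
        nlinarith [hz.1, hz.2]
      rw [show (N:ℝ) - m = a ^ 2 / D i0 by rw [haa]; field_simp, ← sub_div, abs_div, abs_of_pos hD0]
      exact div_le_div₀ (by positivity) hz2 hd (hD i0)
    have h2 : |X z - m| ≤ wid N / 2 := hzB
    calc |z i0 ^ 2 / D i0 + X z - N| = |(z i0 ^ 2 / D i0 - (N - m)) + (X z - m)| := by ring_nf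
      _ ≤ _ := (abs_add_le _ _).trans (by linarith)
  refine le_trans ?_ (measureReal_mono hsub)
  have hindep : (gauss (Fin N)).real ({z : Fin N → ℝ | z i0 ∈ I} ∩ B) =
      (gaussianReal 0 1).real I * (gauss (Fin N)).real B := by
    have hu := measurePreserving_update (κ := Fin N) i0
    have hEm : MeasurableSet {z : Fin N → ℝ | z i0 ∈ I} := measurableSet_Icc.preimage (measurable_pi_apply i0)
    have hB' : ∀ z x, Function.update z i0 x ∈ B ↔ z ∈ B := fun z x => by
      simp only [B, Set.mem_setOf_eq, hX]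
      rw [Finset.sum_congr rfl fun i hi => by rw [Function.update_of_ne (Finset.ne_of_mem_erase hi)]]
    have e : (fun p : (Fin N → ℝ) × ℝ => Function.update p.1 i0 p.2) ⁻¹' ({z | z i0 ∈ I} ∩ B) = B ×ˢ I := by
      ext ⟨z, x⟩
      simp [hB', and_comm]
    simp only [measureReal_def]
    rw [← hu.measure_preimage (hEm.inter hBm).nullMeasurableSet, e, Measure.prod_prod, ENNReal.toReal_mul,
      mul_comm]
  rw [hindep, div_eq_mul_inv _ (2:ℝ)]
  exact mul_le_mul hIlow ((one_div (2:ℝ)) ▸ hB) (by norm_num) measureReal_nonneg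

end Vale.Agent.P166.Pattern.Signed
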