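import Vale.Agent.P166.Pattern.Signed.Asymp
import Vale.Agent.P166.Pattern.Multi.Diag

/-!
The spectrum of a weighted Wishart matrix with signed strengths from its spherical integrals: the
self-consistent equation and the position of the largest eigenvalue.
-/

open MeasureTheory ProbabilityTheory Filter Matrix
open scoped Topology

noncomputable section

namespace Vale.Agent.P166.Pattern.Signed

open Multi (Law cauchy)

variable {r : ℕ}

/-- `∑ α a/(1 - y a)` -/
def Ra (a α : Fin r → ℝ) (y : ℝ) : ℝ := ∑ j, α j * (a j / (1 - y * a j))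

/-- `1/y + ∑ α a/(1 - y a)` -/
def Ka (a α : Fin r → ℝ) (y : ℝ) : ℝ := 1 / y + Ra a α y

/-- a sequence of spectra with the right spherical integrals -/
structure Spec (a α : Fin r → ℝ) (lam : ∀ N : ℕ, Fin N → ℝ) : Prop where
  upper : ∀ s : ℚ, 0 < (s:ℝ) → (∀ j, (s:ℝ) * a j < 1) → ∀ δ : ℝ, 0 < δ →
    ∀ᶠ N : ℕ in atTop, Zl (s:ℝ) (lam N) < Real.exp (N * (Js a α s + δ))
  small : ∃ s0 : ℝ, 0 < s0 ∧ (∀ j, s0 * |a j| < 1) ∧ ∀ s : ℚ, 0 < (s:ℝ) → (s:ℝ) ≤ s0 →
    Tendsto (fun N : ℕ => Real.log (Zl (s:ℝ) (lam N)) / N) atTop (𝓝 (Js a α s))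

/-- logarithmic potential to the right of the support -/
def lpot (μ : Measure ℝ) (w : ℝ) : ℝ := ∫ x, Real.log (w - x) ∂μ

/-- twice the annealed value minus the tilted rate -/
def gap (a α : Fin r → ℝ) (μ : Measure ℝ) (θ s : ℝ) : ℝ :=
  2 * Js a α s - (s * θ - 1 - Real.log s - lpot μ θ)

lemma small_den {a : Fin r → ℝ} {s s0 : ℝ} (hs : 0 < s) (h : s ≤ s0) (h0 : ∀ j, s0 * |a j| < 1) (j : Fin r) :
    s * a j < 1 :=
  lt_of_le_of_lt (((mul_le_mul_of_nonneg_left (le_abs_self _) hs.le)).trans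
    (mul_le_mul_of_nonneg_right h (abs_nonneg _))) (h0 j)

lemma hasDerivAt_Js (a α : Fin r → ℝ) {s : ℝ} (hs : ∀ j, s * a j < 1) :
    HasDerivAt (Js a α) (Ra a α s / 2) s := by
  have h : ∀ j, HasDerivAt (fun s => α j * Real.log (1 - s * a j)) (α j * (-a j / (1 - s * a j))) s := fun j => by
    have h1 : HasDerivAt (fun s => 1 - s * a j) (-a j) s := by
      simpa using ((hasDerivAt_id s).mul_const (a j)).const_sub 1
    exact (h1.log (sub_pos.2 (hs j)).ne').const_mul _
  have h2 := (HasDerivAt.fun_sum (u := Finset.univ) fun j _ => h j).const_mul (-(1 / 2 : ℝ))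
  refine (h2.congr_deriv ?_)
  simp only [Ra, Finset.mul_sum, Finset.sum_div]
  exact Finset.sum_congr rfl fun j _ => by ring

lemma hasDerivAt_gap (a α : Fin r → ℝ) (μ : Measure ℝ) (θ : ℝ) {s : ℝ} (h0 : 0 < s) (hs : ∀ j, s * a j < 1) :
    HasDerivAt (gap a α μ θ) (Ka a α s - θ) s := by
  have h : HasDerivAt (fun s => 2 * Js a α s - (s * θ - 1 - Real.log s - lpot μ θ))
      (2 * (Ra a α s / 2) - (1 * θ - s⁻¹)) s := ((hasDerivAt_Js a α hs).const_mul 2).sub
    ((((hasDerivAt_id s).mul_const θ).sub_const 1).sub (Real.hasDerivAt_log h0.ne') |>.sub_const _)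
  refine h.congr_deriv ?_
  simp only [Ka, one_div]
  ring

lemma analyticAt_Ka (a α : Fin r → ℝ) {y : ℝ} (h0 : 0 < y) (hy : ∀ j, y * a j < 1) :
    AnalyticAt ℝ (Ka a α) y := by
  unfold Ka Ra
  refine (analyticAt_const.div analyticAt_id h0.ne').add ?_
  refine Finset.analyticAt_fun_sum _ fun j _ => analyticAt_const.mul ?_
  exact analyticAt_const.div (analyticAt_const.sub (analyticAt_id.mul analyticAt_const)) (sub_pos.2 (hy j)).ne'

lemma hasDerivAt_lpot {μ : Measure ℝ} {L c : ℝ} (h : Law μ L c) {w : ℝ} (hw : c < w) :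
    HasDerivAt (lpot μ) (cauchy μ w) w := by
  haveI := h.prob
  set d := (w - c) / 2 with hd_def
  have hd : 0 < d := half_pos (sub_pos.2 hw)
  refine (hasDerivAt_integral_of_dominated_loc_of_deriv_le (F := fun w x => Real.log (w - x))
    (F' := fun w x => 1 / (w - x)) (bound := fun _ => 1 / d) (Metric.ball_mem_nhds w hd) ?_ ?_ ?_ ?_
    (integrable_const _) ?_).2
  · exact .of_forall fun v => (by fun_prop : Measurable fun x => Real.log (v - x)).aestronglyMeasurable
  · refine Integrable.of_bound (by fun_prop : Measurable fun x => Real.log (w - x)).aestronglyMeasurable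
      (|Real.log (w - c)| + |Real.log (w - L)|) (h.mem.mono fun x hx => ?_)
    have h1 := Real.log_le_log (sub_pos.2 hw) (show w - c ≤ w - x by linarith [hx.2])
    have h2 := Real.log_le_log (show 0 < w - x by linarith [hx.2]) (show w - x ≤ w - L by linarith [hx.1])
    rw [Real.norm_eq_abs, abs_le]
    constructor <;>
      linarith [neg_abs_le (Real.log (w - c)), le_abs_self (Real.log (w - L)), abs_nonneg (Real.log (w - c)),
        abs_nonneg (Real.log (w - L))]
  · exact (by fun_prop : Measurable fun x => 1 / (w - x)).aestronglyMeasurable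
  · refine h.mem.mono fun x hx v hv => ?_
    have hv' := abs_lt.1 (show |v - w| < d by simpa [Real.dist_eq] using hv)
    have h2 : d ≤ v - x := by linarith [hx.2, hd_def]
    rw [Real.norm_eq_abs, abs_of_pos (one_div_pos.2 (hd.trans_le h2))]
    exact one_div_le_one_div_of_le hd h2
  · refine h.mem.mono fun x hx v hv => ?_
    have hv' := abs_lt.1 (show |v - w| < d by simpa [Real.dist_eq] using hv)
    have h2 : 0 < v - x := by linarith [hx.2, hd_def]
    simpa using ((hasDerivAt_id v).sub_const x).log h2.ne'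

/-- a cluster law along an ultrafilter, with the limits of resolvent and log potential above the top -/
lemma exists_cluster_top {L c : ℝ} {lam : ∀ N : ℕ, Fin N → ℝ} (hL0 : 0 ≤ L)
    (hL : ∀ᶠ N : ℕ in atTop, ∀ i, |lam N i| ≤ L) (U : Ultrafilter ℕ) (hU : (U : Filter ℕ) ≤ atTop)
    (hc : ∀ d, c < d → ∀ᶠ N in (U : Filter ℕ), ∀ i, lam N i ≤ d) :
    ∃ μ : Measure ℝ, Law μ (-L) c ∧ ∀ θ, c < θ →
      Tendsto (fun N : ℕ => (∑ i, 1 / (θ - lam N i)) / (N:ℝ)) (U : Filter ℕ) (𝓝 (cauchy μ θ)) ∧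
      Tendsto (fun N : ℕ => (∑ i, Real.log (θ - lam N i)) / (N:ℝ)) (U : Filter ℕ) (𝓝 (lpot μ θ)) := by
  obtain ⟨μ, hμ, hlim⟩ := Multi.exists_cluster_bdd hL0 hL U hU
  haveI := hμ.prob
  have hle : ∀ᵐ x ∂μ, x ≤ c := by
    have h2 : ∀ n : ℕ, ∀ᵐ x ∂μ, x ≤ c + 1 / ((n:ℝ) + 1) := fun n => by
      set e := c + 1 / ((n:ℝ) + 1)
      set g : ℝ → ℝ := fun x => max 0 (min 1 (x - e))
      have hg0 : ∀ x, 0 ≤ g x := fun x => le_max_left _ _
      have hlim0 : ∫ x, g x ∂μ = 0 := by
        refine tendsto_nhds_unique (hlim g (by fun_prop) (by fun_prop)) (tendsto_const_nhds.congr' ?_)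
        filter_upwards [hc e (by simp only [e]; linarith [show (0:ℝ) < 1 / ((n:ℝ) + 1) by positivity])] with N hN
        have : ∀ i, g (lam N i) = 0 := fun i =>
          max_eq_left ((min_le_right _ _).trans (by linarith [hN i]))
        simp [this]
      have hgi : Integrable g μ := Integrable.of_bound (by fun_prop : Continuous g).aestronglyMeasurable 1
        (.of_forall fun x => by rw [Real.norm_eq_abs, abs_of_nonneg (hg0 x)]; exact max_le zero_le_one (min_le_left _ _))
      filter_upwards [(integral_eq_zero_iff_of_nonneg hg0 hgi).1 hlim0] with x hx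
      by_contra hcon
      push Not at hcon
      have : 0 < g x := lt_max_of_lt_right (lt_min one_pos (by linarith))
      simp only [Pi.zero_apply] at hx
      linarith
    filter_upwards [ae_all_iff.2 h2] with x hx
    refine le_of_forall_pos_le_add fun d hd => ?_
    obtain ⟨n, hn⟩ := exists_nat_one_div_lt hd
    linarith [hx n]
  refine ⟨μ, ⟨hμ.prob, hμ.mem.and hle |>.mono fun x hx => ⟨hx.1.1, hx.2⟩⟩, fun θ hθ => ?_⟩
  set d := (c + θ) / 2
  have hd1 : c < d := by simp only [d]; linarith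
  have hd2 : d < θ := by simp only [d]; linarith
  have hev := hc d hd1
  have hpos : ∀ x, 0 < θ - min x d := fun x => by linarith [min_le_right x d]
  constructor
  · have h := hlim (fun x => 1 / (θ - min x d))
      (continuousOn_const.div (by fun_prop) fun x _ => (hpos x).ne') (by fun_prop)
    rw [integral_congr_ae (hle.mono fun x hx => show 1 / (θ - min x d) = 1 / (θ - x) by
      rw [min_eq_left (hx.trans hd1.le)])] at h
    refine h.congr' (hev.mono fun N hN => ?_)
    congr 1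
    exact Finset.sum_congr rfl fun i _ => by rw [min_eq_left (hN i)]
  · have h := hlim (fun x => Real.log (θ - min x d))
      (ContinuousOn.log (by fun_prop) fun x _ => (hpos x).ne') (by fun_prop)
    rw [integral_congr_ae (hle.mono fun x hx => show Real.log (θ - min x d) = Real.log (θ - x) by
      rw [min_eq_left (hx.trans hd1.le)])] at h
    refine h.congr' (hev.mono fun N hN => ?_)
    congr 1
    exact Finset.sum_congr rfl fun i _ => by rw [min_eq_left (hN i)]

/-- a lower bound from an eigenvalue that absorbs the missing mass -/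
theorem Zl_lower {N : ℕ} {L s θ d : ℝ} {lam : Fin N → ℝ} (hN : 1 < N) (hs : 0 < s) (hd : 0 < d)
    (hl : ∀ i, |lam i| ≤ L) (hθ : ∀ i, lam i < θ) (hD : ∀ i, d ≤ s * (θ - lam i)) (i0 : Fin N)
    (hsum : ∑ i, 1 / (s * (θ - lam i)) ≤ N)
    (hw : (2 * √(s * (θ - lam i0) * N) + 1) / d ≤ wid N / 2) (hN2 : 16 * N / d ^ 2 ≤ wid N ^ 2) :
    N * Phi s θ lam / 2 - Er L s θ N - ((N:ℝ) - ∑ i, 1 / (s * (θ - lam i))) * (s * (θ - lam i0)) / 2 -
      (√(N * (s * (θ - lam i0)) + 1) + 4) ≤ Real.log (Zl s lam) := by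
  classical
  set D := fun i => s * (θ - lam i)
  have hD0 : 0 < D i0 := hd.trans_le (hD i0)
  have hS0 : 0 ≤ ∑ i, 1 / D i := Finset.sum_nonneg fun i _ => one_div_nonneg.2 (hd.le.trans (hD i))
  have he : ∑ i ∈ Finset.univ.erase i0, 1 / D i = ∑ i, 1 / D i - 1 / D i0 := by
    rw [Finset.sum_erase_eq_sub (Finset.mem_univ i0)]
  have hP := Pw_lower hd hD i0 (by rw [he]; linarith [one_div_pos.2 hD0]) hw hN2
  set x := ((N:ℝ) - ∑ i, 1 / D i) * D i0 + 1
  have hx : ((N:ℝ) - ∑ i ∈ Finset.univ.erase i0, 1 / D i) * D i0 = x := by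
    simp only [x, he]; field_simp; ring
  have hx0 : 0 ≤ x := add_nonneg (mul_nonneg (sub_nonneg.2 hsum) hD0.le) zero_le_one
  rw [hx] at hP
  have hpi : Real.exp (-1) ≤ (√(2 * Real.pi))⁻¹ := by
    rw [Real.exp_neg]
    refine inv_anti₀ (Real.sqrt_pos.2 (by positivity)) ?_
    rw [Real.sqrt_le_iff]
    refine ⟨(Real.exp_pos _).le, ?_⟩
    nlinarith [Real.exp_one_gt_d9, Real.pi_lt_d2, Real.pi_pos]
  have h := ((mul_le_mul_of_nonneg_right ((div_le_div_of_nonneg_right
    (mul_le_mul_of_nonneg_right hpi (Real.exp_pos _).le) two_pos.le).trans hP) (Real.exp_pos _).le).trans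
    (Zl_two_sided hN hs hl hθ).1)
  have hh : Real.exp (N * Phi s θ lam / 2 - Er L s θ N - x / 2 - √x - 7 / 2) ≤
      Real.exp (-1) * Real.exp (-(√x + 1) ^ 2 / 2) / 2 * Real.exp (N * Phi s θ lam / 2 - Er L s θ N) := by
    rw [div_mul_eq_mul_div, le_div_iff₀ two_pos, ← Real.exp_add, ← Real.exp_add]
    calc Real.exp (N * Phi s θ lam / 2 - Er L s θ N - x / 2 - √x - 7 / 2) * 2
        ≤ Real.exp (N * Phi s θ lam / 2 - Er L s θ N - x / 2 - √x - 7 / 2) * Real.exp 1 :=
          mul_le_mul_of_nonneg_left (by linarith [Real.add_one_le_exp (1:ℝ)]) (Real.exp_pos _).le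
      _ ≤ _ := by
          rw [← Real.exp_add]
          refine Real.exp_le_exp.2 ?_
          nlinarith [Real.sq_sqrt hx0]
  have h2 := hh.trans h
  rw [← Real.le_log_iff_exp_le (lt_of_lt_of_le (Real.exp_pos _) h2)] at h2
  refine le_trans ?_ h2
  have hle : √x ≤ √(N * D i0 + 1) := Real.sqrt_le_sqrt (by nlinarith)
  simp only [x, D] at hle ⊢
  linarith

lemma eventually_wid (B : ℝ) {d : ℝ} (hd : 0 < d) :
    ∀ᶠ N : ℕ in atTop, 1 < N ∧ 16 * N / d ^ 2 ≤ wid N ^ 2 ∧
      ∀ x ≤ B, (2 * √(x * N) + 1) / d ≤ wid N / 2 := by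
  have h4 : Tendsto (fun N : ℕ => √√(N:ℝ)) atTop atTop :=
    Real.tendsto_sqrt_atTop.comp (Real.tendsto_sqrt_atTop.comp tendsto_natCast_atTop_atTop)
  filter_upwards [eventually_gt_atTop 1, h4.eventually (eventually_ge_atTop (2 * (2 * √B + 1) / d)),
    (Real.tendsto_sqrt_atTop.comp tendsto_natCast_atTop_atTop).eventually (eventually_ge_atTop (16 / d ^ 2))]
    with N hN h1 h2
  have hN0 : (0:ℝ) < N := by exact_mod_cast (show 0 < N by omega)
  set q := √(N:ℝ)
  set p := √q
  have hq : 0 < q := Real.sqrt_pos.2 hN0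
  have hp : 0 < p := Real.sqrt_pos.2 hq
  have hqq : q * q = N := Real.mul_self_sqrt hN0.le
  have hpp : p * p = q := Real.mul_self_sqrt hq.le
  have hw : wid N = q * p := by
    show (N:ℝ) / p = q * p
    rw [div_eq_iff hp.ne', mul_assoc, hpp, hqq]
  refine ⟨hN, ?_, fun x hx => ?_⟩
  · rw [hw, div_le_iff₀ (pow_pos hd 2), mul_pow, sq p, hpp, sq q, hqq]
    have h2' : 16 ≤ q * d ^ 2 := (div_le_iff₀ (pow_pos hd 2)).1 h2
    nlinarith [mul_le_mul_of_nonneg_left h2' hN0.le]
  · have h1' : 2 * (2 * √B + 1) ≤ p * d := (div_le_iff₀ hd).1 h1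
    have h3 : √(x * N) ≤ √B * q := by
      rcases le_or_gt 0 x with h | h
      · rw [Real.sqrt_mul h]; exact mul_le_mul_of_nonneg_right (Real.sqrt_le_sqrt hx) hq.le
      · rw [Real.sqrt_eq_zero_of_nonpos (mul_nonpos_of_nonpos_of_nonneg h.le hN0.le)]; positivity
    have hq1 : 1 ≤ q := Real.one_le_sqrt.2 (by exact_mod_cast hN.le)
    rw [hw, div_le_iff₀ hd]
    nlinarith [mul_le_mul_of_nonneg_left h1' hq.le]

lemma er_tendsto (L s θ : ℝ) : Tendsto (fun N : ℕ => 2 * Er L s θ N / N) atTop (𝓝 0) := by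
  have h : Tendsto (fun N : ℕ => (s * L + |1 - s * θ|) * (√√(N:ℝ))⁻¹) atTop (𝓝 0) := by
    simpa using (tendsto_inv_atTop_zero.comp
      (Real.tendsto_sqrt_atTop.comp (Real.tendsto_sqrt_atTop.comp tendsto_natCast_atTop_atTop))).const_mul
        (s * L + |1 - s * θ|)
  refine h.congr' ?_
  filter_upwards [eventually_gt_atTop 0] with N hN
  have hN0 : (0:ℝ) < N := by exact_mod_cast hN
  simp only [Er, wid]
  field_simp

lemma sqrt_small (B : ℝ) : Tendsto (fun N : ℕ => 2 * (√(N * B + 1) + 4) / N) atTop (𝓝 0) := by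
  have h1 : Tendsto (fun N : ℕ => 2 * (√(|B| + 1) * (√(N:ℝ))⁻¹) + 8 / N) atTop (𝓝 0) := by
    simpa using ((tendsto_inv_atTop_zero.comp (Real.tendsto_sqrt_atTop.comp
      tendsto_natCast_atTop_atTop)).const_mul (√(|B| + 1)) |>.const_mul 2).add
        (tendsto_const_div_atTop_nhds_zero_nat 8)
  refine squeeze_zero' (.of_forall fun N => by positivity) ?_ h1
  filter_upwards [eventually_gt_atTop 0] with N hN
  have hN1 : (1:ℝ) ≤ N := by exact_mod_cast hN
  have h2 : √(N * B + 1) ≤ √(|B| + 1) * √(N:ℝ) := by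
    rw [← Real.sqrt_mul (by positivity)]
    exact Real.sqrt_le_sqrt (by nlinarith [mul_le_mul_of_nonneg_left (le_abs_self B) (Nat.cast_nonneg (α := ℝ) N)])
  have hq : (√(N:ℝ))⁻¹ = √(N:ℝ) / N := (Real.sqrt_div_self).symm
  rw [hq, show 2 * (√(|B| + 1) * (√(N:ℝ) / N)) + 8 / N = 2 * (√(|B| + 1) * √(N:ℝ) + 4) / N by ring]
  gcongr

/-- the facts at an ultrafilter: the law, the limits, and the equation on the whole admissible ray -/
theorem cluster_eq {a α : Fin r → ℝ} {lam : ∀ N : ℕ, Fin N → ℝ} (h : Spec a α lam) {L c : ℝ}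
    (hL : ∀ᶠ N : ℕ in atTop, ∀ i, |lam N i| ≤ L) (U : Ultrafilter ℕ) (hU : (U : Filter ℕ) ≤ atTop)
    (hc : ∀ d, c < d → ∀ᶠ N in (U : Filter ℕ), ∀ i, lam N i ≤ d) :
    ∃ μ : Measure ℝ, Law μ (-L) c ∧ (∀ θ, c < θ →
      Tendsto (fun N : ℕ => (∑ i, 1 / (θ - lam N i)) / (N:ℝ)) (U : Filter ℕ) (𝓝 (cauchy μ θ)) ∧
      Tendsto (fun N : ℕ => (∑ i, Real.log (θ - lam N i)) / (N:ℝ)) (U : Filter ℕ) (𝓝 (lpot μ θ))) ∧
      ∀ θ, c < θ → (∀ v, θ ≤ v → ∀ j, cauchy μ v * a j < 1) →
        θ = Ka a α (cauchy μ θ) ∧ gap a α μ θ (cauchy μ θ) = 0 := by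
  obtain ⟨s0, hs0, hs0a, hsmall⟩ := h.small
  have hL0 : 0 ≤ L := by
    obtain ⟨N, hN, hN0⟩ := (hL.and (eventually_gt_atTop 0)).exists
    exact (abs_nonneg _).trans (hN ⟨0, hN0⟩)
  obtain ⟨μ, hμ, hlim⟩ := exists_cluster_top hL0 hL U hU hc
  haveI := hμ.prob
  refine ⟨μ, hμ, hlim, ?_⟩
  have hmid : ∀ θ, c < θ → ∀ᶠ N in (U : Filter ℕ), ∀ i, lam N i < θ := fun θ hθ => by
    obtain ⟨d, hd1, hd2⟩ := exists_between hθ
    exact (hc d hd1).mono fun N hN i => (hN i).trans_lt hd2
  have hPhi : ∀ θ, c < θ → ∀ s, 0 < s →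
      Tendsto (fun N : ℕ => Phi s θ (lam N)) (U : Filter ℕ) (𝓝 (s * θ - 1 - Real.log s - lpot μ θ)) := by
    intro θ hθ s hs
    refine ((hlim θ hθ).2.const_sub (s * θ - 1 - Real.log s)).congr' ?_
    filter_upwards [hmid θ hθ, hU (eventually_gt_atTop 0)] with N hN hN0
    have hN' : (N:ℝ) ≠ 0 := by exact_mod_cast hN0.ne'
    simp only [Phi]
    rw [Finset.sum_congr rfl fun i _ => Real.log_mul hs.ne' (sub_pos.2 (hN i)).ne', Finset.sum_add_distrib]
    simp only [Finset.sum_const, Finset.card_univ, Fintype.card_fin, nsmul_eq_mul, add_div]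
    rw [mul_div_cancel_left₀ _ hN']
    ring
  have hrat : ∀ θ, c < θ → ∀ s : ℚ, 0 < (s:ℝ) → (s:ℝ) ≤ s0 → gap a α μ θ s ≤ 0 ∧
      (cauchy μ θ < s → -(((s:ℝ) - cauchy μ θ) * (θ + L)) ≤ gap a α μ θ s) := by
    intro θ hθ s hs hs'
    have hZ := ((hsmall s hs hs').mono_left hU).const_mul 2
    have hE := (er_tendsto L (s:ℝ) θ).mono_left hU
    constructor
    · have h2 : 2 * Js a α (s:ℝ) ≤ ((s:ℝ) * θ - 1 - Real.log (s:ℝ) - lpot μ θ) + 0 := by
        refine le_of_tendsto_of_tendsto hZ ((hPhi θ hθ s hs).add hE) ?_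
        filter_upwards [hmid θ hθ, hU (eventually_gt_atTop 1), hU hL, hU shell_half] with N hN hN1 hLN hhalf
        have hN0 : (0:ℝ) < N := by exact_mod_cast (show 0 < N by omega)
        have hpos : 0 < Zl (s:ℝ) (lam N) := by
          obtain ⟨i0⟩ : Nonempty (Fin N) := ⟨⟨0, by omega⟩⟩
          refine lt_of_lt_of_le (mul_pos (show 0 < (gauss (Fin N)).real (shell N) by linarith)
            (Real.exp_pos (-((s:ℝ) / 2 * (L * N))))) ?_
          rw [← smul_eq_mul, ← integral_indicator_const _ measurableSet_shell]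
          refine integral_mono ((integrable_const _).indicator measurableSet_shell) ?_ fun y =>
            Set.indicator_le_indicator' fun hy => Real.exp_le_exp.2 ?_
          · refine Integrable.of_bound (Measurable.indicator (by unfold Sv; fun_prop)
              measurableSet_shell).aestronglyMeasurable (Real.exp ((s:ℝ) / 2 * (L * N))) (.of_forall fun y => ?_)
            rw [Real.norm_eq_abs, abs_of_nonneg (Set.indicator_nonneg (fun _ _ => (Real.exp_pos _).le) _)]
            refine Set.indicator_le' (fun y hy => Real.exp_le_exp.2 (mul_le_mul_of_nonneg_left ?_ (by positivity)))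
              (fun _ _ => (Real.exp_pos _).le) _
            rw [← sum_Sv_sq (shell_ne_zero hN1 hy), Finset.mul_sum]
            exact Finset.sum_le_sum fun k _ => mul_le_mul_of_nonneg_right ((le_abs_self _).trans (hLN k)) (sq_nonneg _)
          · rw [← mul_neg]
            refine mul_le_mul_of_nonneg_left ?_ (by positivity)
            rw [← sum_Sv_sq (shell_ne_zero hN1 hy), Finset.mul_sum, ← Finset.sum_neg_distrib]
            exact Finset.sum_le_sum fun k _ => by
              rw [← neg_mul]; exact mul_le_mul_of_nonneg_right (abs_le.1 (hLN k)).1 (sq_nonneg _)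
        have := Real.log_le_log hpos (Zl_upper hN1 hs hLN hN)
        rw [Real.log_exp] at this
        rw [← mul_div_assoc, div_le_iff₀ hN0, add_mul, div_mul_cancel₀ _ hN0.ne']
        linarith
      simp only [gap]; linarith
    · intro hG
      obtain ⟨d, hd1, hd2⟩ := exists_between hθ
      have hG1 := ((hlim θ hθ).1.div_const (s:ℝ))
      have hlow : (((s:ℝ) * θ - 1 - Real.log (s:ℝ) - lpot μ θ) - 0 -
          (1 - cauchy μ θ / s) * ((s:ℝ) * (θ + L)) - 0) ≤ 2 * Js a α (s:ℝ) := by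
        refine le_of_tendsto_of_tendsto ((((hPhi θ hθ s hs).sub hE).sub ((hG1.const_sub 1).mul_const _)).sub
          ((sqrt_small ((s:ℝ) * (θ + L))).mono_left hU)) hZ ?_
        filter_upwards [hc d hd1, hU hL, hU (eventually_wid ((s:ℝ) * (θ + L)) (show 0 < (s:ℝ) * (θ - d) from
          mul_pos hs (by linarith))), hG1.eventually (eventually_lt_nhds ((div_lt_one hs).2 hG))]
          with N hN hLN hw hGN
        obtain ⟨hN1, hw2, hw1⟩ := hw
        have hN0 : (0:ℝ) < N := by exact_mod_cast (show 0 < N by omega)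
        set i0 : Fin N := ⟨0, by omega⟩
        have hθN : ∀ i, lam N i < θ := fun i => (hN i).trans_lt hd2
        have hD : ∀ i, (s:ℝ) * (θ - d) ≤ s * (θ - lam N i) := fun i =>
          mul_le_mul_of_nonneg_left (by linarith [hN i]) hs.le
        have hD0 : (s:ℝ) * (θ - lam N i0) ≤ s * (θ + L) :=
          mul_le_mul_of_nonneg_left (by linarith [(abs_le.1 (hLN i0)).1]) hs.le
        have hS : ∑ i, 1 / ((s:ℝ) * (θ - lam N i)) = (∑ i, 1 / (θ - lam N i)) / (N:ℝ) / s * N := by
          rw [div_right_comm _ (N:ℝ), div_mul_cancel₀ _ hN0.ne', Finset.sum_div]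
          exact Finset.sum_congr rfl fun i _ => by rw [div_div, mul_comm]
        set q := (∑ i, 1 / (θ - lam N i)) / (N:ℝ) / s
        have h := Zl_lower hN1 hs (mul_pos hs (by linarith)) hLN hθN hD i0
          (by rw [hS]; exact mul_le_of_le_one_left hN0.le hGN.le) (hw1 _ hD0) hw2
        rw [hS] at h
        have h1 : ((N:ℝ) - q * N) * (s * (θ - lam N i0)) ≤ (1 - q) * (s * (θ + L)) * N := by
          rw [show ((N:ℝ) - q * N) * (s * (θ - lam N i0)) = (1 - q) * (s * (θ - lam N i0)) * N by ring]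
          exact mul_le_mul_of_nonneg_right (mul_le_mul_of_nonneg_left hD0 (by linarith)) hN0.le
        have h2 : √(N * (s * (θ - lam N i0)) + 1) ≤ √(N * (s * (θ + L)) + 1) :=
          Real.sqrt_le_sqrt (by linarith [mul_le_mul_of_nonneg_left hD0 hN0.le])
        rw [← mul_div_assoc, le_div_iff₀ hN0]
        simp only [sub_mul, div_mul_cancel₀ _ hN0.ne']
        linarith
      have e : (1 - cauchy μ θ / s) * ((s:ℝ) * (θ + L)) = (s - cauchy μ θ) * (θ + L) := by field_simp
      simp only [gap]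
      linarith
  -- the equation near infinity
  have hmax : ∀ θ, c + 1 / s0 < θ → θ = Ka a α (cauchy μ θ) ∧ gap a α μ θ (cauchy μ θ) = 0 := by
    intro θ hθ
    have hθc : c < θ := by linarith [one_div_pos.2 hs0]
    set g := cauchy μ θ
    have hg : 0 < g := Multi.cauchy_pos hμ hθc
    have hgs : g < s0 := by
      refine (Multi.cauchy_bounds hμ hθc).2.trans_lt ?_
      rw [div_lt_iff₀ (by linarith)]
      have : 1 / s0 < θ - c := by linarith
      rw [div_lt_iff₀ hs0] at this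
      linarith
    set φ := gap a α μ θ
    have hcont : ∀ s, 0 < s → s ≤ s0 → ContinuousAt φ s := fun s h1 h2 =>
      (hasDerivAt_gap a α μ θ h1 (small_den h1 h2 hs0a)).continuousAt
    have hle : ∀ s, 0 < s → s < s0 → φ s ≤ 0 := by
      intro s h1 h2
      by_contra hpos
      push Not at hpos
      obtain ⟨l, u, ⟨hl, hu⟩, hsub⟩ := mem_nhds_iff_exists_Ioo_subset.1
        (((hcont s h1 h2.le).eventually (eventually_gt_nhds hpos)).and (Ioo_mem_nhds h1 h2))
      obtain ⟨q, hq1, hq2⟩ := exists_rat_btwn (hl.trans hu)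
      obtain ⟨hq3, hq4⟩ := hsub ⟨hq1, hq2⟩
      exact not_lt.2 (hrat θ hθc q hq4.1 hq4.2.le).1 hq3
    have hge : 0 ≤ φ g := by
      by_contra hneg
      push Not at hneg
      have hc2 : ContinuousAt (fun s => φ s + (s - g) * (θ + L)) g :=
        (hcont g hg hgs.le).add ((continuousAt_id.sub continuousAt_const).mul continuousAt_const)
      obtain ⟨l, u, ⟨hl, hu⟩, hsub⟩ := mem_nhds_iff_exists_Ioo_subset.1
        ((hc2.eventually (eventually_lt_nhds (show φ g + (g - g) * (θ + L) < 0 by simpa using hneg))).and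
          (eventually_lt_nhds hgs))
      obtain ⟨q, hq1, hq2⟩ := exists_rat_btwn hu
      obtain ⟨hq3, hq4⟩ := hsub ⟨hl.trans hq1, hq2⟩
      have := (hrat θ hθc q (hg.trans hq1) hq4.le).2 hq1
      linarith
    have h0 : φ g = 0 := le_antisymm (hle g hg hgs) hge
    have hext : IsLocalMax φ g := by
      filter_upwards [Ioo_mem_nhds hg hgs] with s hs
      rw [h0]; exact hle s hs.1 hs.2
    have := hext.hasDerivAt_eq_zero (hasDerivAt_gap a α μ θ hg (small_den hg hgs.le hs0a))
    exact ⟨by linarith, h0⟩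
  -- continuation
  intro θ hθ hv
  set T := max θ (c + 1 / s0) + 1
  have hT1 : θ < T := by simp only [T]; linarith [le_max_left θ (c + 1 / s0)]
  have hT2 : c + 1 / s0 < T := by simp only [T]; linarith [le_max_right θ (c + 1 / s0)]
  have hG : ∀ v ∈ Set.Ici θ, AnalyticAt ℝ (cauchy μ) v := fun v hv' =>
    (Multi.cauchy_series hμ (hθ.trans_le hv')).analyticAt
  set ψ := fun v => Ka a α (cauchy μ v) - v
  have han : AnalyticOnNhd ℝ ψ (Set.Ici θ) := fun v hv' =>
    ((analyticAt_Ka a α (Multi.cauchy_pos hμ (hθ.trans_le hv')) (hv v hv')).comp (hG v hv')).sub analyticAt_id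
  have hzero : Set.EqOn ψ 0 (Set.Ici θ) := by
    refine han.eqOn_zero_of_preconnected_of_eventuallyEq_zero isPreconnected_Ici hT1.le ?_
    filter_upwards [eventually_gt_nhds hT2] with v hv'
    simp only [Pi.zero_apply, ψ]
    linarith [(hmax v hv').1]
  refine ⟨by have := hzero (Set.self_mem_Ici (a := θ)); simp only [Pi.zero_apply, ψ] at this; linarith, ?_⟩
  set f := fun v => gap a α μ v (cauchy μ v)
  have hder : ∀ v ∈ Set.Ici θ, HasDerivAt f 0 v := by
    intro v hv'
    have hK := hzero hv'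
    simp only [Pi.zero_apply, ψ] at hK
    have hg := Multi.cauchy_pos hμ (hθ.trans_le hv')
    have h1 := (hG v hv').differentiableAt.hasDerivAt
    have hJ := ((hasDerivAt_Js a α (hv v hv')).comp v h1).const_mul 2
    have hl := (Real.hasDerivAt_log hg.ne').comp v h1
    have hp := hasDerivAt_lpot hμ (hθ.trans_le hv')
    have hf := hJ.sub ((((h1.mul (hasDerivAt_id v)).sub_const 1).sub hl).sub hp)
    refine hf.congr_deriv ?_
    simp only [id_eq, Ka, one_div] at hK ⊢
    linear_combination (deriv (cauchy μ) v) * hK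
  have := constant_of_has_deriv_right_zero (f := f) (a := θ) (b := T)
    (fun v hv' => (hder v hv'.1).continuousAt.continuousWithinAt) (fun v hv' => (hder v hv'.1).hasDerivWithinAt)
    T ⟨hT1.le, le_rfl⟩
  show f θ = 0
  rw [← this]
  exact (hmax T hT2).2

/-- quasi-convexity of `Ka` -/
lemma Ka_le_max {a α : Fin r → ℝ} (hα : ∀ j, 0 ≤ α j) {g s y : ℝ} (hg : 0 < g) (hgs : g ≤ s) (hsy : s ≤ y)
    (hy : ∀ u, 0 < u → u ≤ y → ∀ j, u * a j < 1) : Ka a α s ≤ max (Ka a α g) (Ka a α y) := by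
  set T := fun u v => ∑ j, α j * (u * a j / (1 - u * a j) * (v * a j / (1 - v * a j)))
  have hs : 0 < s := hg.trans_le hgs
  have hdiff : ∀ u v, 0 < u → u ≤ v → v ≤ y → Ka a α u - Ka a α v = (v - u) / (u * v) * (1 - T u v) := by
    intro u v hu huv hvy
    have hv : 0 < v := hu.trans_le huv
    simp only [Ka, Ra, T, mul_sub, mul_one, Finset.mul_sum]
    rw [show (1 / u + ∑ j, α j * (a j / (1 - u * a j))) - (1 / v + ∑ j, α j * (a j / (1 - v * a j))) =
      (1 / u - 1 / v) + ∑ j, (α j * (a j / (1 - u * a j)) - α j * (a j / (1 - v * a j))) by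
        rw [Finset.sum_sub_distrib]; ring, sub_eq_add_neg ((v - u) / (u * v)), ← Finset.sum_neg_distrib]
    congr 1
    · field_simp
    · refine Finset.sum_congr rfl fun j _ => ?_
      have d1 : 0 < 1 - u * a j := sub_pos.2 (hy u hu (huv.trans hvy) j)
      have d2 : 0 < 1 - v * a j := sub_pos.2 (hy v hv hvy j)
      generalize hD1 : 1 - u * a j = D1 at d1 ⊢
      generalize hD2 : 1 - v * a j = D2 at d2 ⊢
      field_simp
      subst hD1 hD2
      ring
  have hT : T g s ≤ T s y := by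
    refine Finset.sum_le_sum fun j _ => mul_le_mul_of_nonneg_left ?_ (hα j)
    have d1 : 0 < 1 - g * a j := sub_pos.2 (hy g hg (hgs.trans hsy) j)
    have d2 : 0 < 1 - s * a j := sub_pos.2 (hy s hs hsy j)
    have d3 : 0 < 1 - y * a j := sub_pos.2 (hy y (hs.trans_le hsy) le_rfl j)
    have h1 : g / (1 - g * a j) ≤ y / (1 - y * a j) := by
      rw [div_le_div_iff₀ d1 d3]; nlinarith
    calc g * a j / (1 - g * a j) * (s * a j / (1 - s * a j))
        = g / (1 - g * a j) * (a j ^ 2 * (s / (1 - s * a j))) := by ring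
      _ ≤ y / (1 - y * a j) * (a j ^ 2 * (s / (1 - s * a j))) :=
          mul_le_mul_of_nonneg_right h1 (by positivity)
      _ = _ := by ring
  by_contra hlt
  push Not at hlt
  obtain ⟨h1, h2⟩ := max_lt_iff.1 hlt
  have e1 := hdiff g s hg hgs hsy
  have e2 := hdiff s y hs hsy le_rfl
  have p1 : 0 ≤ (s - g) / (g * s) := div_nonneg (sub_nonneg.2 hgs) (by positivity)
  have p2 : 0 ≤ (y - s) / (s * y) := div_nonneg (sub_nonneg.2 hsy) (mul_nonneg hs.le (hs.le.trans hsy))
  rcases le_or_gt (T g s) 1 with h | h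
  · nlinarith [mul_nonneg p1 (sub_nonneg.2 h)]
  · nlinarith [mul_nonneg p2 (show 0 ≤ T s y - 1 by linarith)]

/-- the largest eigenvalue stays below every value of `Ka` -/
theorem top_le {a α : Fin r → ℝ} (hα : ∀ j, 0 < α j) {lam : ∀ N : ℕ, Fin N → ℝ} (h : Spec a α lam) {L : ℝ}
    (hL : ∀ᶠ N : ℕ in atTop, ∀ i, |lam N i| ≤ L) {y : ℝ} (hy : 0 < y) (hya : ∀ j, y * a j < 1) {ε : ℝ}
    (hε : 0 < ε) : ∀ᶠ N : ℕ in atTop, ∀ i, lam N i ≤ Ka a α y + ε := by
  suffices hq : ∀ q : ℚ, 0 < (q:ℝ) → (∀ j, (q:ℝ) * a j < 1) → ∀ ε : ℝ, 0 < ε →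
      ∀ᶠ N : ℕ in atTop, ∀ i, lam N i ≤ Ka a α q + ε by
    have hopen : ∀ᶠ v in 𝓝 y, Ka a α v < Ka a α y + ε / 2 ∧ 0 < v ∧ ∀ j, v * a j < 1 :=
      ((analyticAt_Ka a α hy hya).continuousAt.eventually (eventually_lt_nhds (by linarith))).and
        ((eventually_gt_nhds hy).and (eventually_all.2 fun j =>
          (continuousAt_id.mul continuousAt_const).eventually (eventually_lt_nhds (hya j))))
    obtain ⟨l, u, ⟨hl, hu⟩, hsub⟩ := mem_nhds_iff_exists_Ioo_subset.1 hopen
    obtain ⟨q, hq1, hq2⟩ := exists_rat_btwn (hl.trans hu)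
    obtain ⟨h1, h2, h3⟩ := hsub ⟨hq1, hq2⟩
    exact (hq q h2 h3 (ε / 2) (half_pos hε)).mono fun N hN i => (hN i).trans (by linarith)
  clear hy hya hε
  intro q hq hqa ε hε
  set y := (q:ℝ)
  by_contra hnot
  rw [Filter.not_eventually] at hnot
  set mx : ℕ → ℝ := fun N => ⨆ i, lam N i
  set S := {N : ℕ | ¬∀ i, lam N i ≤ Ka a α y + ε}
  haveI : (atTop ⊓ 𝓟 S).NeBot := Filter.frequently_iff_neBot.1 hnot
  set U := Ultrafilter.of (atTop ⊓ 𝓟 S)
  have hU : (U : Filter ℕ) ≤ atTop := (Ultrafilter.of_le _).trans inf_le_left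
  have hUS : ∀ᶠ N in (U : Filter ℕ), N ∈ S := ((Ultrafilter.of_le _).trans inf_le_right) (mem_principal_self S)
  have hmx : ∀ᶠ N in (U : Filter ℕ), mx N ∈ Set.Icc (-L) L := by
    filter_upwards [hU hL, hU (eventually_gt_atTop 0)] with N hN hN0
    haveI : Nonempty (Fin N) := ⟨⟨0, hN0⟩⟩
    exact ⟨(abs_le.1 (hN ⟨0, hN0⟩)).1.trans (le_ciSup (Set.finite_range _).bddAbove _),
      ciSup_le fun i => (abs_le.1 (hN i)).2⟩
  obtain ⟨c, -, hc⟩ := isCompact_Icc.ultrafilter_le_nhds (U.map mx) (le_principal_iff.2 hmx)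
  have htend : Tendsto mx (U : Filter ℕ) (𝓝 c) := hc
  have hKc : Ka a α y + ε ≤ c := by
    refine ge_of_tendsto htend ?_
    filter_upwards [hUS] with N hN
    obtain ⟨i, hi⟩ := not_forall.1 hN
    exact (not_le.1 hi).le.trans (le_ciSup (Set.finite_range (lam N)).bddAbove i)
  have hcd : ∀ d, c < d → ∀ᶠ N in (U : Filter ℕ), ∀ i, lam N i ≤ d := fun d hd =>
    (htend.eventually (eventually_le_nhds hd)).mono fun N hN i =>
      (le_ciSup (Set.finite_range (lam N)).bddAbove i).trans hN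
  obtain ⟨μ, hμ, hlim, heq⟩ := cluster_eq h hL U hU hcd
  -- the transform stays below `y`
  have hlt : ∀ t, c < t → cauchy μ t < y := by
    intro t ht
    by_contra hge
    push Not at hge
    set T := max t c + 2 / y
    have hT : t ≤ T := by simp only [T]; linarith [le_max_left t c, show 0 < 2 / y by positivity]
    have hTy : cauchy μ T < y := by
      refine (Multi.cauchy_bounds hμ (ht.trans_le hT)).2.trans_lt ?_
      have h2 : 2 / y ≤ T - c := by simp only [T]; linarith [le_max_right t c]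
      rw [div_le_iff₀ hq] at h2
      rw [div_lt_iff₀ (by linarith)]
      linarith
    obtain ⟨v, hv, hvy⟩ := intermediate_value_Icc' hT
      (fun v hv => (Multi.cauchy_series hμ (ht.trans_le hv.1)).analyticAt.continuousAt.continuousWithinAt)
      ⟨hTy.le, hge⟩
    have hv' : c < v := ht.trans_le hv.1
    have := (heq v hv' fun w hw j => ?_).1
    · rw [hvy] at this; linarith
    · have h1 := Multi.cauchy_anti hμ hv' hw
      have h2 := Multi.cauchy_pos hμ (hv'.trans_le hw)
      rw [hvy] at h1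
      rcases le_or_gt (a j) 0 with h0 | h0
      · linarith [mul_nonpos_of_nonneg_of_nonpos h2.le h0]
      · exact (mul_le_mul_of_nonneg_right h1 h0.le).trans_lt (hqa j)
  have hden : ∀ g, 0 < g → g ≤ y → ∀ j, g * a j < 1 := fun g hg hgy j => by
    rcases le_or_gt (a j) 0 with h0 | h0
    · linarith [mul_nonpos_of_nonneg_of_nonpos hg.le h0]
    · exact (mul_le_mul_of_nonneg_right hgy h0.le).trans_lt (hqa j)
  -- near `y` the function stays below `c`
  obtain ⟨y1, hy1, hy1y, hKy⟩ : ∃ y1, 0 < y1 ∧ y1 < y ∧ ∀ s ∈ Set.Icc y1 y, Ka a α s ≤ c - ε / 2 := by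
    obtain ⟨l, hl, hsub⟩ := mem_nhdsLE_iff_exists_Icc_subset.1 (nhdsWithin_le_nhds
      (((analyticAt_Ka a α hq hqa).continuousAt.eventually (eventually_le_nhds
        (show Ka a α y < c - ε / 2 by linarith))).and (eventually_gt_nhds hq)) :
        {s | Ka a α s ≤ c - ε / 2 ∧ 0 < s} ∈ 𝓝[≤] y)
    exact ⟨l, (hsub ⟨le_rfl, hl.le⟩).2, hl, fun s hs => (hsub hs).1⟩
  set η := (y - y1) * (ε / 2)
  have hη : 0 < η := mul_pos (sub_pos.2 hy1y) (half_pos hε)
  set t := c + η / (2 * y)
  have ht : c < t := by simp only [t]; linarith [show 0 < η / (2 * y) by positivity]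
  set g := cauchy μ t
  have hg : 0 < g := Multi.cauchy_pos hμ ht
  have hgy : g < y := hlt t ht
  obtain ⟨hKg, hgap⟩ := heq t ht fun v hv j =>
    hden _ (Multi.cauchy_pos hμ (ht.trans_le hv)) ((hlt v (ht.trans_le hv)).le) j
  -- the variational function decreases by at least `η`
  have hgy1 : g < y1 := by
    by_contra hge
    push Not at hge
    have := hKy g ⟨hge, hgy.le⟩
    linarith
  have hKle : ∀ s ∈ Set.Icc g y, Ka a α s ≤ t := fun s hs =>
    (Ka_le_max (fun j => (hα j).le) hg hs.1 hs.2 hden).trans (max_le hKg.ge (by linarith))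
  set φ := gap a α μ t
  have hdφ : ∀ s ∈ Set.Icc g y, HasDerivAt φ (Ka a α s - t) s := fun s hs =>
    hasDerivAt_gap a α μ t (hg.trans_le hs.1) (hden s (hg.trans_le hs.1) hs.2)
  have hanti : AntitoneOn φ (Set.Icc g y) := antitoneOn_of_hasDerivWithinAt_nonpos (convex_Icc _ _)
    (fun s hs => (hdφ s hs).continuousAt.continuousWithinAt)
    (fun s hs => (hdφ s (interior_subset hs)).hasDerivWithinAt) fun s hs => by
      linarith [hKle s (interior_subset hs)]
  have hlin : AntitoneOn (fun s => φ s + ε / 2 * s) (Set.Icc y1 y) := by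
    have hmem : ∀ s ∈ Set.Icc y1 y, s ∈ Set.Icc g y := fun s hs => ⟨hgy1.le.trans hs.1, hs.2⟩
    refine antitoneOn_of_hasDerivWithinAt_nonpos (f' := fun s => Ka a α s - t + ε / 2 * 1) (convex_Icc _ _)
      (fun s hs => ?_) (fun s hs => ?_) fun s hs => ?_
    · exact (((hdφ s (hmem s hs)).add ((hasDerivAt_id s).const_mul (ε / 2))).continuousAt).continuousWithinAt
    · exact (((hdφ s (hmem s (interior_subset hs))).add ((hasDerivAt_id s).const_mul (ε / 2)))).hasDerivWithinAt
    · linarith [hKy s (interior_subset hs)]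
  have hφ : φ y ≤ -η := by
    have h1 := hanti ⟨le_rfl, hgy.le⟩ ⟨hgy1.le, hy1y.le⟩ hgy1.le
    have h2 := hlin ⟨le_rfl, hy1y.le⟩ ⟨hy1y.le, le_rfl⟩ hy1y.le
    have h3 : φ g = 0 := hgap
    simp only [η] at *
    linarith
  -- the lower bound at finite size
  have hG1 := ((hlim t ht).1.div_const y)
  have hPhi : Tendsto (fun N : ℕ => Phi y t (lam N)) (U : Filter ℕ) (𝓝 (y * t - 1 - Real.log y - lpot μ t)) := by
    refine ((hlim t ht).2.const_sub (y * t - 1 - Real.log y)).congr' ?_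
    obtain ⟨d, hd1, hd2⟩ := exists_between ht
    filter_upwards [hcd d hd1, hU (eventually_gt_atTop 0)] with N hN hN0
    have hN' : (N:ℝ) ≠ 0 := by exact_mod_cast hN0.ne'
    simp only [Phi]
    rw [Finset.sum_congr rfl fun i _ => Real.log_mul hq.ne' (sub_pos.2 ((hN i).trans_lt hd2)).ne',
      Finset.sum_add_distrib]
    simp only [Finset.sum_const, Finset.card_univ, Fintype.card_fin, nsmul_eq_mul, add_div]
    rw [mul_div_cancel_left₀ _ hN']
    ring
  obtain ⟨d, hd1, hd2⟩ := exists_between ht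
  have hlow : ((y * t - 1 - Real.log y - lpot μ t) - 0 - y * (t - c) - 0) ≤ 2 * (Js a α y + η / 8) := by
    refine le_of_tendsto_of_tendsto (((hPhi.sub ((er_tendsto L y t).mono_left hU)).sub
      ((htend.const_sub t).const_mul y)).sub ((sqrt_small (y * (t + L))).mono_left hU)) tendsto_const_nhds ?_
    filter_upwards [hcd d hd1, hU hL, hU (eventually_wid (y * (t + L)) (show 0 < y * (t - d) from
      mul_pos hq (by linarith))), hG1.eventually (eventually_lt_nhds ((div_lt_one hq).2 hgy)),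
      hU (h.upper q hq hqa (η / 8) (by positivity))] with N hN hLN hw hGN hZ
    obtain ⟨hN1, hw2, hw1⟩ := hw
    have hN0 : (0:ℝ) < N := by exact_mod_cast (show 0 < N by omega)
    haveI : Nonempty (Fin N) := ⟨⟨0, by omega⟩⟩
    obtain ⟨i0, hi0⟩ := exists_eq_ciSup_of_finite (f := lam N)
    have hθN : ∀ i, lam N i < t := fun i => (hN i).trans_lt hd2
    have hD : ∀ i, y * (t - d) ≤ y * (t - lam N i) := fun i =>
      mul_le_mul_of_nonneg_left (by linarith [hN i]) hq.le
    have hD0 : y * (t - lam N i0) ≤ y * (t + L) :=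
      mul_le_mul_of_nonneg_left (by linarith [(abs_le.1 (hLN i0)).1]) hq.le
    have hS : ∑ i, 1 / (y * (t - lam N i)) = (∑ i, 1 / (t - lam N i)) / (N:ℝ) / y * N := by
      rw [div_right_comm _ (N:ℝ), div_mul_cancel₀ _ hN0.ne', Finset.sum_div]
      exact Finset.sum_congr rfl fun i _ => by rw [div_div, mul_comm]
    have hl := Zl_lower hN1 hq (mul_pos hq (by linarith)) hLN hθN hD i0
      (by rw [hS]; exact mul_le_of_le_one_left hN0.le hGN.le) (hw1 _ hD0) hw2
    have hpos : 0 ≤ ∑ i, 1 / (y * (t - lam N i)) :=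
      Finset.sum_nonneg fun i _ => one_div_nonneg.2 (mul_nonneg hq.le (sub_nonneg.2 (hθN i).le))
    have h1 : ((N:ℝ) - ∑ i, 1 / (y * (t - lam N i))) * (y * (t - lam N i0)) ≤ N * (y * (t - mx N)) := by
      rw [show mx N = lam N i0 from hi0.symm]
      exact mul_le_mul_of_nonneg_right (by linarith) (mul_nonneg hq.le (sub_nonneg.2 (hθN i0).le))
    have h2 : √(N * (y * (t - lam N i0)) + 1) ≤ √(N * (y * (t + L)) + 1) :=
      Real.sqrt_le_sqrt (by linarith [mul_le_mul_of_nonneg_left hD0 hN0.le])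
    have h3 : Real.log (Zl y (lam N)) ≤ N * (Js a α y + η / 8) := by
      rcases le_or_gt (Zl y (lam N)) 0 with h0 | h0
      · have hb := (Zl_two_sided hN1 hq hLN hθN).1
        have hp := Pw_lower (mul_pos hq (by linarith : 0 < t - d)) hD i0 ?_ (hw1 _ hD0) hw2
        · exact absurd (lt_of_lt_of_le (mul_pos (lt_of_lt_of_le (by positivity) hp) (Real.exp_pos _)) hb) (not_lt.2 h0)
        · rw [Finset.sum_erase_eq_sub (Finset.mem_univ i0)]
          have : 0 ≤ 1 / (y * (t - lam N i0)) := one_div_nonneg.2 (mul_nonneg hq.le (sub_nonneg.2 (hθN i0).le))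
          have := mul_le_of_le_one_left hN0.le hGN.le
          linarith [hS]
      · exact (Real.log_lt_iff_lt_exp h0).2 hZ |>.le
    rw [← mul_le_mul_iff_of_pos_right hN0]
    simp only [sub_mul, div_mul_cancel₀ _ hN0.ne']
    linarith
  have hyt : y * (t - c) = η / 2 := by simp only [t]; field_simp; ring
  rw [hyt] at hlow
  simp only [φ, gap] at hφ
  linarith

end Vale.Agent.P166.Pattern.Signed
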