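import Vale.Agent.P166.Pattern.Signed.Sphere

/-!
Concentration of the spherical pressure around its annealed value.
-/

open MeasureTheory ProbabilityTheory Filter Matrix
open scoped Topology

noncomputable section

namespace Vale.Agent.P166.Pattern.Signed

open Multi (Ks cs can cnt_can)

variable {M N : ℕ} {r : ℕ}

/-- annealed spherical pressure -/
def Js (a α : Fin r → ℝ) (s : ℝ) : ℝ := -(1 / 2) * ∑ j, α j * Real.log (1 - s * a j)

lemma shell_prob (hN : 0 < N) : 1 - 2 / √(N:ℝ) ≤ (gauss (Fin N)).real (shell N) := by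
  have hN' : (0:ℝ) < N := by exact_mod_cast hN
  have hv := Multi.quad_var (R := (1 : Matrix (Fin N) (Fin N) ℝ)) Matrix.transpose_one
  simp only [Matrix.one_mulVec, Matrix.trace_one, Fintype.card_fin, Matrix.one_apply, ite_pow, one_pow,
    zero_pow two_ne_zero, Finset.sum_ite_eq, Finset.mem_univ, if_true, Finset.sum_const, Finset.card_univ,
    nsmul_eq_mul, mul_one] at hv
  have hd : ∀ y : Fin N → ℝ, y ⬝ᵥ y = ∑ i, y i ^ 2 := fun y => by simp [dotProduct, sq]
  simp only [hd] at hv
  have hi : Integrable (fun y : Fin N → ℝ => (∑ i, y i ^ 2 - N) ^ 2) (gauss (Fin N)) :=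
    integrable_poly (by fun_prop)
      (((Poly.sum _ fun i _ => (poly_coord i).pow 2).sub (Poly.const (N:ℝ))).pow 2)
  have hw : 0 < wid N := div_pos hN' (by positivity)
  have h := mul_meas_ge_le_integral_of_nonneg (.of_forall fun y => sq_nonneg _) hi (wid N ^ 2)
  rw [hv] at h
  have hsub : (shell N)ᶜ ⊆ {y : Fin N → ℝ | wid N ^ 2 ≤ (∑ i, y i ^ 2 - N) ^ 2} := fun y hy => by
    have hy' : wid N < |∑ i, y i ^ 2 - N| := not_le.1 hy
    show wid N ^ 2 ≤ (∑ i, y i ^ 2 - N) ^ 2
    rw [← sq_abs (∑ i, y i ^ 2 - (N:ℝ))]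
    exact pow_le_pow_left₀ hw.le hy'.le 2
  have hw2 : wid N ^ 2 = (N:ℝ) * √(N:ℝ) := by
    simp only [wid, div_pow, Real.sq_sqrt (Real.sqrt_nonneg _)]
    rw [div_eq_iff (by positivity), mul_assoc, Real.mul_self_sqrt hN'.le, sq]
  have h2 := (mul_le_mul_of_nonneg_left (measureReal_mono (μ := gauss (Fin N)) hsub) (sq_nonneg (wid N))).trans h
  rw [probReal_compl_eq_one_sub measurableSet_shell, hw2] at h2
  have hs : 0 < √(N:ℝ) := Real.sqrt_pos.2 hN'
  rw [sub_le_comm, le_div_iff₀ hs]
  nlinarith [mul_le_mul_of_nonneg_left h2 (inv_nonneg.2 hN'.le), inv_mul_cancel₀ hN'.ne']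

lemma shell_half : ∀ᶠ N : ℕ in atTop, 1 / 2 ≤ (gauss (Fin N)).real (shell N) := by
  filter_upwards [eventually_ge_atTop 16] with N hN
  refine le_trans ?_ (shell_prob (by omega))
  have : 4 ≤ √(N:ℝ) := Real.le_sqrt_of_sq_le (by
    have : (16:ℝ) ≤ N := by exact_mod_cast hN
    linarith)
  have : 2 / √(N:ℝ) ≤ 1 / 2 := by rw [div_le_iff₀ (by linarith)]; linarith
  linarith

lemma Zs_pos (hP : 0 < (gauss (Fin N)).real (shell N)) (s : ℝ) (c : Fin M → ℝ) (g : Fin M × Fin N → ℝ) :
    0 < Zs s c g := lt_of_lt_of_le (mul_pos hP (Real.exp_pos _)) (Zs_bounds s c g).1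

/-- log spherical partition function as a function of the patterns -/
def Ls (s : ℝ) (c : Fin M → ℝ) (g : Fin M → Fin N → ℝ) : ℝ := Real.log (Zs s c fun q => g q.1 q.2)

lemma good_Ls (hP : 0 < (gauss (Fin N)).real (shell N)) (s : ℝ) (c : Fin M → ℝ) : Good (Ls (N := N) s c) := by
  refine ⟨Real.measurable_log.comp ((measurable_Zs s c).comp (by fun_prop)), ?_⟩
  have h1 : Poly fun g : Fin M → Fin N → ℝ =>
      |Real.log ((gauss (Fin N)).real (shell N))| + ∑ m, |s * c m / 2| * ∑ i, g m i ^ 2 := by
    refine (Poly.const _).add (Poly.sum _ fun m _ => Poly.const_mul (Poly.sum _ fun i _ => Poly.pow ?_ 2) _)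
    exact ⟨1, 1, fun g => by
      rw [one_mul, pow_one, ← Real.norm_eq_abs]
      linarith [norm_le_pi_norm (g m) i, norm_le_pi_norm g m]⟩
  refine h1.mono fun g => ?_
  have hB : 0 ≤ ∑ m, |s * c m / 2| * ∑ i, g m i ^ 2 :=
    Finset.sum_nonneg fun m _ => mul_nonneg (abs_nonneg _) (Finset.sum_nonneg fun i _ => sq_nonneg _)
  obtain ⟨l1, l2⟩ := Zs_bounds s c fun q : Fin M × Fin N => g q.1 q.2
  have u1 := Real.log_le_log (mul_pos hP (Real.exp_pos _)) l1
  have u2 := Real.log_le_log (Zs_pos hP s c _) l2
  rw [Real.log_mul hP.ne' (Real.exp_pos _).ne', Real.log_exp] at u1 u2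
  rw [abs_of_nonneg (a := _ + _) (add_nonneg (abs_nonneg _) hB), abs_le]
  simp only [Ls]
  constructor <;> linarith [neg_abs_le (Real.log ((gauss (Fin N)).real (shell N))),
    le_abs_self (Real.log ((gauss (Fin N)).real (shell N)))]

/-- changing one pattern: the squared change of the logarithm -/
lemma log_change {Y : Type*} [MeasurableSpace Y] (μ : Measure Y) {W u : Y → ℝ} (hW : ∀ y, 0 ≤ W y)
    (h0 : Integrable W μ) (h1 : Integrable (fun y => W y * Real.exp (u y)) μ)
    (h2 : Integrable (fun y => W y * Real.exp |u y|) μ) (h3 : Integrable (fun y => W y * Real.exp (2 * |u y|)) μ)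
    (hB : 0 < ∫ y, W y ∂μ) (hA : 0 < ∫ y, W y * Real.exp (u y) ∂μ) :
    (Real.log (∫ y, W y * Real.exp (u y) ∂μ) - Real.log (∫ y, W y ∂μ)) ^ 2 ≤
      (∫ y, W y * Real.exp (2 * |u y|) ∂μ) / ∫ y, W y ∂μ := by
  set A := ∫ y, W y * Real.exp (u y) ∂μ
  set B := ∫ y, W y ∂μ
  set D := ∫ y, W y * Real.exp |u y| ∂μ
  set C := ∫ y, W y * Real.exp (2 * |u y|) ∂μ
  have hAD : A ≤ D := integral_mono h1 h2 fun y =>
    mul_le_mul_of_nonneg_left (Real.exp_le_exp.2 (le_abs_self _)) (hW y)
  have hBD : B ≤ D := integral_mono h0 h2 fun y => le_mul_of_one_le_right (hW y) (Real.one_le_exp (abs_nonneg _))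
  have hBA : B * B ≤ A * D := by
    have h : B ≤ B / A / 2 * A + A / B / 2 * D := by
      calc B ≤ ∫ y, (B / A / 2 * (W y * Real.exp (u y)) + A / B / 2 * (W y * Real.exp |u y|)) ∂μ := by
            refine integral_mono h0 ((h1.const_mul _).add (h2.const_mul _)) fun y => ?_
            have e : 1 ≤ B / A / 2 * Real.exp (u y) + A / B / 2 * Real.exp |u y| := by
              have h4 : A / B / 2 * Real.exp (-u y) ≤ A / B / 2 * Real.exp |u y| :=
                mul_le_mul_of_nonneg_left (Real.exp_le_exp.2 (neg_le_abs _)) (by positivity)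
              refine le_trans ?_ (add_le_add le_rfl h4)
              rw [Real.exp_neg]
              have hz : 0 < B / A * Real.exp (u y) := by positivity
              have e2 : B / A / 2 * Real.exp (u y) + A / B / 2 * (Real.exp (u y))⁻¹ =
                  ((B / A * Real.exp (u y)) ^ 2 + 1) / (2 * (B / A * Real.exp (u y))) := by
                field_simp
              rw [e2, le_div_iff₀ (by positivity)]
              nlinarith [sq_nonneg (B / A * Real.exp (u y) - 1)]
            nlinarith [mul_le_mul_of_nonneg_left e (hW y)]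
        _ = _ := by rw [integral_add (h1.const_mul _) (h2.const_mul _), integral_const_mul, integral_const_mul]
    rw [show B / A / 2 * A = B / 2 by field_simp] at h
    have h5 : B / 2 ≤ A * D / (2 * B) := by
      rw [show A * D / (2 * B) = A / B / 2 * D by field_simp]
      linarith
    rw [le_div_iff₀ (by positivity)] at h5
    nlinarith
  have hD : 0 < D := hB.trans_le hBD
  have hDC : D * D ≤ B * C := by
    have h : D ≤ D / B / 2 * B + B / D / 2 * C := by
      calc D ≤ ∫ y, (D / B / 2 * W y + B / D / 2 * (W y * Real.exp (2 * |u y|))) ∂μ := by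
            refine integral_mono h2 ((h0.const_mul _).add (h3.const_mul _)) fun y => ?_
            have e : Real.exp |u y| ≤ D / B / 2 + B / D / 2 * Real.exp (2 * |u y|) := by
              rw [two_mul |u y|, Real.exp_add]
              have e2 : D / B / 2 + B / D / 2 * (Real.exp |u y| * Real.exp |u y|) =
                  ((D / B) ^ 2 + Real.exp |u y| * Real.exp |u y|) / (2 * (D / B)) := by field_simp
              rw [e2, le_div_iff₀ (by positivity)]
              nlinarith [sq_nonneg (D / B - Real.exp |u y|)]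
            nlinarith [mul_le_mul_of_nonneg_left e (hW y)]
        _ = _ := by rw [integral_add (h0.const_mul _) (h3.const_mul _), integral_const_mul, integral_const_mul]
    rw [show D / B / 2 * B = D / 2 by field_simp] at h
    have h5 : D / 2 ≤ B * C / (2 * D) := by
      rw [show B * C / (2 * D) = B / D / 2 * C by field_simp]
      linarith
    rw [le_div_iff₀ (by positivity)] at h5
    nlinarith
  set Y := D / B
  have hY : 1 ≤ Y := (one_le_div hB).2 hBD
  have hl : |Real.log A - Real.log B| ≤ Real.log Y := by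
    rw [abs_le, ← Real.log_div hA.ne' hB.ne']
    refine ⟨?_, Real.log_le_log (by positivity) (div_le_div_of_nonneg_right hAD hB.le)⟩
    rw [neg_le, ← Real.log_inv, inv_div]
    refine Real.log_le_log (by positivity) ?_
    rw [div_le_div_iff₀ hA hB]
    linarith
  have hlY : Real.log Y ≤ Y := by linarith [Real.log_le_sub_one_of_pos (show 0 < Y by linarith)]
  rw [← sq_abs]
  refine (pow_le_pow_left₀ (abs_nonneg _) (hl.trans hlY) 2).trans ?_
  simp only [Y]
  rw [div_pow, div_le_div_iff₀ (by positivity) hB]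
  nlinarith [mul_le_mul_of_nonneg_left hDC hB.le]

lemma Ls_leave_one (hN : 1 < N) (hP : 0 < (gauss (Fin N)).real (shell N)) {s : ℝ} {c : Fin M → ℝ}
    (hc : ∀ m, |s * c m| ≤ 1 / 3) (k : Fin M) :
    ∫ g, (Ls (N := N) s c g - Ls s (Function.update c k 0) g) * (Ls s c g - Ls s (Function.update c k 0) g)
      ∂pats (Fin N) M ≤ 2 := by
  set c' := Function.update c k 0
  have hd := good_sub (good_Ls (M := M) hP s c) (good_Ls hP s c')
  have hdd := good_mul hd hd
  have h := mp_update (ι := Fin N) (M := M) k
  conv_lhs => rw [← h.map_eq, integral_map h.measurable.aemeasurable hdd.1.aestronglyMeasurable]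
  have hint := (h.integrable_comp hdd.1.aestronglyMeasurable).2 (integrable_pats hdd)
  simp only [Function.comp_def] at hint
  rw [integral_prod _ hint]
  refine (integral_mono hint.integral_prod_left (integrable_const (2:ℝ)) fun g => ?_).trans (le_of_eq (by simp))
  set W := fun y : Fin N → ℝ => (shell N).indicator
    (fun y => Real.exp (∑ m, s * c' m / 2 * ((∑ i, g m i * Sv y i) ^ 2 / N))) y
  set u := fun (x y : Fin N → ℝ) => s * c k / 2 * ((∑ i, x i * Sv y i) ^ 2 / N)
  have hW : ∀ y, 0 ≤ W y := fun y => Set.indicator_nonneg (fun _ _ => (Real.exp_pos _).le) _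
  have hWi : Integrable W (gauss (Fin N)) := integrable_expo s c' fun q => g q.1 q.2
  have hu : ∀ x y, |u x y| ≤ |s * c k / 2| * ∑ i, x i ^ 2 := fun x y => by
    simp only [u]
    rw [abs_mul, abs_of_nonneg (a := (∑ i, x i * Sv y i) ^ 2 / (N:ℝ)) (div_nonneg (sq_nonneg _) (Nat.cast_nonneg N))]
    exact mul_le_mul_of_nonneg_left (form_le (M := 1) y (fun q => x q.2) 0) (abs_nonneg _)
  have hSm := measurable_Sv (N := N)
  have hfu : ∀ x (φ : ℝ → ℝ), Continuous φ → Integrable (fun y => W y * φ (u x y)) (gauss (Fin N)) := fun x φ hφ => by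
    obtain ⟨C, hC⟩ := (isCompact_Icc (a := -(|s * c k / 2| * ∑ i, x i ^ 2))
      (b := |s * c k / 2| * ∑ i, x i ^ 2)).exists_bound_of_continuousOn hφ.continuousOn
    refine hWi.mul_bdd (c := C) (hφ.measurable.comp (by simp only [u]; fun_prop)).aestronglyMeasurable
      (.of_forall fun y => hC _ (abs_le.1 (hu x y)))
  have hup : ∀ x, Ls s c' (Function.update g k x) = Real.log (∫ y, W y ∂gauss (Fin N)) := fun x => by
    refine congrArg Real.log (integral_congr_ae (.of_forall fun y => ?_))
    simp only [W, Set.indicator]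
    split
    · congr 1
      refine Finset.sum_congr rfl fun m _ => ?_
      by_cases hm : m = k
      · subst hm; simp [c']
      · simp only [Function.update_of_ne hm]
    · rfl
  have hfull : ∀ x, Ls s c (Function.update g k x) = Real.log (∫ y, W y * Real.exp (u x y) ∂gauss (Fin N)) := fun x => by
    refine congrArg Real.log (integral_congr_ae (.of_forall fun y => ?_))
    simp only [W, Set.indicator]
    split
    · rw [← Real.exp_add]
      congr 1
      rw [← Finset.add_sum_erase _ _ (Finset.mem_univ k),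
        ← Finset.add_sum_erase Finset.univ (fun m => s * c' m / 2 * ((∑ i, g m i * Sv y i) ^ 2 / N)) (Finset.mem_univ k)]
      simp only [Function.update_self, c', u, mul_zero, zero_div, zero_mul, zero_add]
      rw [add_comm]
      congr 1
      refine Finset.sum_congr rfl fun m hm => ?_
      simp only [Function.update_of_ne (Finset.ne_of_mem_erase hm)]
    · simp
  have hB : 0 < ∫ y, W y ∂gauss (Fin N) := Zs_pos hP s c' fun q => g q.1 q.2
  have hpt : ∀ x, (Ls s c (Function.update g k x) - Ls s c' (Function.update g k x)) *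
      (Ls s c (Function.update g k x) - Ls s c' (Function.update g k x)) ≤
      (∫ y, W y * Real.exp (2 * |u x y|) ∂gauss (Fin N)) / ∫ y, W y ∂gauss (Fin N) := fun x => by
    rw [hfull, hup, ← sq]
    refine log_change _ hW hWi (hfu x Real.exp Real.continuous_exp) (hfu x (fun t => Real.exp |t|) (by fun_prop))
      (hfu x (fun t => Real.exp (2 * |t|)) (by fun_prop)) hB ?_
    refine lt_of_lt_of_le (mul_pos hB (Real.exp_pos (-(|s * c k / 2| * ∑ i, x i ^ 2)))) ?_
    rw [← integral_mul_const]
    exact integral_mono (hWi.mul_const _) (hfu x Real.exp Real.continuous_exp) fun y =>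
      mul_le_mul_of_nonneg_left (Real.exp_le_exp.2 (abs_le.1 (hu x y)).1) (hW y)
  set F := fun p : (Fin N → ℝ) × (Fin N → ℝ) => W p.2 * Real.exp (2 * |u p.1 p.2|)
  have hFm : Measurable F := by
    have hWm : Measurable W := by
      have h1 := (measurable_expo (M := M) (N := N) s c').comp
        (measurable_const.prodMk measurable_id : Measurable fun y => ((fun q : Fin M × Fin N => g q.1 q.2), y))
      simpa only [Function.comp_def] using h1
    refine (hWm.comp measurable_snd).fun_mul ?_
    simp only [u]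
    fun_prop
  set b := (√(1 - 2 * |s * c k|))⁻¹
  have hb0 : 0 ≤ b := by positivity
  have hb : b ≤ 2 := by
    have := hc k
    simp only [b]
    rw [inv_le_comm₀ (Real.sqrt_pos.2 (by linarith)) (by norm_num), Real.le_sqrt (by norm_num) (by linarith)]
    linarith
  have hcol : ∀ y, Integrable (fun x => F (x, y)) (gauss (Fin N)) ∧ ∫ x, F (x, y) ∂gauss (Fin N) ≤ 2 * W y := fun y => by
    by_cases hy : y ∈ shell N
    · set v := fun i => Sv y i / √(N:ℝ)
      have hv : ∑ i, v i ^ 2 = 1 := unit_Sv (shell_ne_zero hN hy)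
      have e : ∀ x, F (x, y) = W y * Real.exp (|s * c k| * (∑ i, v i * x i) ^ 2) := fun x => by
        simp only [F, u, v]
        rw [form_eq (M := 1) y (fun q => x q.2) 0, abs_mul, abs_div, abs_two,
          abs_of_nonneg (sq_nonneg (∑ i, Sv y i / √(N:ℝ) * x i))]
        congr 2
        ring
      simp only [e]
      obtain ⟨i1, e1⟩ := integral_exp_line hv (θ := |s * c k|) (by linarith [hc k])
      refine ⟨i1.const_mul _, ?_⟩
      rw [integral_const_mul, e1]
      exact (mul_le_mul_of_nonneg_left hb (hW y)).trans_eq (mul_comm _ _)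
    · have e : ∀ x, F (x, y) = 0 := fun x => by simp [F, W, Set.indicator_of_notMem hy]
      simp only [e]
      exact ⟨integrable_zero _ _ _, by simp only [integral_zero]; linarith [hW y]⟩
  have hF : Integrable F ((gauss (Fin N)).prod (gauss (Fin N))) := by
    refine (integrable_prod_iff' hFm.aestronglyMeasurable).2 ⟨.of_forall fun y => (hcol y).1, ?_⟩
    refine Integrable.mono' (hWi.const_mul 2) (hFm.norm.stronglyMeasurable.integral_prod_left').aestronglyMeasurable
      (.of_forall fun y => ?_)
    rw [Real.norm_eq_abs, abs_of_nonneg (integral_nonneg fun _ => norm_nonneg _)]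
    refine le_trans (le_of_eq ?_) (hcol y).2
    exact integral_congr_ae (.of_forall fun x => (Real.norm_eq_abs _).trans
      (abs_of_nonneg (mul_nonneg (hW y) (Real.exp_pos _).le)))
  refine (integral_mono_of_nonneg (.of_forall fun x => mul_self_nonneg _)
    (hF.integral_prod_left.div_const _) (.of_forall hpt)).trans ?_
  rw [integral_div, div_le_iff₀ hB, integral_integral_swap (f := fun x y => F (x, y)) hF, ← integral_const_mul]
  exact integral_mono hF.integral_prod_right (hWi.const_mul 2) fun y => (hcol y).2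

theorem var_Ls (hN : 1 < N) (hP : 0 < (gauss (Fin N)).real (shell N)) {s : ℝ} {c : Fin M → ℝ}
    (hc : ∀ m, |s * c m| ≤ 1 / 3) :
    ∫ g, (Ls (N := N) s c g - ∫ g, Ls (N := N) s c g ∂pats (Fin N) M) ^ 2 ∂pats (Fin N) M ≤ M * 2 := by
  have hF := good_Ls (M := M) hP s c
  have h := efron M (Ls (N := N) s c) (fun k => Ls s (Function.update c k 0)) 2 hF (fun k => good_Ls hP _ _)
    (fun k g y => by
      simp only [Ls, Zs]
      congr 2
      funext z
      simp only [Set.indicator]
      split
      · congr 1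
        refine Finset.sum_congr rfl fun m _ => ?_
        by_cases hm : m = k
        · subst hm; simp
        · simp only [Function.update_of_ne hm]
      · rfl) fun k => Ls_leave_one hN hP hc k
  set m := ∫ g, Ls (N := N) s c g ∂pats (Fin N) M
  have i1 := integrable_pats (good_mul hF hF)
  have i2 : Integrable (fun g => 2 * m * Ls (N := N) s c g) (pats (Fin N) M) := (integrable_pats hF).const_mul _
  have i3 : Integrable (fun g => Ls (N := N) s c g * Ls s c g - 2 * m * Ls s c g) (pats (Fin N) M) := i1.sub i2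
  refine le_trans (le_of_eq ?_) h
  rw [show (fun g => (Ls (N := N) s c g - m) ^ 2) = fun g => Ls (N := N) s c g * Ls s c g -
      2 * m * Ls s c g + m ^ 2 by funext g; ring,
    integral_add i3 (integrable_const _), integral_sub i1 i2, integral_const_mul, integral_const]
  simp only [probReal_univ, one_smul, m]
  ring

variable {a α : Fin r → ℝ}

lemma log_ann (hα : ∀ j, 0 < α j) {s : ℝ} (hs : ∀ j, s * a j < 1) (N : ℕ) :
    |Real.log (ann s (cs a α N)) - N * Js a α s| ≤ ∑ j, |Real.log (1 - s * a j)| := by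
  have hpos : ∀ m, 0 < 1 - s * cs a α N m := fun m => sub_pos.2 (hs _)
  rw [ann, Real.log_prod fun m _ => (inv_pos.2 (Real.sqrt_pos.2 (hpos m))).ne']
  have e : ∀ m, Real.log (√(1 - s * cs a α N m))⁻¹ = -(1 / 2) * Real.log (1 - s * cs a α N m) := fun m => by
    rw [Real.log_inv, Real.log_sqrt (hpos m).le]; ring
  rw [Finset.sum_congr rfl fun m _ => e m]
  simp only [cs]
  rw [← Finset.sum_fiberwise Finset.univ (can (Ks α N)), Js, Finset.mul_sum, Finset.mul_sum, ← Finset.sum_sub_distrib]
  refine (Finset.abs_sum_le_sum_abs _ _).trans (Finset.sum_le_sum fun j _ => ?_)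
  rw [Finset.sum_congr rfl (g := fun _ => -(1 / 2) * Real.log (1 - s * a j)) fun m hm => by
      rw [(Finset.mem_filter.1 hm).2], Finset.sum_const, nsmul_eq_mul,
    show ((Finset.univ.filter fun i => can (Ks α N) i = j).card : ℝ) = Ks α N j by exact_mod_cast cnt_can _ j,
    show (Ks α N j : ℝ) * (-(1 / 2) * Real.log (1 - s * a j)) - N * (-(1 / 2) * (α j * Real.log (1 - s * a j))) =
      ((Ks α N j : ℝ) - α j * N) * (-(1 / 2) * Real.log (1 - s * a j)) by ring, abs_mul, abs_mul]
  refine (mul_le_mul_of_nonneg_right ?_ (by positivity)).trans (le_of_eq (one_mul _)) |>.trans ?_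
  · have h1 := Nat.floor_le (show 0 ≤ α j * (N:ℝ) by have := hα j; positivity)
    have h2 := Nat.lt_floor_add_one (α j * (N:ℝ))
    rw [abs_le]
    simp only [Ks]
    constructor <;> linarith
  · norm_num
    linarith [abs_nonneg (Real.log (1 - s * a j))]

lemma eventually_small {C δ : ℝ} (hδ : 0 < δ) : ∀ᶠ N : ℕ in atTop, C ≤ δ * N :=
  (tendsto_natCast_atTop_atTop.const_mul_atTop hδ).eventually (eventually_ge_atTop C)

/-- no large deviations above the annealed value -/
theorem upper_tendsto (hα : ∀ j, 0 < α j) {s : ℝ} (hs : ∀ j, s * a j < 1) {δ : ℝ} (hδ : 0 < δ) :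
    Tendsto (fun N : ℕ => (gauss (Fin (∑ j, Ks α N j) × Fin N)).real
      {g | Real.exp (N * (Js a α s + δ)) ≤ Zs s (cs a α N) g}) atTop (𝓝 0) := by
  set C := ∑ j, |Real.log (1 - s * a j)|
  have hz : Tendsto (fun N : ℕ => Real.exp (C - δ * N)) atTop (𝓝 0) := by
    refine Real.tendsto_exp_atBot.comp ?_
    refine tendsto_atBot.2 fun b => (eventually_small (C := C - b) hδ).mono fun N hN => by linarith
  refine squeeze_zero' (.of_forall fun N => measureReal_nonneg) ?_ hz
  filter_upwards [eventually_gt_atTop 1] with N hN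
  obtain ⟨hi, he⟩ := mean_Zs (M := ∑ j, Ks α N j) hN (s := s) (c := cs a α N) fun m => hs _
  have hann := ann_pos (s := s) (c := cs a α N) fun m => hs _
  have h := mul_meas_ge_le_integral_of_nonneg
    (μ := gauss (Fin (∑ j, Ks α N j) × Fin N)) (f := Zs (N := N) s (cs a α N)) (.of_forall fun g =>
      integral_nonneg fun _ => Set.indicator_nonneg (fun _ _ => (Real.exp_pos _).le) _) hi
    (Real.exp (N * (Js a α s + δ)))
  rw [he] at h
  have h1 : (gauss (Fin N)).real (shell N) * ann s (cs a α N) ≤ Real.exp (N * Js a α s + C) := by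
    refine (mul_le_of_le_one_left hann.le measureReal_le_one).trans ?_
    rw [← Real.log_le_iff_le_exp hann]
    linarith [(abs_le.1 (log_ann hα hs N)).2]
  refine le_of_mul_le_mul_left ((h.trans h1).trans (le_of_eq ?_)) (Real.exp_pos (N * (Js a α s + δ)))
  rw [← Real.exp_add]
  congr 1
  ring

/-- for small parameters the spherical pressure concentrates at the annealed value -/
theorem small_tendsto (hα : ∀ j, 0 < α j) {s : ℝ} (hs : ∀ j, |s * a j| ≤ 1 / 3)
    (hs2 : s ^ 2 * ∑ j, α j * a j ^ 2 ≤ 4 / 100) {δ : ℝ} (hδ : 0 < δ) :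
    Tendsto (fun N : ℕ => (gauss (Fin (∑ j, Ks α N j) × Fin N)).real
      {g | δ ≤ |Real.log (Zs s (cs a α N) g) / N - Js a α s|}) atTop (𝓝 0) := by
  have hs1 : ∀ j, s * a j < 1 := fun j => by linarith [(abs_le.1 (hs j)).2]
  set C := ∑ j, |Real.log (1 - s * a j)|
  set V := 2 * ∑ j, α j
  have hz : Tendsto (fun N : ℕ => 8 * V / δ ^ 2 / N) atTop (𝓝 0) := tendsto_const_div_atTop_nhds_zero_nat _
  have hup := upper_tendsto (a := a) hα hs1 hδ
  have hsum : Tendsto (fun N : ℕ => (gauss (Fin (∑ j, Ks α N j) × Fin N)).real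
      {g | Real.exp (N * (Js a α s + δ)) ≤ Zs s (cs a α N) g} + 8 * V / δ ^ 2 / N) atTop (𝓝 0) := by
    simpa using hup.add hz
  refine squeeze_zero' (.of_forall fun N => measureReal_nonneg) ?_ hsum
  filter_upwards [eventually_gt_atTop 1, shell_half, eventually_small (C := C + 2) (show 0 < δ / 8 by linarith),
    hz.eventually (eventually_lt_nhds (show (0:ℝ) < 1 / 100 by norm_num))] with N hN hP hCN hvar'
  set M := ∑ j, Ks α N j
  set c := cs a α N
  have hN0 : (0:ℝ) < N := by exact_mod_cast (show 0 < N by omega)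
  have hc : ∀ m, |s * c m| ≤ 1 / 3 := fun m => hs _
  have hP0 : 0 < (gauss (Fin N)).real (shell N) := by linarith
  obtain ⟨hi, he⟩ := mean_Zs (M := M) hN (s := s) (c := c) fun m => hs1 _
  have hκ : 9 / 4 * (∑ m, (s * c m) ^ 2) ≤ 9 / 100 * N := by
    have e : ∑ m, (s * c m) ^ 2 = ∑ j, (Ks α N j : ℝ) * (s * a j) ^ 2 := by
      simp only [c, cs]
      rw [← Finset.sum_fiberwise Finset.univ (can (Ks α N))]
      refine Finset.sum_congr rfl fun j _ => ?_
      rw [Finset.sum_congr rfl (g := fun _ => (s * a j) ^ 2) fun m hm => by rw [(Finset.mem_filter.1 hm).2],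
        Finset.sum_const, nsmul_eq_mul]
      congr 2
      exact cnt_can _ j
    rw [e]
    have h1 : ∑ j, (Ks α N j : ℝ) * (s * a j) ^ 2 ≤ (s ^ 2 * ∑ j, α j * a j ^ 2) * N := by
      rw [Finset.mul_sum, Finset.sum_mul]
      refine Finset.sum_le_sum fun j _ => ?_
      refine (mul_le_mul_of_nonneg_right (Nat.floor_le (by have := hα j; positivity)) (sq_nonneg _)).trans (le_of_eq ?_)
      ring
    nlinarith [mul_le_mul_of_nonneg_right hs2 hN0.le]
  obtain ⟨hi2, he2⟩ := second_Zs (M := M) hN hc hκ
  have hann := ann_pos (s := s) (c := c) fun m => hs1 _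
  have hh := mp_uncurry (Fin N) M
  set m := ∫ g, Ls (N := N) s c g ∂pats (Fin N) M
  set T : ℝ → Set (Fin M × Fin N → ℝ) := fun e => {g | e ≤ |Real.log (Zs s c g) - m|}
  have hcheb : ∀ e : ℝ, 0 < e → (gauss (Fin M × Fin N)).real (T e) ≤ V * N / e ^ 2 := fun e he' => by
    have hTm : MeasurableSet (T e) :=
      measurableSet_le measurable_const ((Real.measurable_log.comp (measurable_Zs s c)).sub_const m).abs
    rw [← hh.map_eq, map_measureReal_apply hh.measurable hTm, le_div_iff₀ (by positivity), mul_comm]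
    have hd : Good fun g : Fin M → Fin N → ℝ => Ls (N := N) s c g - m :=
      good_sub (good_Ls hP0 s c) ⟨measurable_const, Poly.const m⟩
    have hsqi : Integrable (fun g => (Ls (N := N) s c g - m) ^ 2) (pats (Fin N) M) :=
      integrable_pats (by simpa [sq] using good_mul hd hd)
    refine le_trans ?_ ((mul_meas_ge_le_integral_of_nonneg (.of_forall fun g => sq_nonneg _) hsqi (e ^ 2)).trans
      ((var_Ls hN hP0 hc).trans ?_))
    · refine mul_le_mul_of_nonneg_left (measureReal_mono fun g hg => ?_) (sq_nonneg _)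
      show e ^ 2 ≤ (Ls s c g - m) ^ 2
      rw [← sq_abs (Ls s c g - m)]
      exact pow_le_pow_left₀ he'.le hg 2
    · simp only [V, M]
      push_cast
      rw [Finset.sum_mul, Finset.mul_sum, Finset.sum_mul]
      exact Finset.sum_le_sum fun j _ => by
        have h9 : (Ks α N j : ℝ) ≤ α j * N := Nat.floor_le (by have := hα j; positivity)
        linarith
  set E := ∫ g, Zs s c g ∂gauss (Fin M × Fin N)
  have hE : 0 < E := by simp only [E, he]; positivity
  set A := {g : Fin M × Fin N → ℝ | E / 2 ≤ Zs s c g}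
  have hAm : MeasurableSet A := measurableSet_le measurable_const (measurable_Zs s c)
  have hPA : 1 / 48 ≤ (gauss (Fin M × Fin N)).real A := by
    set S := ∫ g, Zs s c g ^ 2 ∂gauss (Fin M × Fin N)
    have hS2 : S ≤ 12 * E ^ 2 := by
      refine he2.trans ?_
      simp only [E, he, mul_pow]
      nlinarith [mul_le_mul_of_nonneg_right (pow_le_pow_left₀ (by norm_num) hP 2) (sq_nonneg (ann s c))]
    set t := 1 / (24 * E)
    have ht : 0 < t := by positivity
    have hI : E ≤ E / 2 + (t / 2 * S + 1 / (2 * t) * (gauss (Fin M × Fin N)).real A) := by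
      calc E ≤ ∫ g, (E / 2 + (t / 2 * Zs s c g ^ 2 + A.indicator (fun _ => 1 / (2 * t)) g))
            ∂gauss (Fin M × Fin N) := by
            refine integral_mono hi ((integrable_const _).add ((hi2.const_mul _).add
              ((integrable_const _).indicator hAm))) fun g => ?_
            by_cases hg : g ∈ A
            · rw [Set.indicator_of_mem hg]
              have : Zs s c g ≤ t / 2 * Zs s c g ^ 2 + 1 / (2 * t) := by
                rw [show t / 2 * Zs s c g ^ 2 + 1 / (2 * t) = ((t * Zs s c g) ^ 2 + 1) / (2 * t) by field_simp,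
                  le_div_iff₀ (by positivity)]
                nlinarith [sq_nonneg (t * Zs s c g - 1)]
              linarith
            · rw [Set.indicator_of_notMem hg]
              have h1 : Zs s c g < E / 2 := not_le.1 hg
              nlinarith [sq_nonneg (Zs s c g), ht]
        _ = _ := by
            rw [integral_add (integrable_const _) ((hi2.const_mul _).fun_add ((integrable_const _).indicator hAm)),
              integral_add (hi2.const_mul _) ((integrable_const _).indicator hAm), integral_const_mul,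
              integral_indicator_const _ hAm]
            simp [S, mul_comm]
    have h3 : t / 2 * S ≤ E / 4 := by
      refine (mul_le_mul_of_nonneg_left hS2 (by positivity)).trans (le_of_eq ?_)
      simp only [t]; field_simp; ring
    have h4 : 1 / (2 * t) = 12 * E := by simp only [t]; field_simp; ring
    rw [h4] at hI
    nlinarith
  have hlogE : (N:ℝ) * Js a α s - C - 1 ≤ Real.log (E / 2) + 1 := by
    simp only [E, he]
    rw [Real.log_div (by positivity) two_ne_zero, Real.log_mul hP0.ne' hann.ne']
    have hlP : Real.log (1 / 2) ≤ Real.log ((gauss (Fin N)).real (shell N)) := Real.log_le_log (by norm_num) hP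
    rw [one_div, Real.log_inv] at hlP
    linarith [(abs_le.1 (log_ann hα hs1 N)).1, Real.log_two_lt_d9]
  have hmlow : (N:ℝ) * Js a α s - δ / 2 * N ≤ m := by
    by_contra hlt
    push Not at hlt
    have hsub : A ⊆ T (δ / 4 * N) := fun g hg => by
      show δ / 4 * N ≤ |Real.log (Zs s c g) - m|
      have h1 := Real.log_le_log (by positivity) (show E / 2 ≤ Zs s c g from hg)
      refine le_trans ?_ (le_abs_self _)
      linarith [mul_pos hδ hN0]
    have h2 := (hPA.trans (measureReal_mono hsub)).trans (hcheb _ (by positivity))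
    rw [show V * N / (δ / 4 * N) ^ 2 = 2 * (8 * V / δ ^ 2 / N) by field_simp; ring] at h2
    linarith
  refine (measureReal_mono (μ := gauss (Fin M × Fin N)) (s₂ :=
    {g | Real.exp (N * (Js a α s + δ)) ≤ Zs s c g} ∪ T (δ / 2 * N)) fun g hg => ?_).trans
    ((measureReal_union_le _ _).trans (add_le_add le_rfl ((hcheb _ (by positivity)).trans ?_)))
  · have hg' : δ ≤ |Real.log (Zs s c g) / N - Js a α s| := hg
    rcases le_abs.1 hg' with h | h
    · left
      show Real.exp (N * (Js a α s + δ)) ≤ Zs s c g
      rw [← Real.le_log_iff_exp_le (Zs_pos hP0 s c g), mul_comm]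
      exact (le_div_iff₀ hN0).1 (by linarith)
    · right
      show δ / 2 * N ≤ |Real.log (Zs s c g) - m|
      have h1 : Real.log (Zs s c g) ≤ (Js a α s - δ) * N := (div_le_iff₀ hN0).1 (by linarith)
      rw [abs_sub_comm]
      refine le_trans ?_ (le_abs_self _)
      nlinarith
  · have hV : 0 ≤ V := mul_nonneg zero_le_two (Finset.sum_nonneg fun j _ => (hα j).le)
    rw [show V * N / (δ / 2 * N) ^ 2 = 1 / 2 * (8 * V / δ ^ 2 / N) by field_simp; ring]
    exact mul_le_of_le_one_left (by positivity) (by norm_num)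

end Vale.Agent.P166.Pattern.Signed
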