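import Vale.Agent.P166.Pattern.Multi.Kernel

/-!
The free Lévy-Khintchine kernel of a measure of jumps of either sign: analyticity, the edge of the law and
uniqueness of the transform.
-/

open MeasureTheory Filter
open scoped Topology ENNReal

noncomputable section

namespace Vale.Agent.P166.Pattern.Signed
open Multi (Rk dom edgeR cauchy Law gco geom_hasFPS Rk_eq cauchy_series integrable_cauchy cauchy_bounds
  law_bounds cauchy_pos cauchy_anti cauchy_deriv)

/-- a finite measure carried by a bounded interval `[-A, A]` -/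
structure Carried (ρ : Measure ℝ) (A : ℝ) : Prop where
  finite : IsFiniteMeasure ρ
  nonneg : 0 ≤ A
  mem : ∀ᵐ x ∂ρ, x ∈ Set.Icc (-A) A

lemma Carried.support_subset {ρ : Measure ℝ} {A : ℝ} (h : Carried ρ A) : ρ.support ⊆ Set.Icc (-A) A :=
  Measure.support_subset_of_isClosed isClosed_Icc h.mem

lemma Carried.top_le {ρ : Measure ℝ} {A : ℝ} (h : Carried ρ A) : sSup ρ.support ≤ A :=
  Real.sSup_le (fun _ hx => (h.support_subset hx).2) h.nonneg

lemma Carried.ae_top {ρ : Measure ℝ} {A : ℝ} (h : Carried ρ A) :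
    ∀ᵐ x ∂ρ, x ∈ Set.Icc (-A) (sSup ρ.support) := by
  filter_upwards [Measure.support_mem_ae (μ := ρ)] with x hx
  exact ⟨(h.support_subset hx).1, le_csSup (bddAbove_Icc.mono h.support_subset) hx⟩

lemma Carried.den_pos {ρ : Measure ℝ} {A : ℝ} (h : Carried ρ A) {y : ℝ} (hy : y ∈ dom ρ) :
    ∀ᵐ x ∂ρ, |x| ≤ A ∧ 1 - y * sSup ρ.support ≤ 1 - x * y :=
  h.ae_top.mono fun x hx => ⟨abs_le.2 ⟨hx.1, hx.2.trans h.top_le⟩,
    by nlinarith [mul_le_mul_of_nonneg_left hx.2 hy.1.le]⟩

/-- the kernel integral around an interior point -/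
lemma inner_series {ρ : Measure ℝ} {A : ℝ} (h : Carried ρ A) {y0 : ℝ} (hy : y0 ∈ dom ρ) :
    HasFPowerSeriesAt (fun y => ∫ x, 1 / (1 - x * y) ∂ρ)
      (FormalMultilinearSeries.ofScalars ℝ (gco ρ (fun x => 1 / (1 - x * y0)) fun x => x / (1 - x * y0))) y0 := by
  have := h.finite
  set A0 := sSup ρ.support
  have hd : 0 < 1 - y0 * A0 := sub_pos.2 hy.2
  have hb : ∀ᵐ x ∂ρ, |1 / (1 - x * y0)| ≤ 1 / (1 - y0 * A0) ∧ |x / (1 - x * y0)| ≤ (A + 1) / (1 - y0 * A0) := by
    filter_upwards [h.den_pos hy] with x hx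
    have h0 : 0 < 1 - x * y0 := hd.trans_le hx.2
    rw [abs_of_pos (one_div_pos.2 h0), abs_div, abs_of_pos h0]
    exact ⟨one_div_le_one_div_of_le hd hx.2,
      div_le_div₀ (by linarith [h.nonneg]) (by linarith [hx.1]) hd hx.2⟩
  have hs := geom_hasFPS (ρ := ρ) (c := fun x => 1 / (1 - x * y0)) (q := fun x => x / (1 - x * y0))
    (by fun_prop) (by fun_prop) (div_pos (by linarith [h.nonneg]) hd) hb
  obtain ⟨R, hR⟩ := hs
  have := hR.comp_sub y0
  rw [zero_add] at this
  refine (HasFPowerSeriesOnBall.hasFPowerSeriesAt this).congr (.of_forall fun y => ?_)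
  refine integral_congr_ae (h.den_pos hy |>.mono fun x hx => ?_)
  have h0 : 0 < 1 - x * y0 := hd.trans_le hx.2
  have e : 1 - x * y = (1 - x * y0) * (1 - x / (1 - x * y0) * (y - y0)) := by
    field_simp
    ring
  show 1 / (1 - x * y0) / (1 - x / (1 - x * y0) * (y - y0)) = 1 / (1 - x * y)
  rw [e, div_div]

lemma analytic_Rk {ρ : Measure ℝ} {A : ℝ} (h : Carried ρ A) (γ : ℝ) {y0 : ℝ} (hy : y0 ∈ dom ρ) :
    AnalyticAt ℝ (Rk γ ρ) y0 := by
  rw [show Rk γ ρ = fun y => γ + y * ∫ x, 1 / (1 - x * y) ∂ρ from funext (Rk_eq γ)]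
  exact analyticAt_const.add (analyticAt_id.mul (inner_series h hy).analyticAt)

/-- no analytic function continues the kernel across `1 / sup supp ρ` -/
theorem no_continuation {ρ : Measure ℝ} {A : ℝ} (h : Carried ρ A) (γ : ℝ) (hA0 : 0 < sSup ρ.support) {f : ℝ → ℝ}
    (hf : AnalyticAt ℝ f (1 / sSup ρ.support)) (hag : ∀ᶠ y in 𝓝[<] (1 / sSup ρ.support), f y = Rk γ ρ y) :
    False := by
  have := h.finite
  set A0 := sSup ρ.support
  set y1 := 1 / A0
  have hy1 : 0 < y1 := by positivity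
  set K := fun y => (f y - γ) / y
  have hK : AnalyticAt ℝ K y1 := (hf.sub analyticAt_const).div analyticAt_id hy1.ne'
  obtain ⟨p, R, hp⟩ := hK
  obtain ⟨δ, hδ0, hδR⟩ := ENNReal.lt_iff_exists_nnreal_btwn.1 hp.r_pos
  have hδ : (0:ℝ) < δ := by exact_mod_cast hδ0
  obtain ⟨l, hl, hsub⟩ := mem_nhdsLT_iff_exists_Ioo_subset.1 hag
  obtain ⟨y0, h0l, h01⟩ := exists_between (show max (max l 0) (y1 - (δ:ℝ) / 3) < y1 from
    max_lt (max_lt hl hy1) (by linarith))
  simp only [max_lt_iff] at h0l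
  obtain ⟨⟨hl0, hy0⟩, hd3⟩ := h0l
  have hdom : y0 ∈ dom ρ := ⟨hy0, by
    have := mul_lt_mul_of_pos_right h01 hA0
    simp only [y1] at this
    rw [div_mul_cancel₀ _ hA0.ne'] at this
    exact this⟩
  have hk := inner_series h hdom
  set b := gco ρ (fun x => 1 / (1 - x * y0)) fun x => x / (1 - x * y0)
  have hagree : ∀ᶠ y in 𝓝 y0, K y = ∫ x, 1 / (1 - x * y) ∂ρ := by
    filter_upwards [Ioo_mem_nhds hl0 h01, eventually_gt_nhds hy0] with y hy hy'
    have := hsub hy
    show (f y - γ) / y = _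
    rw [show f y = Rk γ ρ y from this, Rk_eq]
    field_simp
    ring
  have hlt : ‖y0 - y1‖ₑ < (δ : ℝ≥0∞) := by
    rw [← ofReal_norm, ← ENNReal.ofReal_coe_nnreal, ENNReal.ofReal_lt_ofReal_iff hδ,
      Real.norm_eq_abs, abs_of_neg (sub_neg.2 h01)]
    linarith
  have hp0 := (hp.mono (by exact_mod_cast hδ0) hδR.le).changeOrigin (y := y0 - y1) hlt
  rw [add_sub_cancel] at hp0
  have hEq := (hp0.hasFPowerSeriesAt.congr hagree).eq_formalMultilinearSeries hk
  set r : NNReal := δ / 2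
  have hr : (r : ℝ) = δ / 2 := by simp [r]
  have hrad : (r : ℝ≥0∞) < (p.changeOrigin (y0 - y1)).radius := by
    refine lt_of_lt_of_le ?_ hp0.r_le
    rw [lt_tsub_iff_right, ← ENNReal.ofReal_coe_nnreal, ← ENNReal.ofReal_coe_nnreal (p := δ), ← enorm_eq_nnnorm, ← ofReal_norm,
      ← ENNReal.ofReal_add r.coe_nonneg (norm_nonneg _), ENNReal.ofReal_lt_ofReal_iff hδ, hr,
      Real.norm_eq_abs, abs_of_neg (sub_neg.2 h01)]
    linarith
  obtain ⟨C, -, hC⟩ := (p.changeOrigin (y0 - y1)).norm_mul_pow_le_of_lt_radius hrad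
  rw [hEq] at hC
  -- a point of the support below the top whose ratio exceeds one
  set φ := fun x : ℝ => x / (1 - x * y0) * r
  have hd1 : 0 < 1 - A0 * y0 := by rw [mul_comm]; exact sub_pos.2 hdom.2
  have hφA : 1 < φ A0 := by
    simp only [φ, hr]
    rw [div_mul_eq_mul_div, lt_div_iff₀ hd1, one_mul]
    have h5 : A0 * y1 = 1 := by simp only [y1]; field_simp
    nlinarith [mul_lt_mul_of_pos_left hd3 hA0]
  have hφc : ContinuousAt φ A0 := by
    have h1 : ContinuousAt (fun x : ℝ => x / (1 - x * y0)) A0 := continuousAt_id.div (by fun_prop) hd1.ne'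
    exact h1.mul continuousAt_const
  obtain ⟨x0, hx0, hx0'⟩ : ∃ x0, (x0 < A0 ∧ 0 < x0) ∧ 1 < φ x0 := by
    obtain ⟨x, ⟨hx1, hx2⟩, hx3⟩ := (((hφc.eventually_const_lt hφA).filter_mono
      (nhdsWithin_le_nhds (s := Set.Iio A0))).and (eventually_gt_nhds hA0 |>.filter_mono nhdsWithin_le_nhds) |>.and
      (self_mem_nhdsWithin : ∀ᶠ x in 𝓝[<] A0, x < A0)).exists
    exact ⟨x, ⟨hx3, hx2⟩, hx1⟩
  have hne : ρ.support.Nonempty := by
    by_contra hc
    rw [Set.not_nonempty_iff_eq_empty] at hc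
    simp [A0, hc] at hA0
  have hmem : A0 ∈ ρ.support :=
    (Measure.isClosed_support).csSup_mem hne (bddAbove_Icc.mono h.support_subset)
  have hpos : 0 < ρ.real (Set.Ioi x0) :=
    ENNReal.toReal_pos ((Measure.mem_support_iff_forall _).1 hmem _ (Ioi_mem_nhds hx0.1)).ne' (measure_ne_top _ _)
  have hlow : ∀ j : ℕ, ρ.real (Set.Ioi x0) * φ x0 ^ (2 * j) ≤ C := fun j => by
    obtain ⟨k, hk⟩ : ∃ k, k = 2 * j := ⟨_, rfl⟩
    have hev : ∀ u : ℝ, 0 ≤ u ^ k := fun u => by rw [hk, pow_mul]; positivity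
    rw [← hk]
    have hb := hC k
    rw [FormalMultilinearSeries.ofScalars_norm, Real.norm_eq_abs] at hb
    refine le_trans ?_ ((mul_le_mul_of_nonneg_right (le_abs_self (b k)) (pow_nonneg r.coe_nonneg k)).trans hb)
    simp only [b, gco, ← integral_mul_const]
    have hint : Integrable (fun x => 1 / (1 - x * y0) * (x / (1 - x * y0)) ^ k * (r:ℝ) ^ k) ρ := by
      refine Integrable.of_bound (Measurable.aestronglyMeasurable (by fun_prop))
        (1 / (1 - y0 * A0) * (A / (1 - y0 * A0)) ^ k * (r:ℝ) ^ k) ?_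
      filter_upwards [h.den_pos hdom] with x hx
      have hd : 0 < 1 - y0 * A0 := sub_pos.2 hdom.2
      have h0 : 0 < 1 - x * y0 := hd.trans_le hx.2
      rw [Real.norm_eq_abs, abs_mul, abs_mul, abs_pow, abs_pow, abs_div x, abs_of_pos h0,
        abs_of_nonneg r.coe_nonneg, abs_of_pos (one_div_pos.2 h0)]
      refine mul_le_mul_of_nonneg_right (mul_le_mul (one_div_le_one_div_of_le hd hx.2)
        (pow_le_pow_left₀ (div_nonneg (abs_nonneg x) h0.le) (div_le_div₀ h.nonneg hx.1 hd hx.2) k)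
        (pow_nonneg (div_nonneg (abs_nonneg x) h0.le) k) (by positivity)) (by positivity)
    calc ρ.real (Set.Ioi x0) * φ x0 ^ k = ∫ x, (Set.Ioi x0).indicator (fun _ => φ x0 ^ k) x ∂ρ := by
          rw [integral_indicator_const _ measurableSet_Ioi, smul_eq_mul]
      _ ≤ _ := by
          refine integral_mono_ae ((integrable_const _).indicator measurableSet_Ioi) hint ?_
          filter_upwards [h.den_pos hdom, h.ae_top] with x hx hx'
          have hd : 0 < 1 - y0 * A0 := sub_pos.2 hdom.2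
          have h0 : 0 < 1 - x * y0 := hd.trans_le hx.2
          by_cases hxs : x ∈ Set.Ioi x0
          · rw [Set.indicator_of_mem hxs]
            have hxs' : x0 < x := hxs
            have hx0x : 0 ≤ x := hx0.2.le.trans hxs'.le
            have h2 : x0 / (1 - x0 * y0) ≤ x / (1 - x * y0) :=
              div_le_div₀ hx0x hxs'.le h0 (by nlinarith)
            have h4 : 0 < 1 - x0 * y0 := by nlinarith
            have h3 : 1 ≤ 1 / (1 - x * y0) := (one_le_div h0).2 (by nlinarith [mul_nonneg hx0x hy0.le])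
            simp only [φ, mul_pow]
            refine mul_le_mul_of_nonneg_right ?_ (by positivity)
            calc (x0 / (1 - x0 * y0)) ^ k ≤ (x / (1 - x * y0)) ^ k :=
                  pow_le_pow_left₀ (div_nonneg hx0.2.le h4.le) h2 k
              _ ≤ 1 / (1 - x * y0) * (x / (1 - x * y0)) ^ k := le_mul_of_one_le_left (hev _) h3
          · rw [Set.indicator_of_notMem hxs]
            exact mul_nonneg (mul_nonneg (one_div_pos.2 h0).le (hev _)) (pow_nonneg r.coe_nonneg k)
  obtain ⟨k, hk⟩ := ((tendsto_pow_atTop_atTop_of_one_lt hx0').eventually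
    (eventually_gt_atTop (C / ρ.real (Set.Ioi x0)))).exists
  rw [div_lt_iff₀ hpos] at hk
  nlinarith [hlow k, mul_le_mul_of_nonneg_left (pow_le_pow_right₀ hx0'.le (show k ≤ 2 * k by omega)) hpos.le]

/-- the top of the support is at least the edge of the kernel -/
theorem edge_le_top {ρ : Measure ℝ} {A : ℝ} (hρ : Carried ρ A) (γ : ℝ) {μ : Measure ℝ} {L s : ℝ} (hμ : Law μ L s)
    (heq : ∀ᶠ w in atTop, cauchy μ w * sSup ρ.support < 1 ∧ w = 1 / cauchy μ w + Rk γ ρ (cauchy μ w))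
    (hbdd : BddBelow ((fun y => 1 / y + Rk γ ρ y) '' dom ρ)) :
    edgeR γ ρ ≤ s := by
  by_contra hlt
  push Not at hlt
  set G := cauchy μ
  set A0 := sSup ρ.support
  set J := {w | s < w ∧ G w * A0 < 1}
  have hGc : ∀ w, s < w → ContinuousAt G w := fun w hw => (cauchy_series hμ hw).analyticAt.continuousAt
  have hJconn : IsPreconnected J := by
    refine Set.OrdConnected.isPreconnected ⟨fun u hu v _ w hw => ?_⟩
    refine ⟨hu.1.trans_le hw.1, ?_⟩
    rcases le_total 0 A0 with hA0 | hA0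
    · exact (mul_le_mul_of_nonneg_right (cauchy_anti hμ hu.1 hw.1) hA0).trans_lt hu.2
    · exact (mul_nonpos_of_nonneg_of_nonpos (cauchy_pos hμ (hu.1.trans_le hw.1)).le hA0).trans_lt one_pos
  have hid : ∀ w ∈ J, w = 1 / G w + Rk γ ρ (G w) := by
    set φ := fun w => 1 / G w + Rk γ ρ (G w) - w
    have han : AnalyticOnNhd ℝ φ J := fun w hw => by
      have hG := (cauchy_series hμ hw.1).analyticAt
      have hR := (analytic_Rk hρ γ (y0 := G w) ⟨cauchy_pos hμ hw.1, hw.2⟩).comp hG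
      exact ((analyticAt_const.div hG (cauchy_pos hμ hw.1).ne').add hR).sub analyticAt_id
    obtain ⟨W, hW⟩ := eventually_atTop.1 heq
    set W' := max W s + 1
    have hW'J : W' ∈ J := ⟨by have := le_max_right W s; linarith, (hW W' (by have := le_max_left W s; linarith)).1⟩
    have hz : φ =ᶠ[𝓝 W'] 0 := by
      filter_upwards [eventually_gt_nhds (show max W s < W' by linarith)] with w hw
      have := (hW w ((le_max_left W s).trans hw.le)).2
      simp only [Pi.zero_apply, φ, G]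
      linarith
    intro w hw
    have := han.eqOn_zero_of_preconnected_of_eventuallyEq_zero hJconn hW'J hz hw
    simp only [Pi.zero_apply, φ] at this
    linarith
  by_cases hall : ∀ w, s < w → G w * A0 < 1
  · obtain ⟨w, hw1, hw2⟩ := exists_between hlt
    have h1 : edgeR γ ρ ≤ 1 / G w + Rk γ ρ (G w) :=
      csInf_le hbdd ⟨G w, ⟨cauchy_pos hμ hw1, hall w hw1⟩, rfl⟩
    rw [← hid w ⟨hw1, hall w hw1⟩] at h1
    linarith
  push Not at hall
  obtain ⟨w1, hw1, hG1⟩ := hall
  have hA0' : 0 < A0 := by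
    by_contra h
    linarith [mul_nonpos_of_nonneg_of_nonpos (cauchy_pos hμ hw1).le (not_lt.1 h)]
  obtain ⟨W, hW⟩ := eventually_atTop.1 heq
  set W2 := max W w1 + 1
  have hW2 : G W2 * A0 < 1 := (hW W2 (by have := le_max_left W w1; linarith)).1
  have hle : w1 ≤ W2 := by have := le_max_right W w1; linarith
  obtain ⟨w0, hw0, hG0⟩ : ∃ w0 ∈ Set.Icc w1 W2, G w0 = 1 / A0 := by
    refine intermediate_value_Icc' hle (fun v hv => (hGc v (hw1.trans_le hv.1)).continuousWithinAt) ⟨?_, ?_⟩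
    · rw [le_div_iff₀ hA0']; exact hW2.le
    · rw [div_le_iff₀ hA0']; exact hG1
  have hs0 : s < w0 := hw1.trans_le hw0.1
  have hGan := (cauchy_series hμ hs0).analyticAt
  have hd := cauchy_deriv hμ hs0
  set ℓ := hGan.hasStrictDerivAt.localInverse G (deriv G w0) w0 hd
  have hℓ : AnalyticAt ℝ ℓ (G w0) := hGan.analyticAt_localInverse hd
  rw [hG0] at hℓ
  have hℓ0 : ℓ (G w0) = w0 := HasStrictFDerivAt.localInverse_apply_image ..
  refine no_continuation hρ γ hA0' (f := fun y => ℓ y - 1 / y)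
    (hℓ.sub (analyticAt_const.div analyticAt_id (by positivity : (0:ℝ) < 1 / A0).ne')) ?_
  have hright : ∀ᶠ y in 𝓝 (1 / A0), G (ℓ y) = y := by
    rw [← hG0]
    exact HasStrictDerivAt.eventually_right_inverse hGan.hasStrictDerivAt hd
  have hnear : ∀ᶠ y in 𝓝 (1 / A0), s < ℓ y := by
    have h1 : ℓ (1 / A0) = w0 := by rw [← hG0]; exact hℓ0
    exact hℓ.continuousAt.eventually_const_lt (by rw [h1]; exact hs0)
  filter_upwards [hright.filter_mono nhdsWithin_le_nhds, hnear.filter_mono nhdsWithin_le_nhds,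
    self_mem_nhdsWithin] with y hy hy2 hy3
  have hyA : y * A0 < 1 := (lt_div_iff₀ hA0').1 hy3
  have := hid (ℓ y) ⟨hy2, by rw [hy]; exact hyA⟩
  rw [hy] at this
  linarith

/-- the equation near infinity determines the transform near infinity -/
theorem cauchy_unique {ρ : Measure ℝ} {A : ℝ} (hρ : Carried ρ A) (γ : ℝ) {μ μ' : Measure ℝ} {L s : ℝ}
    (h : Law μ L s) (h' : Law μ' L s)
    (heq : ∀ᶠ w in atTop, w = 1 / cauchy μ w + Rk γ ρ (cauchy μ w))
    (heq' : ∀ᶠ w in atTop, w = 1 / cauchy μ' w + Rk γ ρ (cauchy μ' w)) :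
    ∀ᶠ w in atTop, cauchy μ w = cauchy μ' w := by
  have := hρ.finite
  set A0 := sSup ρ.support
  have hA : 0 ≤ A := hρ.nonneg
  set m := ρ.real Set.univ
  have hm : 0 ≤ m := measureReal_nonneg
  set η := 1 / (2 * (A + 1) + 8 * m + 1)
  have hη : 0 < η := by positivity
  have hηd : (2 * (A + 1) + 8 * m + 1) * η = 1 := by simp only [η]; field_simp
  filter_upwards [heq, heq', eventually_gt_atTop (s + 1 / η)] with w hw hw' hwη
  have hws : s < w := by have : 0 < 1 / η := by positivity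
                         linarith
  have hsm : ∀ {ν : Measure ℝ}, Law ν L s → 0 < cauchy ν w ∧ cauchy ν w ≤ η := fun {ν} hν => by
    refine ⟨cauchy_pos hν hws, (cauchy_bounds hν hws).2.trans ?_⟩
    rw [div_le_iff₀ (sub_pos.2 hws)]
    have h2 : 1 / η < w - s := by linarith
    rw [div_lt_iff₀ hη] at h2
    linarith
  obtain ⟨hy, hyη⟩ := hsm h
  obtain ⟨hy', hy'η⟩ := hsm h'
  set y := cauchy μ w
  set y' := cauchy μ' w
  have hη1 : η * (2 * (A + 1)) ≤ 1 := by nlinarith
  have hdom : ∀ z, 0 < z → z ≤ η → z ∈ dom ρ := fun z hz hzη => ⟨hz, by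
    nlinarith [mul_le_mul_of_nonneg_left hρ.top_le hz.le, mul_le_mul_of_nonneg_right hzη hA]⟩
  have hR : |Rk γ ρ y - Rk γ ρ y'| ≤ 4 * m * |y - y'| := by
    have hi : ∀ z, z ∈ dom ρ → Integrable (fun x => z / (1 - x * z)) ρ := fun z hz =>
      Integrable.of_bound (Measurable.aestronglyMeasurable (by fun_prop)) (z / (1 - z * A0))
        ((hρ.den_pos hz).mono fun x hx => by
          have hd : 0 < 1 - z * A0 := sub_pos.2 hz.2
          rw [Real.norm_eq_abs, abs_of_nonneg (div_nonneg hz.1.le (hd.le.trans hx.2))]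
          exact div_le_div_of_nonneg_left hz.1.le hd hx.2)
    rw [Rk, Rk, add_sub_add_left_eq_sub, ← integral_sub (hi y (hdom y hy hyη)) (hi y' (hdom y' hy' hy'η)),
      ← Real.norm_eq_abs]
    refine (norm_integral_le_of_norm_le_const (C := 4 * |y - y'|) ?_).trans_eq (by simp only [m]; ring)
    filter_upwards [hρ.mem] with x hx
    have h1 : 1 / 2 ≤ 1 - x * y := by nlinarith [mul_le_mul hx.2 hyη hy.le hA]
    have h2 : 1 / 2 ≤ 1 - x * y' := by nlinarith [mul_le_mul hx.2 hy'η hy'.le hA]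
    rw [Real.norm_eq_abs, show y / (1 - x * y) - y' / (1 - x * y') = (y - y') / ((1 - x * y) * (1 - x * y')) by
      rw [div_sub_div _ _ (show (1 - x * y) ≠ 0 by linarith) (show (1 - x * y') ≠ 0 by linarith)]; ring,
      abs_div, abs_of_pos (show 0 < (1 - x * y) * (1 - x * y') by nlinarith),
      div_le_iff₀ (by nlinarith)]
    nlinarith [abs_nonneg (y - y'), mul_le_mul h1 h2 (by norm_num) (by linarith)]
  have e : Rk γ ρ y - Rk γ ρ y' = (y - y') / (y * y') := by
    rw [show (y - y') / (y * y') = 1 / y' - 1 / y by field_simp]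
    linarith
  rw [e, abs_div, abs_of_pos (mul_pos hy hy'), div_le_iff₀ (mul_pos hy hy')] at hR
  have h1 : y * y' ≤ η * η := mul_le_mul hyη hy'η hy'.le hη.le
  have h2 : 4 * m * (η * η) < 1 := by nlinarith
  by_contra hne
  have h3 : 0 < |y - y'| := abs_pos.2 (sub_ne_zero.2 hne)
  nlinarith [mul_le_mul_of_nonneg_left h1 (mul_nonneg (mul_nonneg (by norm_num : (0:ℝ) ≤ 4) hm) (abs_nonneg (y - y')))]

end Vale.Agent.P166.Pattern.Signed
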