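import Vale.Agent.P166.Pattern.Signed.Mix
import Vale.Agent.P166.Pattern.Multi.Limit

/-!
Convergence of the normalised mean log partition function with patterns of strengths of either sign.
-/

open MeasureTheory ProbabilityTheory Filter
open scoped Topology

noncomputable section

namespace Vale.Agent.P166.Pattern.Signed
open Multi (can cnt_can cnt2 moments2 Ks err)

variable {r : ℕ}

theorem blocks_bound {b : Fin r → ℝ} (hb : ∀ j, |b j| ≤ 1 / 10) {α : Fin r → ℝ} (hα : ∀ j, 0 < α j)
    {m q e : ℕ} (hm : 0 < m) (he : 0 < e) :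
    (q : ℝ) * (fC b m (Ks α m) - err α m) - cb (1 / 10) * (∑ j, α j) * e ≤
      fC b (q * m + e) (Ks α (q * m + e)) := by
  classical
  set n : Option (Fin q) → ℕ := fun c => c.elim e fun _ => m
  have hn : ∀ c, 0 < n c := fun c => by cases c <;> assumption
  have hsum : ∑ c, n c = q * m + e := by simp [n, Fintype.sum_option, add_comm]
  set t := can (Ks α (q * m + e))
  have h := superadd hb n hn t
  rw [hsum] at h
  refine le_trans ?_ h
  set N : ℝ := ((q * m + e : ℕ) : ℝ) with hNdef
  have hN0 : (0:ℝ) < N := by rw [hNdef]; exact_mod_cast Nat.add_pos_right _ he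
  set lam : Option (Fin q) → ℝ := fun c => (n c : ℝ) / N
  have hl : ∑ c, lam c = 1 := by
    rw [← Finset.sum_div, ← Nat.cast_sum, hsum, ← hNdef, div_self hN0.ne']
  have hlp : ∀ c, 0 ≤ lam c := fun c => by positivity
  have hl0 : ∀ s : Fin (∑ j, Ks α (q * m + e) j) → Option (Fin q), 0 ≤ ∏ k, lam (s k) := fun s =>
    Finset.prod_nonneg fun k _ => hlp _
  have hc := cb_nonneg (b := 1 / 10) (by norm_num) (by norm_num)
  have m0 : ∑ s : Fin (∑ j, Ks α (q * m + e) j) → Option (Fin q), ∏ k, lam (s k) = 1 :=
    (moments2 lam hlp hl none (Finset.univ : Finset (Fin (∑ j, Ks α (q * m + e) j)))).1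
  set T : Fin r → Finset (Fin (∑ j, Ks α (q * m + e) j)) := fun j => Finset.univ.filter fun k => t k = j
  have hT : ∀ j, ((T j).card : ℝ) = Ks α (q * m + e) j := fun j => by
    exact_mod_cast cnt_can (Ks α (q * m + e)) j
  have hcnt : ∀ (s : Fin (∑ j, Ks α (q * m + e) j) → Option (Fin q)) c j, cnt2 t s c j = ((T j).filter fun k => s k = c).card := fun s c j => by
    simp only [cnt2, T, Finset.filter_filter, and_comm]
  -- the remainder block
  have rest : -(cb (1 / 10) * (∑ j, α j) * e) ≤ ∑ s : Fin (∑ j, Ks α (q * m + e) j) → Option (Fin q),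
      (∏ k, lam (s k)) * fC b e (cnt2 t s none) := by
    refine le_trans ?_ (Finset.sum_le_sum fun s _ =>
      mul_le_mul_of_nonneg_left (abs_le.1 (fC_le hb he (cnt2 t s none))).1 (hl0 s))
    push_cast
    simp only [hcnt, mul_neg, Finset.sum_neg_distrib, neg_le_neg_iff]
    simp only [Finset.sum_mul, Finset.mul_sum]
    rw [Finset.sum_comm]
    refine Finset.sum_le_sum fun j _ => ?_
    obtain ⟨-, m1, -⟩ := moments2 lam hlp hl none (T j)
    simp only [mul_sub, Finset.sum_sub_distrib, ← Finset.sum_mul, m0, one_mul, sub_eq_zero] at m1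
    simp only [← mul_assoc, ← Finset.sum_mul, m1]
    have h1 : lam none * (T j).card ≤ α j * e := by
      rw [hT, show lam none = (e:ℝ) / N from rfl, div_mul_eq_mul_div, div_le_iff₀ hN0]
      have : (Ks α (q * m + e) j : ℝ) ≤ α j * N := Nat.floor_le (by have := hα j; positivity)
      nlinarith [mul_le_mul_of_nonneg_left this (Nat.cast_nonneg (α := ℝ) e)]
    nlinarith [mul_le_mul_of_nonneg_left h1 hc]
  have main : (q : ℝ) * (fC b m (Ks α m) - err α m) ≤ ∑ s : Fin (∑ j, Ks α (q * m + e) j) → Option (Fin q),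
      (∏ k, lam (s k)) * ∑ c : Fin q, fC b m (cnt2 t s (some c)) := by
    calc (q:ℝ) * (fC b m (Ks α m) - err α m)
        = ∑ _c : Fin q, (fC b m (Ks α m) - err α m) := by
          rw [Finset.sum_const, Finset.card_univ, Fintype.card_fin, nsmul_eq_mul]
      _ ≤ ∑ c : Fin q, ∑ s : Fin (∑ j, Ks α (q * m + e) j) → Option (Fin q),
            (∏ k, lam (s k)) * fC b m (cnt2 t s (some c)) := by
          refine Finset.sum_le_sum fun c _ => ?_
          set S : Fin r → ℝ := fun j => √(α j * m)
          have hS : ∀ j, 0 < S j := fun j => Real.sqrt_pos.2 (by have := hα j; positivity)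
          set mu : Fin r → ℝ := fun j => lam (some c) * (T j).card
          have hla : lam (some c) = (m:ℝ) / N := rfl
          have hmu : ∀ j, |mu j - Ks α m j| ≤ 2 ∧ mu j ≤ α j * m := fun j => by
            have h1 : (Ks α (q * m + e) j : ℝ) ≤ α j * N := Nat.floor_le (by have := hα j; positivity)
            have h2 : α j * N < Ks α (q * m + e) j + 1 := Nat.lt_floor_add_one _
            have h3 : (Ks α m j : ℝ) ≤ α j * m := Nat.floor_le (by have := hα j; positivity)
            have h4 : α j * m < Ks α m j + 1 := Nat.lt_floor_add_one _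
            have h5 : mu j ≤ α j * m := by
              simp only [mu, hla, hT]; rw [div_mul_eq_mul_div, div_le_iff₀ hN0]
              nlinarith [mul_le_mul_of_nonneg_left h1 (Nat.cast_nonneg (α := ℝ) m)]
            have hmN : (m:ℝ) ≤ N := by
              rw [hNdef]; push_cast
              have : (1:ℝ) ≤ q := by exact_mod_cast Fin.pos c
              nlinarith [(Nat.cast_nonneg e : (0:ℝ) ≤ e)]
            have h6 : α j * m - 1 ≤ mu j := by
              simp only [mu, hla, hT]
              rw [div_mul_eq_mul_div, le_div_iff₀ hN0]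
              nlinarith [mul_le_mul_of_nonneg_left h2.le (Nat.cast_nonneg (α := ℝ) m)]
            exact ⟨abs_le.2 ⟨by linarith, by linarith⟩, h5⟩
          set D : (Fin (∑ j, Ks α (q * m + e) j) → Option (Fin q)) → ℝ := fun s =>
            ∑ j, ((((((T j).filter fun k => s k = some c).card : ℕ) : ℝ) - mu j) ^ 2 / (2 * S j) + S j / 2 + 2)
          have hpt : ∀ s, fC b m (Ks α m) - cb (1 / 10) * D s ≤ fC b m (cnt2 t s (some c)) := by
            intro s
            refine le_trans ?_ (fC_lip hb hm (Ks α m) _)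
            refine sub_le_sub_left (mul_le_mul_of_nonneg_left (Finset.sum_le_sum fun j _ => ?_) hc) _
            rw [hcnt]
            set K : ℝ := ((((T j).filter fun k => s k = some c).card : ℕ) : ℝ)
            have h3 : |K - mu j| ≤ (K - mu j) ^ 2 / (2 * S j) + S j / 2 := by
              have := hS j
              rw [div_add_div _ _ (by positivity) two_ne_zero, le_div_iff₀ (by positivity)]
              nlinarith [sq_nonneg (|K - mu j| - S j), sq_abs (K - mu j)]
            have := abs_sub_le K (mu j) (Ks α m j)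
            linarith [(hmu j).1]
          refine le_trans ?_ (Finset.sum_le_sum fun s _ => mul_le_mul_of_nonneg_left (hpt s) (hl0 s))
          simp only [mul_sub, Finset.sum_sub_distrib, ← Finset.sum_mul, m0, one_mul]
          refine sub_le_sub_left ?_ _
          have key : ∀ j, ∑ s : Fin (∑ j, Ks α (q * m + e) j) → Option (Fin q), (∏ k, lam (s k)) *
              ((((((T j).filter fun k => s k = some c).card : ℕ) : ℝ) - mu j) ^ 2 / (2 * S j) + S j / 2 + 2) ≤
              √(α j * m) + 2 := by
            intro j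
            obtain ⟨-, -, m2⟩ := moments2 lam hlp hl (some c) (T j)
            have h7 : lam (some c) * (T j).card ≤ S j * S j :=
              (hmu j).2.trans (Real.mul_self_sqrt (by have := hα j; positivity)).ge
            have := hS j
            simp only [mul_add, Finset.sum_add_distrib, ← Finset.sum_mul, m0, one_mul, ← mul_div_assoc,
              ← Finset.sum_div]
            have h8 : (∑ s : Fin (∑ j, Ks α (q * m + e) j) → Option (Fin q), (∏ k, lam (s k)) *
                (((((T j).filter fun k => s k = some c).card : ℕ) : ℝ) - mu j) ^ 2) / (2 * S j) ≤ S j / 2 := by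
              rw [div_le_iff₀ (by positivity)]
              exact (m2.trans h7).trans (le_of_eq (by ring))
            linarith
          calc ∑ s : Fin (∑ j, Ks α (q * m + e) j) → Option (Fin q), (∏ k, lam (s k)) * (cb (1 / 10) * D s)
              = cb (1 / 10) * ∑ j, ∑ s : Fin (∑ j, Ks α (q * m + e) j) → Option (Fin q), (∏ k, lam (s k)) *
                ((((((T j).filter fun k => s k = some c).card : ℕ) : ℝ) - mu j) ^ 2 / (2 * S j) + S j / 2 + 2) := by
                simp only [D, Finset.mul_sum]
                rw [Finset.sum_comm]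
                exact Finset.sum_congr rfl fun j _ => Finset.sum_congr rfl fun s _ => by ring
            _ ≤ err α m := mul_le_mul_of_nonneg_left (Finset.sum_le_sum fun j _ => key j) hc
      _ = _ := by rw [Finset.sum_comm]; simp only [Finset.mul_sum]
  simp only [Fintype.sum_option, mul_add, Finset.sum_add_distrib]
  show _ ≤ (∑ s : Fin (∑ j, Ks α (q * m + e) j) → Option (Fin q), (∏ k, lam (s k)) * fC b e (cnt2 t s none)) +
    ∑ s : Fin (∑ j, Ks α (q * m + e) j) → Option (Fin q), (∏ k, lam (s k)) * ∑ c : Fin q, fC b m (cnt2 t s (some c))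
  linarith

/-- the normalised mean log partition function converges -/
theorem exists_limit {b : Fin r → ℝ} (hb : ∀ j, |b j| ≤ 1 / 10) {α : Fin r → ℝ} (hα : ∀ j, 0 < α j) :
    ∃ p : ℝ, Tendsto (fun N : ℕ => fC b N (Ks α N) / N) atTop (𝓝 p) := by
  have hc := cb_nonneg (b := 1 / 10) (by norm_num) (by norm_num)
  set C := cb (1 / 10) * ∑ j, α j with hC
  set u := fun N : ℕ => fC b N (Ks α N) / N
  set e := fun N : ℕ => err α N / N
  set T := fun N : ℕ => u N - e N
  have he : Tendsto e atTop (𝓝 0) := by
    have h1 : Tendsto (fun N : ℕ => (√(N:ℝ))⁻¹) atTop (𝓝 0) :=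
      tendsto_inv_atTop_zero.comp (Real.tendsto_sqrt_atTop.comp tendsto_natCast_atTop_atTop)
    have h2 : Tendsto (fun N : ℕ => (2:ℝ) / N) atTop (𝓝 0) := tendsto_const_div_atTop_nhds_zero_nat 2
    have h3 : Tendsto (fun N : ℕ => cb (1 / 10) * ∑ j, (√(α j) * (√(N:ℝ))⁻¹ + 2 / N)) atTop (𝓝 0) := by
      have := (tendsto_finsetSum (Finset.univ : Finset (Fin r)) fun j _ => ((h1.const_mul √(α j)).add h2)).const_mul
        (cb (1 / 10))
      simpa using this
    refine h3.congr' ?_
    filter_upwards [eventually_gt_atTop 0] with N hN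
    have hs : (√(N:ℝ)) ≠ 0 := (Real.sqrt_pos.2 (by exact_mod_cast hN)).ne'
    simp only [e, err, mul_div_assoc, Finset.sum_div]
    congr 1
    refine Finset.sum_congr rfl fun j _ => ?_
    rw [Real.sqrt_mul (hα j).le, add_div]
    congr 1
    rw [mul_div_assoc]
    congr 1
    rw [eq_div_iff (by exact_mod_cast hN.ne'), inv_mul_eq_div, div_eq_iff hs,
      Real.mul_self_sqrt (Nat.cast_nonneg N)]
  have he0 : ∀ N, 0 ≤ e N := fun N =>
    div_nonneg (mul_nonneg hc (Finset.sum_nonneg fun j _ => by positivity)) (Nat.cast_nonneg N)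
  have hTle : ∀ N, 0 < N → T N ≤ C := fun N hN => by
    have h1 := (abs_le.1 (fC_le hb hN (Ks α N))).2
    have h2 : ((∑ j, Ks α N j : ℕ) : ℝ) ≤ (∑ j, α j) * N := by
      push_cast; rw [Finset.sum_mul]
      exact Finset.sum_le_sum fun j _ => Nat.floor_le (by have := hα j; positivity)
    have hN' : (0:ℝ) < N := by exact_mod_cast hN
    have h3 : u N ≤ C := by
      simp only [u]; rw [div_le_iff₀ hN']; nlinarith [mul_le_mul_of_nonneg_right h2 hc]
    have := he0 N
    simp only [T]; linarith
  have hbdd : BddAbove (Set.range fun m : ℕ => T (m + 1)) :=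
    ⟨C, by rintro _ ⟨m, rfl⟩; exact hTle _ m.succ_pos⟩
  set p := sSup (Set.range fun m : ℕ => T (m + 1))
  have low : ∀ m, 0 < m → ∀ N, m < N → T m - (|T m| + C) * m / N ≤ u N := by
    intro m hm N hN
    obtain ⟨s, q, hs, hsm, rfl⟩ : ∃ s q, 0 < s ∧ s ≤ m ∧ N = q * m + s :=
      ⟨(N - 1) % m + 1, (N - 1) / m, by omega, Nat.mod_lt _ hm,
        by have := Nat.div_add_mod' (N - 1) m; omega⟩
    have h := blocks_bound hb hα (q := q) hm hs
    set NN : ℝ := ((q * m + s : ℕ) : ℝ) with hNN
    have hN0 : (0:ℝ) < NN := by rw [hNN]; exact_mod_cast Nat.add_pos_right _ hs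
    have hm0 : (0:ℝ) < m := by exact_mod_cast hm
    have e1 : (q:ℝ) * (fC b m (Ks α m) - err α m) = q * m * T m := by
      simp only [T, u, e]; field_simp
    rw [e1, ← hC] at h
    show T m - (|T m| + C) * m / NN ≤ fC b (q * m + s) (Ks α (q * m + s)) / NN
    rw [sub_le_iff_le_add, ← add_div, le_div_iff₀ hN0]
    have hsm' : (s:ℝ) ≤ m := by exact_mod_cast hsm
    have hC0 : 0 ≤ C := mul_nonneg hc (Finset.sum_nonneg fun j _ => (hα j).le)
    have e2 : NN = q * m + s := by rw [hNN]; push_cast; ring
    rw [e2]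
    nlinarith [mul_le_mul_of_nonneg_left hsm' hC0, mul_le_mul_of_nonneg_left hsm' (abs_nonneg (T m)),
      mul_le_mul_of_nonneg_right (le_abs_self (T m)) (Nat.cast_nonneg (α := ℝ) s)]
  refine ⟨p, Metric.tendsto_atTop.2 fun ε hε => ?_⟩
  obtain ⟨_, ⟨m, rfl⟩, hm⟩ := exists_lt_of_lt_csSup (Set.range_nonempty _)
    (show p - ε / 2 < p by linarith)
  have hd : Tendsto (fun N : ℕ => (|T (m + 1)| + C) * (m + 1 : ℕ) / N) atTop (𝓝 0) :=
    tendsto_const_div_atTop_nhds_zero_nat _
  obtain ⟨N0, hN0⟩ := eventually_atTop.1 ((he.eventually (eventually_lt_nhds hε)).and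
    (hd.eventually (eventually_lt_nhds (half_pos hε))))
  refine ⟨max N0 (m + 2), fun N hN => ?_⟩
  obtain ⟨h1, h2⟩ := hN0 N (le_of_max_le_left hN)
  have hN1 : m + 1 < N := by have := le_of_max_le_right hN; omega
  have upper : T N ≤ p := le_csSup hbdd ⟨N - 1, by simp only; congr; omega⟩
  rw [Real.dist_eq, abs_lt]
  constructor
  · have := low (m + 1) m.succ_pos N hN1
    linarith
  · simp only [T] at upper; linarith

end Vale.Agent.P166.Pattern.Signed
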