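import Vale.Agent.P166.Pattern.Signed.Quad
import Vale.Agent.P166.Pattern.Multi.Mix

/-!
Patterns of several strengths of either sign: splitting of sites, block decomposition and Lipschitz
dependence on the numbers of patterns of each strength.
-/

open MeasureTheory ProbabilityTheory Filter
open scoped Topology

noncomputable section

namespace Vale.Agent.P166.Pattern.Signed
open Multi (can cnt_can cnt2 cnt_cons)

/-- a signed exponential tilt is dominated by the positive one -/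
lemma abs_log_le {S : Type*} [Fintype S] [Nonempty S] {p : S → ℝ} (hp : ∀ σ, 0 < p σ) (u t : S → ℝ)
    (h : ∀ σ, |u σ| ≤ t σ) :
    |Real.log (∑ σ, p σ * Real.exp (u σ)) - Real.log (∑ σ, p σ)| ≤
      Real.log (∑ σ, p σ * Real.exp (t σ)) - Real.log (∑ σ, p σ) ∧
    Real.log (∑ σ, p σ * Real.exp (t σ)) - Real.log (∑ σ, p σ) ≤ ∑ σ, t σ := by
  have hW : 0 < ∑ σ, p σ := Finset.sum_pos (fun σ _ => hp σ) Finset.univ_nonempty
  have hpos : ∀ f : S → ℝ, 0 < ∑ σ, p σ * Real.exp (f σ) := fun f =>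
    Finset.sum_pos (fun σ _ => mul_pos (hp σ) (Real.exp_pos _)) Finset.univ_nonempty
  have hle : ∀ f : S → ℝ, (∀ σ, f σ ≤ t σ) → ∑ σ, p σ * Real.exp (f σ) ≤ ∑ σ, p σ * Real.exp (t σ) :=
    fun f hf => Finset.sum_le_sum fun σ _ => mul_le_mul_of_nonneg_left (Real.exp_le_exp.2 (hf σ)) (hp σ).le
  have cs : (∑ σ, p σ) * (∑ σ, p σ) ≤ (∑ σ, p σ * Real.exp (u σ)) * ∑ σ, p σ * Real.exp (t σ) := by
    refine le_trans ?_ (mul_le_mul_of_nonneg_left (hle (fun σ => -u σ) fun σ => (neg_le_abs _).trans (h σ))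
      (hpos u).le)
    rw [← sq]
    refine Finset.sum_sq_le_sum_mul_sum_of_sq_le_mul _ (fun σ _ => (mul_pos (hp σ) (Real.exp_pos _)).le)
      (fun σ _ => (mul_pos (hp σ) (Real.exp_pos _)).le) fun σ _ => le_of_eq ?_
    rw [mul_mul_mul_comm, ← Real.exp_add]; simp [sq]
  have l1 := Real.log_le_log (mul_pos hW hW) cs
  rw [Real.log_mul hW.ne' hW.ne', Real.log_mul (hpos u).ne' (hpos t).ne'] at l1
  have l2 := Real.log_le_log (hpos u) (hle u fun σ => (le_abs_self _).trans (h σ))
  refine ⟨abs_le.2 ⟨by linarith, by linarith⟩, ?_⟩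
  rw [sub_le_iff_le_add', Real.log_le_iff_le_exp (hpos t), Real.exp_add, Real.exp_log hW, Finset.sum_mul]
  exact Finset.sum_le_sum fun σ _ => mul_le_mul_of_nonneg_left (Real.exp_le_exp.2
    (Finset.single_le_sum (fun τ _ => (abs_nonneg _).trans (h τ)) (Finset.mem_univ σ))) (hp σ).le

variable {ι : Type*} [Fintype ι] [DecidableEq ι]

/-- energy of a configuration, pattern `k` having strength `b k` -/
def sen {M : ℕ} (b : Fin M → ℝ) (v g : Fin M → ι → ℝ) (σ : ι → Bool) : ℝ :=
  ∑ k, b k / 2 * X (v k) (g k) σ ^ 2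

/-- log partition function -/
def sLw {M : ℕ} (b : Fin M → ℝ) (w : (ι → Bool) → ℝ) (v g : Fin M → ι → ℝ) : ℝ :=
  Real.log (∑ σ, w σ * Real.exp (sen b v g σ))

/-- mean log partition function -/
def sFw {M : ℕ} (b : Fin M → ℝ) (w : (ι → Bool) → ℝ) (v : Fin M → ι → ℝ) : ℝ :=
  ∫ g, sLw b w v g ∂pats ι M

omit [DecidableEq ι] in
lemma continuous_sen {M : ℕ} (b : Fin M → ℝ) (v : Fin M → ι → ℝ) (σ : ι → Bool) :
    Continuous fun g => sen b v g σ := by
  unfold sen X lin; fun_prop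

lemma continuous_sLw {M : ℕ} (b : Fin M → ℝ) {w : (ι → Bool) → ℝ} (hw : ∀ σ, 0 < w σ)
    (v : Fin M → ι → ℝ) : Continuous (sLw b w v) := by
  have := continuous_sen b v
  exact Continuous.log (by fun_prop) fun g => (sum_w_pos hw _).ne'

lemma sLw_bounds {M : ℕ} (b : Fin M → ℝ) {w : (ι → Bool) → ℝ} (hw : ∀ σ, 0 < w σ) (v g : Fin M → ι → ℝ) :
    |sLw b w v g - Real.log (∑ σ, w σ)| ≤ ∑ σ, |sen b v g σ| := by
  obtain ⟨h1, h2⟩ := abs_log_le hw (fun σ => sen b v g σ) (fun σ => |sen b v g σ|) fun σ => le_rfl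
  exact h1.trans h2

lemma integrable_sen {M : ℕ} (b : Fin M → ℝ) (v : Fin M → ι → ℝ) (σ : ι → Bool) :
    Integrable (fun g => sen b v g σ) (pats ι M) :=
  integrable_finsetSum _ fun k _ =>
    ((measurePreserving_eval (fun _ : Fin M => gauss ι) k).integrable_comp
      ((continuous_X (v k) σ).pow 2).aestronglyMeasurable).2 (integrable_sq_X (v k) σ) |>.const_mul (b k / 2)

lemma integrable_sLw {M : ℕ} (b : Fin M → ℝ) {w : (ι → Bool) → ℝ} (hw : ∀ σ, 0 < w σ)
    (v : Fin M → ι → ℝ) : Integrable (sLw b w v) (pats ι M) := by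
  refine Integrable.mono' ((integrable_const |Real.log (∑ σ, w σ)|).add
    (integrable_finsetSum Finset.univ fun σ _ => (integrable_sen b v σ).abs))
    (continuous_sLw b hw v).aestronglyMeasurable (.of_forall fun g => ?_)
  have := abs_le.1 (sLw_bounds b hw v g)
  rw [Real.norm_eq_abs, abs_le]
  simp only [Pi.add_apply]
  constructor <;> linarith [neg_abs_le (Real.log (∑ σ, w σ)), le_abs_self (Real.log (∑ σ, w σ))]

omit [DecidableEq ι] in
lemma sen_cons {M : ℕ} (b0 : ℝ) (b : Fin M → ℝ) (v0 : ι → ℝ) (v : Fin M → ι → ℝ) (g0 : ι → ℝ)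
    (g : Fin M → ι → ℝ) (σ : ι → Bool) :
    sen (Fin.cons b0 b) (Fin.cons v0 v) (Fin.cons g0 g) σ = b0 / 2 * X v0 g0 σ ^ 2 + sen b v g σ := by
  simp only [sen, Fin.sum_univ_succ, Fin.cons_zero, Fin.cons_succ]

lemma sLw_cons {M : ℕ} (b0 : ℝ) (b : Fin M → ℝ) (w : (ι → Bool) → ℝ) (v0 : ι → ℝ) (v : Fin M → ι → ℝ)
    (g0 : ι → ℝ) (g : Fin M → ι → ℝ) :
    sLw (Fin.cons b0 b) w (Fin.cons v0 v) (Fin.cons g0 g) =
      sLw b (fun σ => w σ * Real.exp (b0 / 2 * X v0 g0 σ ^ 2)) v g := by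
  simp only [sLw, sen_cons, Real.exp_add, mul_assoc]

lemma sLw_cons' {M : ℕ} (b0 : ℝ) (b : Fin M → ℝ) (w : (ι → Bool) → ℝ) (v0 : ι → ℝ) (v : Fin M → ι → ℝ)
    (g0 : ι → ℝ) (g : Fin M → ι → ℝ) :
    sLw (Fin.cons b0 b) w (Fin.cons v0 v) (Fin.cons g0 g) =
      Real.log (∑ σ, w σ * Real.exp (sen b v g σ) * Real.exp (b0 / 2 * X v0 g0 σ ^ 2)) := by
  simp only [sLw, sen_cons, Real.exp_add]
  congr 1; exact Finset.sum_congr rfl fun σ _ => by ring

lemma sFw_cons {M : ℕ} (b0 : ℝ) (b : Fin M → ℝ) {w : (ι → Bool) → ℝ} (hw : ∀ σ, 0 < w σ) (v0 : ι → ℝ)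
    (v : Fin M → ι → ℝ) :
    sFw (Fin.cons b0 b) w (Fin.cons v0 v) =
        ∫ g0, sFw b (fun σ => w σ * Real.exp (b0 / 2 * X v0 g0 σ ^ 2)) v ∂gauss ι ∧
    sFw (Fin.cons b0 b) w (Fin.cons v0 v) =
        ∫ g, psi b0 (fun σ => w σ * Real.exp (sen b v g σ)) v0 ∂pats ι M ∧
    Integrable (fun g0 => sFw b (fun σ => w σ * Real.exp (b0 / 2 * X v0 g0 σ ^ 2)) v) (gauss ι) ∧
    Integrable (fun g => psi b0 (fun σ => w σ * Real.exp (sen b v g σ)) v0) (pats ι M) := by
  have hmp := mp_cons ι M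
  set B : Fin (M + 1) → ℝ := Fin.cons b0 b
  have hint : Integrable (fun p : (ι → ℝ) × (Fin M → ι → ℝ) => sLw B w (Fin.cons v0 v) (Fin.cons p.1 p.2))
      ((gauss ι).prod (pats ι M)) :=
    (hmp.integrable_comp (continuous_sLw B hw _).aestronglyMeasurable).2 (integrable_sLw B hw _)
  have e : sFw B w (Fin.cons v0 v) =
      ∫ p, sLw B w (Fin.cons v0 v) (Fin.cons p.1 p.2) ∂(gauss ι).prod (pats ι M) := by
    rw [sFw, ← hmp.map_eq, integral_map hmp.measurable.aemeasurable
      (continuous_sLw B hw _).aestronglyMeasurable]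
  refine ⟨?_, ?_, ?_, ?_⟩
  · rw [e, integral_prod _ hint]
    exact integral_congr_ae (.of_forall fun g0 => by simp only [B, sLw_cons]; rfl)
  · rw [e, integral_prod_symm _ hint]
    exact integral_congr_ae (.of_forall fun g => by simp only [B, sLw_cons']; rfl)
  · refine hint.integral_prod_left.congr (.of_forall fun g0 => ?_)
    simp only [B, sLw_cons]; rfl
  · refine hint.integral_prod_right.congr (.of_forall fun g => ?_)
    simp only [B, sLw_cons']; rfl

/-- effect of one pattern of either sign -/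
lemma psi_abs {b : ℝ} (hb : |b| ≤ 1 / 10) {w : (ι → Bool) → ℝ} (hw : ∀ σ, 0 < w σ) {v : ι → ℝ}
    (hv : v ∈ Simplex ι) : |psi b w v - Real.log (∑ σ, w σ)| ≤ cb (1 / 10) := by
  have hi : ∀ c : ℝ, Integrable (fun g => Real.log (∑ σ, w σ * Real.exp (c / 2 * X v g σ ^ 2))) (gauss ι) := by
    intro c
    refine Integrable.mono' ((integrable_const |Real.log (∑ σ, w σ)|).add
      (integrable_finsetSum Finset.univ fun σ _ => (integrable_sq_X v σ).const_mul |c / 2|))
      (Continuous.log (by have := fun σ => continuous_X v σ; fun_prop)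
        fun g => (sum_w_pos hw _).ne').aestronglyMeasurable (.of_forall fun g => ?_)
    obtain ⟨h1, h2⟩ := abs_log_le hw (fun σ => c / 2 * X v g σ ^ 2) (fun σ => |c / 2| * X v g σ ^ 2)
      fun σ => le_of_eq (by rw [abs_mul, abs_of_nonneg (sq_nonneg (X v g σ))])
    have := abs_le.1 (h1.trans h2)
    rw [Real.norm_eq_abs, abs_le]
    simp only [Pi.add_apply]
    constructor <;> linarith [neg_abs_le (Real.log (∑ σ, w σ)), le_abs_self (Real.log (∑ σ, w σ))]
  have hc : ∀ c : ℝ, psi c w v - Real.log (∑ σ, w σ) =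
      ∫ g, (Real.log (∑ σ, w σ * Real.exp (c / 2 * X v g σ ^ 2)) - Real.log (∑ σ, w σ)) ∂gauss ι := fun c => by
    rw [integral_sub (hi c) (integrable_const _)]; simp [psi]
  have h2 := (psi_bounds (b := (1 / 10 : ℝ)) (by norm_num) (by norm_num) hw hv).2
  refine le_trans ?_ (show psi (1 / 10) w v - Real.log (∑ σ, w σ) ≤ cb (1 / 10) by linarith)
  rw [hc, hc]
  refine abs_integral_le_integral_abs.trans (integral_mono ((hi b).sub (integrable_const _)).abs
    ((hi _).sub (integrable_const _)) fun g => ?_)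
  refine (abs_log_le hw _ (fun σ => 1 / 10 / 2 * X v g σ ^ 2) fun σ => ?_).1
  rw [abs_mul, abs_of_nonneg (sq_nonneg (X v g σ)), abs_div, abs_two]
  gcongr

/-- splitting all patterns, each with its own signed strength -/
theorem mixture {A : Type*} [Fintype A]
    (lam : A → ℝ) (hl0 : ∀ a, 0 ≤ lam a) (hl1 : ∑ a, lam a = 1) (u : A → ι → ℝ)
    (hu : ∀ a, u a ∈ Simplex ι) :
    ∀ (M : ℕ) (b : Fin M → ℝ), (∀ k, |b k| ≤ 1 / 10) →
      ∀ w : (ι → Bool) → ℝ, (∀ σ, 0 < w σ) →
      ∑ s : Fin M → A, (∏ k, lam (s k)) * sFw b w (fun k => u (s k)) ≤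
        sFw b w (fun _ => ∑ a, lam a • u a) := by
  intro M
  induction M with
  | zero =>
    intro b _ w hw
    simp [sFw, sLw, sen]
  | succ M ih =>
    intro b hb w hw
    obtain ⟨b0, b, rfl⟩ : ∃ b0 b', b = Fin.cons b0 b' := ⟨b 0, Fin.tail b, (Fin.cons_self_tail b).symm⟩
    have hb0 : |b0| ≤ 1 / 10 := by simpa using hb 0
    have hbs : ∀ k, |b k| ≤ 1 / 10 := fun k => by simpa using hb k.succ
    set mix := ∑ a, lam a • u a with hmix
    have hw' : ∀ g0 σ, 0 < w σ * Real.exp (b0 / 2 * X mix g0 σ ^ 2) := fun g0 σ =>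
      mul_pos (hw σ) (Real.exp_pos _)
    rw [show (fun _ : Fin (M + 1) => mix) = Fin.cons mix (fun _ : Fin M => mix) by
      funext k; refine Fin.cases ?_ (fun j => ?_) k <;> simp, (sFw_cons b0 b hw mix _).1]
    refine le_trans ?_ (integral_mono (integrable_finsetSum _ fun s _ =>
      (sFw_cons b0 b hw mix fun k => u (s k)).2.2.1.const_mul (∏ k, lam (s k)))
      (sFw_cons b0 b hw mix _).2.2.1 fun g0 => ih b hbs _ (hw' g0))
    rw [integral_finsetSum _ fun s _ => (sFw_cons b0 b hw mix fun k => u (s k)).2.2.1.const_mul _]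
    simp only [integral_const_mul]
    rw [← (Fin.consEquiv fun _ : Fin (M + 1) => A).sum_comp, Fintype.sum_prod_type, Finset.sum_comm]
    refine Finset.sum_le_sum fun s _ => ?_
    simp only [Fin.consEquiv_apply, Fin.prod_univ_succ, Fin.cons_zero, Fin.cons_succ]
    have hc : ∀ a, (fun k : Fin (M + 1) => u (Fin.cons (α := fun _ => A) a s k)) =
        Fin.cons (u a) (fun k => u (s k)) := fun a => by
      funext k; refine Fin.cases ?_ (fun j => ?_) k <;> simp
    have hwe : ∀ g σ, 0 < w σ * Real.exp (sen b (fun k => u (s k)) g σ) := fun g σ =>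
      mul_pos (hw σ) (Real.exp_pos _)
    rw [show ∫ g0, sFw b (fun σ => w σ * Real.exp (b0 / 2 * X mix g0 σ ^ 2)) (fun k => u (s k)) ∂gauss ι =
      ∫ g, psi b0 (fun σ => w σ * Real.exp (sen b (fun k => u (s k)) g σ)) mix ∂pats ι M from
        (sFw_cons b0 b hw mix _).1.symm.trans (sFw_cons b0 b hw mix _).2.1]
    simp only [hc, fun a => (sFw_cons b0 b hw (u a) (fun k => u (s k))).2.1, mul_comm (lam _),
      mul_assoc, ← Finset.mul_sum]
    refine mul_le_mul_of_nonneg_left ?_ (Finset.prod_nonneg fun k _ => hl0 _)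
    simp only [← integral_mul_const]
    rw [← integral_finsetSum _ fun a _ => (sFw_cons b0 b hw (u a) _).2.2.2.mul_const _]
    refine integral_mono (integrable_finsetSum _ fun a _ => (sFw_cons b0 b hw (u a) _).2.2.2.mul_const _)
      (sFw_cons b0 b hw mix _).2.2.2 fun g => ?_
    have := (concaveOn_psi_abs hb0 (hwe g)).le_map_sum (t := Finset.univ) (fun a _ => hl0 a) hl1
      (fun a _ => hu a)
    simpa [hmix, smul_eq_mul, mul_comm] using this

variable {r : ℕ}

/-- mean log partition function, pattern `k` having strength `b (t k)` -/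
def fT (b : Fin r → ℝ) (n : ℕ) {M : ℕ} (t : Fin M → Fin r) : ℝ :=
  sFw (fun k => b (t k)) (w0 (Fin n)) (fun _ => unif (Fin n))

/-- mean log partition function with given counts -/
def fC (b : Fin r → ℝ) (n : ℕ) (k : Fin r → ℕ) : ℝ := fT b n (can k)

lemma fT_congr (b : Fin r → ℝ) (n : ℕ) {M M' : ℕ} (t : Fin M → Fin r) (t' : Fin M' → Fin r)
    (h : ∀ j, cnt t j = cnt t' j) : fT b n t = fT b n t' := by
  classical
  have he : ∀ j, Nonempty ({i // t i = j} ≃ {i // t' i = j}) := fun j => ⟨Fintype.equivOfCardEq (by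
    simp only [Fintype.card_subtype]; exact h j)⟩
  set e : Fin M ≃ Fin M' := Equiv.ofFiberEquiv fun j => (he j).some
  have ht : ∀ i, t' (e i) = t i := fun i => Equiv.ofFiberEquiv_map _ i
  have hmp : MeasurePreserving (fun g : Fin M' → Fin n → ℝ => fun j i => g (e j) i)
      (pats (Fin n) M') (pats (Fin n) M) := mp_restrict e.injective (fun _ _ h => h)
  rw [fT, fT, sFw, sFw, ← hmp.map_eq, integral_map hmp.measurable.aemeasurable
    (continuous_sLw _ w0_pos _).aestronglyMeasurable]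
  refine integral_congr_ae (.of_forall fun g => ?_)
  simp only [sLw, sen]
  congr 1
  refine Finset.sum_congr rfl fun σ _ => ?_
  congr 2
  exact Fintype.sum_equiv e _ _ fun i => by rw [ht]

lemma fT_eq (b : Fin r → ℝ) (n : ℕ) {M : ℕ} (t : Fin M → Fin r) :
    fT b n t = fC b n (cnt t) := fT_congr b n t _ fun j => (cnt_can _ j).symm

lemma fC_succ {b : Fin r → ℝ} (hb : ∀ j, |b j| ≤ 1 / 10) {n : ℕ} (hn : 0 < n) (k : Fin r → ℕ) (j0 : Fin r) :
    |fC b n (k + Pi.single j0 1) - fC b n k| ≤ cb (1 / 10) := by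
  set v := unif (Fin n)
  have hv : v ∈ Simplex (Fin n) := unif_mem (by simpa using hn)
  set t := Fin.cons (α := fun _ => Fin r) j0 (can k)
  have ht : ∀ j, cnt t j = (k + Pi.single j0 1 : Fin r → ℕ) j := fun j => by
    simp only [t, cnt_cons, cnt_can, Pi.add_apply, Pi.single_apply]
    by_cases h : j0 = j
    · subst h; simp [add_comm]
    · simp [h, Ne.symm h]
  have e0 : fT b n t = fC b n (k + Pi.single j0 1) := fT_congr b n t _ fun j => by rw [ht, cnt_can]
  have hc : (fun i => b (t i)) = Fin.cons (b j0) (fun i => b (can k i)) := by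
    funext i; refine Fin.cases ?_ (fun i => ?_) i <;> simp [t]
  have hv' : (fun _ : Fin ((∑ j, k j) + 1) => v) = Fin.cons v (fun _ => v) := by
    funext i; refine Fin.cases ?_ (fun i => ?_) i <;> simp
  have h := sFw_cons (b j0) (fun i => b (can k i)) (w := w0 (Fin n)) w0_pos v (fun _ => v)
  set L := fun g => sLw (fun i => b (can k i)) (w0 (Fin n)) (fun _ => v) g
  have hL : Integrable L (pats (Fin n) (∑ j, k j)) := integrable_sLw _ w0_pos _
  have e : fC b n (k + Pi.single j0 1) = ∫ g, psi (b j0)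
      (fun σ => w0 (Fin n) σ * Real.exp (sen (fun i => b (can k i)) (fun _ => v) g σ)) v ∂pats (Fin n) (∑ j, k j) := by
    rw [← e0, fT, hc, hv']; exact h.2.1
  rw [e, show fC b n k = ∫ g, L g ∂pats (Fin n) (∑ j, k j) from rfl, ← integral_sub h.2.2.2 hL]
  refine abs_integral_le_integral_abs.trans ((integral_mono (h.2.2.2.sub hL).abs (integrable_const (cb (1 / 10)))
    fun g => psi_abs (hb j0) (fun σ => mul_pos (w0_pos σ) (Real.exp_pos _)) hv).trans_eq ?_)
  simp

lemma fC_zero (b : Fin r → ℝ) (n : ℕ) : fC b n 0 = 0 := by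
  have h := fT_congr b n (can (0 : Fin r → ℕ)) (Fin.elim0 : Fin 0 → Fin r) fun j => by
    rw [cnt_can]; simp [cnt]
  rw [fC, h]
  simp [fT, sFw, sLw, sen, sum_w0]

lemma fC_add {b : Fin r → ℝ} (hb : ∀ j, |b j| ≤ 1 / 10) {n : ℕ} (hn : 0 < n) (k : Fin r → ℕ) :
    ∀ (m : ℕ) (d : Fin r → ℕ), ∑ j, d j = m → |fC b n (k + d) - fC b n k| ≤ m * cb (1 / 10) := by
  intro m
  induction m with
  | zero =>
    intro d hd
    have : d = 0 := funext fun j => Finset.sum_eq_zero_iff.1 hd j (Finset.mem_univ j)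
    simp [this]
  | succ m ih =>
    intro d hd
    obtain ⟨j0, -, hj0⟩ := Finset.exists_ne_zero_of_sum_ne_zero (s := Finset.univ) (f := d) (by omega)
    set d' := Function.update d j0 (d j0 - 1)
    have hdd : d = d' + Pi.single j0 1 := by
      funext j
      by_cases h : j = j0
      · subst h; simp [d']; omega
      · simp [d', h]
    have hm : ∑ j, d' j = m := by
      have := congrArg (fun f : Fin r → ℕ => ∑ j, f j) hdd
      simp only [Pi.add_apply, Finset.sum_add_distrib, Finset.sum_pi_single', Finset.mem_univ, if_true] at this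
      omega
    have h1 := ih d' hm
    have h2 := fC_succ hb hn (k + d') j0
    rw [hdd, ← add_assoc]
    push_cast
    have := abs_sub_le (fC b n (k + d' + Pi.single j0 1)) (fC b n (k + d')) (fC b n k)
    linarith

lemma fC_lip {b : Fin r → ℝ} (hb : ∀ j, |b j| ≤ 1 / 10) {n : ℕ} (hn : 0 < n) (k k' : Fin r → ℕ) :
    fC b n k - cb (1 / 10) * ∑ j, |(k' j : ℝ) - k j| ≤ fC b n k' := by
  set K : Fin r → ℕ := fun j => max (k j) (k' j)
  have h1 := fC_add hb hn k _ (fun j => K j - k j) rfl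
  have h2 := fC_add hb hn k' _ (fun j => K j - k' j) rfl
  rw [show k + (fun j => K j - k j) = K from funext fun j => by simp [K]] at h1
  rw [show k' + (fun j => K j - k' j) = K from funext fun j => by simp [K]] at h2
  have hsum : ((∑ j, (K j - k j) : ℕ) : ℝ) + ((∑ j, (K j - k' j) : ℕ) : ℝ) = ∑ j, |(k' j : ℝ) - k j| := by
    push_cast
    rw [← Finset.sum_add_distrib]
    refine Finset.sum_congr rfl fun j _ => ?_
    rcases le_total (k j) (k' j) with h | h
    · have : (k j : ℝ) ≤ k' j := Nat.cast_le.2 h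
      simp [K, max_eq_right h, Nat.cast_sub h, abs_of_nonneg (sub_nonneg.2 this)]
    · have : (k' j : ℝ) ≤ k j := Nat.cast_le.2 h
      simp [K, max_eq_left h, Nat.cast_sub h, abs_of_nonpos (sub_nonpos.2 this)]
  rw [← hsum, mul_add]
  linarith [abs_le.1 h1, abs_le.1 h2]

lemma fC_le {b : Fin r → ℝ} (hb : ∀ j, |b j| ≤ 1 / 10) {n : ℕ} (hn : 0 < n) (k : Fin r → ℕ) :
    |fC b n k| ≤ ((∑ j, k j : ℕ) : ℝ) * cb (1 / 10) := by
  simpa [fC_zero] using fC_add hb hn 0 _ k rfl

section blocks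

variable {A : Type*} [Fintype A] [DecidableEq A]

lemma sFw_blocks {b : Fin r → ℝ} (n : A → ℕ) {M : ℕ} (t : Fin M → Fin r) (s : Fin M → A) :
    sFw (fun k => b (t k)) (w0 (Σ c, Fin (n c))) (fun k => ub n (s k)) =
      ∑ c, fC b (n c) (cnt2 t s c) := by
  classical
  set e : ∀ c, Fin (cnt s c) → Fin M := fun c => (Finset.univ.filter fun k => s k = c).orderEmbOfFin rfl
  have he : ∀ c, Function.Injective (e c) := fun c => ((Finset.univ.filter fun k => s k = c).orderEmbOfFin rfl).injective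
  set R : ∀ c, (Fin M → (Σ c, Fin (n c)) → ℝ) → Fin (cnt s c) → Fin (n c) → ℝ :=
    fun c g j i => g (e c j) ⟨c, i⟩
  have hmp : ∀ c, MeasurePreserving (R c) (pats (Σ c, Fin (n c)) M) (pats (Fin (n c)) (cnt s c)) := fun c =>
    mp_restrict (he c) fun i j h => by simpa using h
  have key : ∀ g, sLw (fun k => b (t k)) (w0 (Σ c, Fin (n c))) (fun k => ub n (s k)) g =
      ∑ c, sLw (fun k => b (t (e c k))) (w0 (Fin (n c))) (fun _ => unif (Fin (n c))) (R c g) := by
    intro g
    simp only [sLw]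
    rw [← Real.log_prod (fun c _ => (sum_w_pos (w0_pos (ι := Fin (n c))) _).ne')]
    congr 1
    rw [Fintype.prod_sum]
    refine Fintype.sum_equiv (Equiv.piCurry fun c (_ : Fin (n c)) => Bool) _ _ fun σ => ?_
    rw [Finset.prod_mul_distrib, ← Real.exp_sum]
    congr 1
    · simp only [w0]
      rw [Finset.prod_inv_distrib, Finset.prod_pow_eq_pow_sum, Fintype.card_sigma]
    · congr 1
      simp only [sen]
      rw [← Finset.sum_fiberwise Finset.univ s]
      refine Finset.sum_congr rfl fun c _ => ?_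
      conv_lhs => rw [← Finset.map_orderEmbOfFin_univ (Finset.univ.filter fun k => s k = c) rfl, Finset.sum_map]
      refine Finset.sum_congr rfl fun j _ => ?_
      have hs : s (e c j) = c := (Finset.mem_filter.1 (Finset.orderEmbOfFin_mem _ rfl j)).2
      have hx : X (ub n (s (e c j))) (g (e c j)) σ = X (unif (Fin (n c))) (R c g j) (fun i => σ ⟨c, i⟩) := by
        rw [hs]
        simp only [X, lin, co, R]
        rw [Fintype.sum_sigma, Finset.sum_eq_single c]
        · simp [ub, unif]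
        · intro c' _ h; simp [ub, h]
        · simp
      change b (t (e c j)) / 2 * X (ub n (s (e c j))) (g (e c j)) σ ^ 2 = _
      rw [hx]; rfl
  have hint : ∀ c, Integrable (fun g => sLw (fun k => b (t (e c k))) (w0 (Fin (n c))) (fun _ => unif (Fin (n c))) (R c g))
      (pats (Σ c, Fin (n c)) M) := fun c =>
    ((hmp c).integrable_comp (continuous_sLw _ w0_pos _).aestronglyMeasurable).2 (integrable_sLw _ w0_pos _)
  have hcnt : ∀ c j, cnt (t ∘ e c) j = cnt2 t s c j := fun c j => by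
    rw [cnt, cnt2]
    refine (Finset.card_map (f := (⟨e c, he c⟩ : Fin (cnt s c) ↪ Fin M))).symm.trans (congrArg Finset.card ?_)
    ext k
    simp only [Finset.mem_map, Finset.mem_filter, Finset.mem_univ, true_and, Function.comp,
      Function.Embedding.coeFn_mk]
    constructor
    · rintro ⟨i, hi, rfl⟩
      exact ⟨(Finset.mem_filter.1 (Finset.orderEmbOfFin_mem _ rfl i)).2, hi⟩
    · rintro ⟨h1, h2⟩
      obtain ⟨i, hi⟩ : k ∈ Set.range ((Finset.univ.filter fun k => s k = c).orderEmbOfFin rfl) := by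
        rw [Finset.range_orderEmbOfFin]; simp [h1]
      refine ⟨i, ?_, hi⟩
      simp only [e]; rw [hi]; exact h2
  simp only [sFw, key]
  rw [integral_finsetSum _ fun c _ => hint c]
  refine Finset.sum_congr rfl fun c _ => ?_
  rw [← show fT b (n c) (t ∘ e c) = fC b (n c) (cnt2 t s c) by
    rw [fT_eq]; congr 1; funext j; exact hcnt c j]
  rw [fT, sFw, ← (hmp c).map_eq, integral_map (hmp c).measurable.aemeasurable
    (continuous_sLw _ w0_pos _).aestronglyMeasurable]
  rfl

theorem superadd {b : Fin r → ℝ} (hb : ∀ j, |b j| ≤ 1 / 10)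
    (n : A → ℕ) (hn : ∀ c, 0 < n c) {M : ℕ} (t : Fin M → Fin r) [Nonempty A] :
    ∑ s : Fin M → A, (∏ k, (n (s k) : ℝ) / (∑ c, n c : ℕ)) * ∑ c, fC b (n c) (cnt2 t s c) ≤
      fT b (∑ c, n c) t := by
  set ι' := Σ c, Fin (n c)
  have hc : Fintype.card ι' = ∑ c, n c := by simp [ι', Fintype.card_sigma]
  have hN : (0:ℝ) < ((∑ c, n c : ℕ) : ℝ) := by
    exact_mod_cast Finset.sum_pos (fun c _ => hn c) Finset.univ_nonempty
  have hsum : ∑ c, (n c : ℝ) / ((∑ c, n c : ℕ) : ℝ) = 1 := by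
    rw [← Finset.sum_div, ← Nat.cast_sum, div_self hN.ne']
  have h := mixture (fun c => (n c : ℝ) / ((∑ c, n c : ℕ) : ℝ)) (fun c => by positivity) hsum
    (ub n) (ub_mem hn) M (fun k => b (t k)) (fun k => hb _) (w0 ι') w0_pos
  simp only [ι', sFw_blocks] at h
  refine h.trans (le_of_eq ?_)
  have hmix : ∑ c, ((n c : ℝ) / ((∑ c, n c : ℕ) : ℝ)) • ub n c = unif ι' := by
    funext i
    simp only [Finset.sum_apply, Pi.smul_apply, smul_eq_mul, ub, mul_ite, mul_zero, Finset.sum_ite_eq,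
      Finset.mem_univ, if_true, unif, hc]
    have : (n i.1 : ℝ) ≠ 0 := by exact_mod_cast (hn i.1).ne'
    field_simp
  rw [hmix]
  set e : Fin (∑ c, n c) ≃ ι' := (Fintype.equivFinOfCardEq hc).symm
  have hmp : MeasurePreserving (fun g : Fin M → ι' → ℝ => fun j i => g j (e i)) (pats ι' M)
      (pats (Fin (∑ c, n c)) M) := mp_restrict (fun _ _ h => h) e.injective
  rw [fT, sFw, sFw, ← hmp.map_eq, integral_map hmp.measurable.aemeasurable
    (continuous_sLw _ w0_pos _).aestronglyMeasurable]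
  refine integral_congr_ae (.of_forall fun g => ?_)
  simp only [sLw]
  congr 1
  refine Fintype.sum_equiv (e.arrowCongr (Equiv.refl Bool)).symm _ _ fun σ => ?_
  have hx : ∀ k, X (unif ι') (g k) σ =
      X (unif (Fin (∑ c, n c))) (fun i => g k (e i)) fun i => σ (e i) := fun k => by
    simp only [X, lin, co, unif, hc, Fintype.card_fin]
    exact (Fintype.sum_equiv e _ _ fun i => rfl).symm
  simp only [sen, hx, w0, Fintype.card_fin]
  rw [show Fintype.card (Σ c, Fin (n c)) = ∑ c, n c from hc]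
  rfl

end blocks

end Vale.Agent.P166.Pattern.Signed
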