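import Vale.Agent.P166.Pattern.Signed.Cluster
import Vale.Agent.P166.Pattern.Multi.Edge
import Vale.Agent.P166.Pattern.Multi.Law

/-!
Deterministic spectra with the spherical integrals of signed Wishart matrices, and their resolvents.
-/

open MeasureTheory ProbabilityTheory Filter Matrix
open scoped Topology

noncomputable section

namespace Vale.Agent.P166.Pattern.Signed

open Multi (WC Ks cs Law cauchy)

variable {M N r : ℕ}

lemma WC_neg (c : Fin M → ℝ) (g : Fin M × Fin N → ℝ) : WC (fun m => -c m) g = -WC c g := by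
  unfold Multi.WC
  rw [← Matrix.diagonal_neg, Matrix.mul_neg, Matrix.neg_mul, smul_neg]

lemma Zs_neg (s : ℝ) {c : Fin M → ℝ} {g : Fin M × Fin N → ℝ} {lam : Fin N → ℝ}
    {Q : Matrix (Fin N) (Fin N) ℝ} (hQ : Q ∈ Matrix.orthogonalGroup (Fin N) ℝ)
    (hW : WC c g = Qᵀ * Matrix.diagonal lam * Q) : Zs s (fun m => -c m) g = Zl s fun i => -lam i := by
  refine Zs_eig s hQ ?_
  rw [WC_neg, hW, ← Matrix.diagonal_neg, Matrix.mul_neg, Matrix.neg_mul]

/-- diagonalisation of a signed weighted Wishart matrix -/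
theorem exists_eig_signed (c : Fin M → ℝ) (g : Fin M × Fin N → ℝ) :
    ∃ (lam : Fin N → ℝ) (Q : Matrix (Fin N) (Fin N) ℝ), Q ∈ Matrix.orthogonalGroup (Fin N) ℝ ∧
      WC c g = Qᵀ * Matrix.diagonal lam * Q ∧
      ∀ b : ℝ, (∀ v : Fin N → ℝ, ∑ i, v i ^ 2 = 1 → |∑ m, c m * (∑ i, g (m, i) * v i) ^ 2| ≤ b) →
        ∀ i, |lam i| ≤ b / N := by
  have hh : (WC c g).IsHermitian := by
    rw [Matrix.IsHermitian, Matrix.conjTranspose_eq_transpose_of_trivial, Multi.WC, Matrix.transpose_smul,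
      Matrix.transpose_mul, Matrix.transpose_mul, Matrix.transpose_transpose, Matrix.diagonal_transpose,
      Matrix.mul_assoc]
  set U : Matrix (Fin N) (Fin N) ℝ := (hh.eigenvectorUnitary : Matrix (Fin N) (Fin N) ℝ)
  have hU1 : Uᵀ * U = 1 := by
    have := (Matrix.mem_unitaryGroup_iff').1 hh.eigenvectorUnitary.2
    simpa [U, Matrix.star_eq_conjTranspose] using this
  set lam := hh.eigenvalues
  have hW : WC c g = U * Matrix.diagonal lam * Uᵀ := by
    have := hh.spectral_theorem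
    simp only [Unitary.conjStarAlgAut_apply] at this
    simpa [U, lam, Matrix.star_eq_conjTranspose, Function.comp_def] using this
  have hQ : Uᵀ ∈ Matrix.orthogonalGroup (Fin N) ℝ := by
    rw [Matrix.mem_orthogonalGroup_iff]; simpa using hU1
  have hW' : WC c g = (Uᵀ)ᵀ * Matrix.diagonal lam * Uᵀ := by rwa [Matrix.transpose_transpose]
  refine ⟨lam, Uᵀ, hQ, hW', fun b hb i => ?_⟩
  have hN : (0:ℝ) < N := by exact_mod_cast i.pos
  set v : Fin N → ℝ := fun j => U j i
  have hcol : ∀ k, ∑ j, U j k * v j = if k = i then 1 else 0 := fun k => by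
    have := congrFun (congrFun hU1 k) i
    simpa [Matrix.mul_apply, Matrix.transpose_apply, Matrix.one_apply, v] using this
  have h := quad_eig hW' v
  simp only [Matrix.transpose_apply, hcol, ite_pow, one_pow, ne_eq, OfNat.ofNat_ne_zero, not_false_eq_true, zero_pow,
    mul_ite, mul_one, mul_zero, Finset.sum_ite_eq', Finset.mem_univ, if_true] at h
  rw [← h]
  simp only [← mul_div_assoc, ← Finset.sum_div, abs_div, abs_of_pos hN]
  refine div_le_div_of_nonneg_right (hb v ?_) hN.le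
  simpa [sq, v] using hcol i

/-- spectra with the right spherical integrals for both signs -/
theorem exists_spec (hr : 0 < r) {a α : Fin r → ℝ} (hα : ∀ j, 0 < α j)
    (Ψ : ∀ N : ℕ, (Fin (∑ j, Ks α N j) × Fin N → ℝ) → ℝ) (hm : ∀ N, Measurable (Ψ N))
    (h01 : ∀ N g, 0 ≤ Ψ N g ∧ Ψ N g ≤ 1)
    (hlim : Tendsto (fun N : ℕ => ∫ g, Ψ N g ∂gauss (Fin (∑ j, Ks α N j) × Fin N)) atTop (𝓝 0)) :
    ∃ (g : ∀ N : ℕ, Fin (∑ j, Ks α N j) × Fin N → ℝ) (lam : ∀ N : ℕ, Fin N → ℝ), Spec a α lam ∧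
      Spec (fun j => -a j) α (fun N i => -lam N i) ∧
      (∃ L, ∀ᶠ N : ℕ in atTop, ∀ i, |lam N i| ≤ L) ∧
      Tendsto (fun N => Ψ N (g N)) atTop (𝓝 0) ∧
      ∀ N, ∃ Q : Matrix (Fin N) (Fin N) ℝ, Q ∈ Matrix.orthogonalGroup (Fin N) ℝ ∧
        WC (cs a α N) (g N) = Qᵀ * Matrix.diagonal (lam N) * Q := by
  classical
  set A := ∑ j, |a j|
  set S2 := ∑ j, α j * a j ^ 2
  have hA : 0 ≤ A := Finset.sum_nonneg fun j _ => abs_nonneg _
  have hS2 : 0 ≤ S2 := Finset.sum_nonneg fun j _ => mul_nonneg (hα j).le (sq_nonneg _)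
  have hAj : ∀ j, |a j| ≤ A := fun j =>
    Finset.single_le_sum (f := fun j => |a j|) (fun j _ => abs_nonneg _) (Finset.mem_univ j)
  set s0 := 1 / (5 * (A + 1) * (S2 + 1))
  have hs0 : 0 < s0 := by positivity
  have hs0a : ∀ j, s0 * |a j| ≤ 1 / 5 := fun j => by
    simp only [s0]
    rw [div_mul_eq_mul_div, one_mul, div_le_div_iff₀ (by positivity) (by norm_num)]
    nlinarith [hAj j, mul_nonneg hA hS2]
  set sa : Bool → Fin r → ℝ := fun b j => if b then a j else -a j
  have hsa : ∀ b j, |sa b j| = |a j| := fun b j => by cases b <;> simp [sa]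
  have hsa2 : ∀ b, ∑ j, α j * sa b j ^ 2 = S2 := fun b =>
    Finset.sum_congr rfl fun j _ => by rw [← sq_abs (sa b j), hsa, sq_abs]
  set P : ∀ N : ℕ, Measure (Fin (∑ j, Ks α N j) × Fin N → ℝ) := fun N => gauss _
  set E : ∀ N : ℕ, Set (Fin (∑ j, Ks α N j) × Fin N → ℝ) := fun N => {g | ∃ v : Fin N → ℝ,
    ∑ j, v j ^ 2 = 1 ∧ (√(Multi.bd N (fun _ : Fin (∑ j, Ks α N j) => (1:ℝ)) (1 / 2)) + 1 + √(N:ℝ)) ^ 2 <
      ∑ m, (1:ℝ) * (∑ j, g (m, j) * v j) ^ 2}
  set U : Bool → ℚ → ℕ → ∀ N : ℕ, Set (Fin (∑ j, Ks α N j) × Fin N → ℝ) := fun b q n N =>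
    {g | Real.exp (N * (Js (sa b) α (q:ℝ) + 1 / ((n:ℝ) + 1))) ≤ Zs (q:ℝ) (cs (sa b) α N) g}
  set G : Option (Option (Bool × ℚ × Option ℕ)) → ∀ N : ℕ, (Fin (∑ j, Ks α N j) × Fin N → ℝ) → ℝ :=
    fun o N g => match o with
    | none => Ψ N g
    | some none => (E N).indicator (fun _ => (1:ℝ)) g
    | some (some (b, q, none)) => if 0 < (q:ℝ) ∧ (q:ℝ) ≤ s0 then
        |Real.log (Zs (q:ℝ) (cs (sa b) α N) g) / N - Js (sa b) α (q:ℝ)| else 0
    | some (some (b, q, some n)) => if 0 < (q:ℝ) ∧ ∀ j, (q:ℝ) * sa b j < 1 then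
        (U b q n N).indicator (fun _ => (1:ℝ)) g else 0
  obtain ⟨e, he⟩ := exists_surjective_nat (Option (Option (Bool × ℚ × Option ℕ)))
  have hG0 : ∀ o N g, 0 ≤ G o N g := by
    rintro (_ | _ | ⟨b, q, _ | n⟩) N g
    · exact (h01 N g).1
    · exact Set.indicator_nonneg (fun _ _ => zero_le_one) g
    all_goals simp only [G]; split
    all_goals first
      | exact abs_nonneg _
      | exact Set.indicator_nonneg (fun _ _ => zero_le_one) g
      | exact le_rfl
  have hMN : ∀ᶠ N : ℕ in atTop, 0 < ∑ j, Ks α N j := by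
    filter_upwards [eventually_ge_atTop ⌈1 / α ⟨0, hr⟩⌉₊] with N hN
    refine lt_of_lt_of_le (Nat.floor_pos.2 ?_)
      (Finset.single_le_sum (f := Ks α N) (fun _ _ => Nat.zero_le _) (Finset.mem_univ ⟨0, hr⟩))
    have h1 : 1 / α ⟨0, hr⟩ ≤ N := (Nat.le_ceil _).trans (by exact_mod_cast hN)
    rwa [div_le_iff₀ (hα _), mul_comm] at h1
  have hind : ∀ {Ω : Type} [MeasurableSpace Ω] (μ : Measure Ω) [IsFiniteMeasure μ] (S : Set Ω) (ε : ℝ), 0 < ε →
      μ.real {x | ε ≤ S.indicator (fun _ => (1:ℝ)) x} ≤ μ.real S := fun μ _ S ε hε => by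
    refine measureReal_mono fun x (hx : ε ≤ _) => ?_
    by_contra hc
    rw [Set.indicator_of_notMem hc] at hx
    linarith
  have hzero : ∀ ε : ℝ, 0 < ε → Tendsto (fun N => (P N).real {x | ε ≤ (0:ℝ)}) atTop (𝓝 0) := fun ε hε => by
    simp [not_le.2 hε]
  have hG : ∀ o, ∀ ε : ℝ, 0 < ε → Tendsto (fun N => (P N).real {x | ε ≤ G o N x}) atTop (𝓝 0) := by
    intro o ε hε
    rcases o with _ | _ | ⟨b, q, _ | n⟩
    · refine squeeze_zero (fun N => measureReal_nonneg) (fun N => ?_)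
        (by simpa using hlim.div_const ε)
      rw [le_div_iff₀ hε, mul_comm]
      refine mul_meas_ge_le_integral_of_nonneg (.of_forall fun g => (h01 N g).1) ?_ ε
      exact Integrable.of_bound (hm N).aestronglyMeasurable 1
        (.of_forall fun g => by rw [Real.norm_eq_abs, abs_of_nonneg (h01 N g).1]; exact (h01 N g).2)
    · refine squeeze_zero' (.of_forall fun N => measureReal_nonneg) ?_
        (tendsto_const_div_atTop_nhds_zero_nat (1:ℝ))
      filter_upwards [hMN, eventually_gt_atTop 0] with N hM hN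
      refine (hind (P N) (E N) ε hε).trans
        ((Multi.tail_norm (c := fun _ : Fin (∑ j, Ks α N j) => (1:ℝ)) hM hN (fun _ => ⟨zero_le_one, le_rfl⟩)
          (y := 1 / 2) (by norm_num) (fun _ => by norm_num) (t := √(N:ℝ))
          (Real.sqrt_pos.2 (by exact_mod_cast hN))).trans_eq ?_)
      rw [Real.sq_sqrt (Nat.cast_nonneg N)]
    · by_cases hq : 0 < (q:ℝ) ∧ (q:ℝ) ≤ s0
      · simp only [G, if_pos hq]
        refine small_tendsto hα (fun j => ?_) ?_ hε
        · rw [abs_mul, abs_of_pos hq.1, hsa]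
          have := (mul_le_mul_of_nonneg_right hq.2 (abs_nonneg (a j))).trans (hs0a j)
          linarith
        · rw [hsa2]
          calc (q:ℝ) ^ 2 * S2 ≤ s0 ^ 2 * S2 := by gcongr; exacts [hq.1.le, hq.2]
            _ ≤ 4 / 100 := by
              simp only [s0]
              rw [div_pow, div_mul_eq_mul_div, div_le_div_iff₀ (by positivity) (by norm_num), mul_pow, mul_pow]
              nlinarith [mul_le_mul_of_nonneg_right (one_le_pow₀ (n := 2) (show (1:ℝ) ≤ A + 1 by linarith))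
                (sq_nonneg (S2 + 1))]
      · simp only [G, if_neg hq]; exact hzero ε hε
    · by_cases hq : 0 < (q:ℝ) ∧ ∀ j, (q:ℝ) * sa b j < 1
      · simp only [G, if_pos hq]
        exact squeeze_zero (fun N => measureReal_nonneg) (fun N => hind (P N) (U b q n N) ε hε)
          (upper_tendsto hα hq.2 (by positivity))
      · simp only [G, if_neg hq]; exact hzero ε hε
  obtain ⟨g, hg⟩ := Pattern.exists_selection P (fun j => G (e j)) (fun j => hG0 _) fun j => hG _
  have hgo : ∀ o, Tendsto (fun N => G o N (g N)) atTop (𝓝 0) := fun o => by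
    obtain ⟨j, rfl⟩ := he o
    exact hg j
  choose lam Q hQ hW hb using fun N => exists_eig_signed (cs a α N) (g N)
  have hZ : ∀ b (s : ℝ) N, Zs s (cs (sa b) α N) (g N) = Zl s (fun i => if b then lam N i else -lam N i) := by
    intro b s N
    cases b
    · simp only [sa, Bool.false_eq_true, if_false]
      exact Zs_neg s (hQ N) (hW N)
    · simp only [sa, if_true]
      exact Zs_eig s (hQ N) (hW N)
  have hspec : ∀ b, Spec (sa b) α fun N i => if b then lam N i else -lam N i := fun b => by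
    refine ⟨fun s hs hsa' δ hδ => ?_, s0, hs0, fun j => by rw [hsa]; linarith [hs0a j], fun s hs hs' => ?_⟩
    · obtain ⟨n, hn⟩ := exists_nat_one_div_lt hδ
      filter_upwards [(hgo (some (some (b, s, some n)))).eventually (eventually_lt_nhds one_pos)] with N hN
      simp only [G, if_pos (show 0 < (s:ℝ) ∧ ∀ j, (s:ℝ) * sa b j < 1 from ⟨hs, hsa'⟩)] at hN
      have hnot : g N ∉ U b s n N := fun hmem => by
        rw [Set.indicator_of_mem hmem] at hN
        exact lt_irrefl _ hN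
      rw [← hZ]
      refine lt_of_lt_of_le (not_le.1 hnot) (Real.exp_le_exp.2 ?_)
      exact mul_le_mul_of_nonneg_left (by linarith) (Nat.cast_nonneg N)
    · have h := hgo (some (some (b, s, none)))
      simp only [G, if_pos (show 0 < (s:ℝ) ∧ (s:ℝ) ≤ s0 from ⟨hs, hs'⟩)] at h
      have h1 := ((tendsto_zero_iff_abs_tendsto_zero _).2 h).add_const (Js (sa b) α (s:ℝ))
      simpa [hZ] using h1
  refine ⟨g, lam, ?_, ?_, ⟨A * (√(2 + 2 * ∑ j, α j) + 2) ^ 2, ?_⟩, hgo none, fun N => ⟨Q N, hQ N, hW N⟩⟩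
  · simpa [sa] using hspec true
  · simpa [sa] using hspec false
  · filter_upwards [(hgo (some none)).eventually (eventually_lt_nhds one_pos), eventually_gt_atTop 0] with N hN hN0
    have hN' : (0:ℝ) < N := by exact_mod_cast hN0
    have hnot : g N ∉ E N := fun hmem => by
      simp only [G, Set.indicator_of_mem hmem] at hN
      exact lt_irrefl _ hN
    intro i
    set B := (√(Multi.bd N (fun _ : Fin (∑ j, Ks α N j) => (1:ℝ)) (1 / 2)) + 1 + √(N:ℝ)) ^ 2
    refine (hb N (A * B) (fun v hv => ?_) i).trans ?_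
    · have hB : ∑ m, (∑ j, g N (m, j) * v j) ^ 2 ≤ B :=
        le_of_not_gt fun hlt => hnot ⟨v, hv, by simpa [B] using hlt⟩
      refine (Finset.abs_sum_le_sum_abs _ _).trans ?_
      refine le_trans ?_ (mul_le_mul_of_nonneg_left hB hA)
      rw [Finset.mul_sum]
      refine Finset.sum_le_sum fun m _ => ?_
      rw [abs_mul, abs_of_nonneg (a := (∑ j, g N (m, j) * v j) ^ 2) (sq_nonneg _)]
      exact mul_le_mul_of_nonneg_right (hAj _) (sq_nonneg _)
    · rw [mul_div_assoc]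
      refine mul_le_mul_of_nonneg_left ?_ hA
      rw [div_le_iff₀ hN', show (√(2 + 2 * ∑ j, α j) + 2) ^ 2 * (N:ℝ) =
        ((√(2 + 2 * ∑ j, α j) + 2) * √(N:ℝ)) ^ 2 by rw [mul_pow _ (√(N:ℝ)), Real.sq_sqrt hN'.le]]
      refine pow_le_pow_left₀ (by positivity) ?_ 2
      have hbd : Multi.bd N (fun _ : Fin (∑ j, Ks α N j) => (1:ℝ)) (1 / 2) ≤ (2 + 2 * ∑ j, α j) * N := by
        simp only [Multi.bd, Finset.sum_const, Finset.card_univ, Fintype.card_fin, nsmul_eq_mul]
        have h2 : ((∑ j, Ks α N j : ℕ) : ℝ) ≤ (∑ j, α j) * N := by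
          push_cast; rw [Finset.sum_mul]
          exact Finset.sum_le_sum fun j _ => Nat.floor_le (by have := hα j; positivity)
        norm_num [Ks] at h2 ⊢
        linarith
      have h1 : √(Multi.bd N (fun _ : Fin (∑ j, Ks α N j) => (1:ℝ)) (1 / 2)) ≤
          √(2 + 2 * ∑ j, α j) * √(N:ℝ) := by
        rw [← Real.sqrt_mul (add_nonneg zero_le_two (mul_nonneg zero_le_two (Finset.sum_nonneg fun j _ => (hα j).le)))]
        exact Real.sqrt_le_sqrt hbd
      have h3 : 1 ≤ √(N:ℝ) := Real.one_le_sqrt.2 (by exact_mod_cast hN0)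
      linarith

/-- the resolvent far above the spectrum -/
theorem transform {a α : Fin r → ℝ} (hα : ∀ j, 0 < α j) {lam : ∀ N : ℕ, Fin N → ℝ} (h : Spec a α lam) {L c A : ℝ}
    (hL : ∀ᶠ N : ℕ in atTop, ∀ i, |lam N i| ≤ L) (hc : ∀ d, c < d → ∀ᶠ N : ℕ in atTop, ∀ i, lam N i ≤ d)
    (hA : ∀ j, a j ≤ A) (hA0 : 0 ≤ A) {w : ℝ} (hw : c + A < w)
    (hw2 : ∑ j, α j * a j ^ 2 < (w - c - A) ^ 2) :
    ∃ y, 0 < y ∧ y ≤ 1 / (w - c) ∧ (∀ j, y * a j < 1) ∧ w = Ka a α y ∧
      Tendsto (fun N : ℕ => (∑ i, 1 / (w - lam N i)) / (N:ℝ)) atTop (𝓝 y) := by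
  have hwc : c < w := by linarith
  have hden : ∀ y, 0 < y → y ≤ 1 / (w - c) → ∀ j, (w - c - A) / (w - c) ≤ 1 - y * a j := fun y hy hy' j => by
    rw [show (w - c - A) / (w - c) = 1 - 1 / (w - c) * A by rw [sub_div, div_self (show w - c ≠ 0 by linarith)]; ring]
    nlinarith [mul_le_mul_of_nonneg_left (hA j) hy.le, mul_le_mul_of_nonneg_right hy' hA0]
  have hd0 : 0 < (w - c - A) / (w - c) := div_pos (by linarith) (by linarith)
  have key : ∀ U : Ultrafilter ℕ, (U : Filter ℕ) ≤ atTop → ∃ y, 0 < y ∧ y ≤ 1 / (w - c) ∧ w = Ka a α y ∧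
      Tendsto (fun N : ℕ => (∑ i, 1 / (w - lam N i)) / (N:ℝ)) (U : Filter ℕ) (𝓝 y) := by
    intro U hU
    obtain ⟨μ, hμ, hlim, heq⟩ := cluster_eq h hL U hU fun d hd => hU (hc d hd)
    refine ⟨cauchy μ w, Multi.cauchy_pos hμ hwc, (Multi.cauchy_bounds hμ hwc).2, ?_, (hlim w hwc).1⟩
    refine (heq w hwc fun v hv j => ?_).1
    have hy := Multi.cauchy_pos hμ (hwc.trans_le hv)
    have := hden _ hy ((Multi.cauchy_anti hμ hwc hv).trans (Multi.cauchy_bounds hμ hwc).2) j
    linarith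
  have huniq : ∀ y y', 0 < y → y ≤ 1 / (w - c) → 0 < y' → y' ≤ 1 / (w - c) → Ka a α y = Ka a α y' → y = y' := by
    intro y y' hy hyb hy' hy'b hK
    set d := (w - c - A) / (w - c)
    have e : Ka a α y - Ka a α y' = (y' - y) * (1 / (y * y') -
        ∑ j, α j * a j ^ 2 / ((1 - y * a j) * (1 - y' * a j))) := by
      simp only [Ka, Ra]
      rw [mul_sub (y' - y), Finset.mul_sum, show (1 / y + ∑ j, α j * (a j / (1 - y * a j))) - (1 / y' + ∑ j, α j * (a j / (1 - y' * a j))) =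
        (1 / y - 1 / y') + ∑ j, (α j * (a j / (1 - y * a j)) - α j * (a j / (1 - y' * a j))) by
          rw [Finset.sum_sub_distrib]; ring, sub_eq_add_neg ((y' - y) * _), ← Finset.sum_neg_distrib]
      congr 1
      · field_simp
      · refine Finset.sum_congr rfl fun j _ => ?_
        have d1 : 0 < 1 - y * a j := hd0.trans_le (hden y hy hyb j)
        have d2 : 0 < 1 - y' * a j := hd0.trans_le (hden y' hy' hy'b j)
        generalize hD1 : 1 - y * a j = D1 at d1 ⊢
        generalize hD2 : 1 - y' * a j = D2 at d2 ⊢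
        rw [show α j * (a j / D1) - α j * (a j / D2) = α j * a j / (D1 * D2) * (D2 - D1) by field_simp]
        have e2 : D2 - D1 = (y - y') * a j := by rw [← hD1, ← hD2]; ring
        linear_combination (α j * a j / (D1 * D2)) * e2
    have hS : ∑ j, α j * a j ^ 2 / ((1 - y * a j) * (1 - y' * a j)) ≤ (∑ j, α j * a j ^ 2) / (d * d) := by
      rw [Finset.sum_div]
      refine Finset.sum_le_sum fun j _ => div_le_div_of_nonneg_left (mul_nonneg (hα j).le (sq_nonneg _))
        (mul_pos hd0 hd0) ?_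
      exact mul_le_mul (hden y hy hyb j) (hden y' hy' hy'b j) hd0.le (hd0.le.trans (hden y hy hyb j))
    have hlt : (∑ j, α j * a j ^ 2) / (d * d) < 1 / (y * y') := by
      have hwcA : 0 < w - c - A := by linarith
      have hwc' : 0 < w - c := by linarith
      refine lt_of_lt_of_le (b := (w - c) ^ 2) ?_ ?_
      · rw [div_lt_iff₀ (mul_pos hd0 hd0)]
        simp only [d]
        rwa [show (w - c) ^ 2 * ((w - c - A) / (w - c) * ((w - c - A) / (w - c))) = (w - c - A) ^ 2 by field_simp]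
      · rw [le_div_iff₀ (mul_pos hy hy')]
        have := mul_le_mul hyb hy'b hy'.le (one_div_nonneg.2 hwc'.le)
        calc (w - c) ^ 2 * (y * y') ≤ (w - c) ^ 2 * (1 / (w - c) * (1 / (w - c))) :=
              mul_le_mul_of_nonneg_left this (sq_nonneg _)
          _ = 1 := by field_simp
    rw [hK, sub_self, zero_eq_mul] at e
    rcases e with e | e
    · linarith
    · linarith
  obtain ⟨y, hy, hyb, hyK, -⟩ := key (Ultrafilter.of atTop) (Ultrafilter.of_le _)
  refine ⟨y, hy, hyb, fun j => by linarith [hden y hy hyb j], hyK, ?_⟩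
  rw [tendsto_iff_ultrafilter]
  intro U hU
  obtain ⟨y', hy', hyb', hyK', ht⟩ := key U hU
  rwa [huniq y y' hy hyb hy' hyb' (hyK.symm.trans hyK')]

end Vale.Agent.P166.Pattern.Signed
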