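import Vale.Agent.P166.Pattern.Multi.Resolvent

/-!
The spherical partition function of a weighted Wishart matrix with signed strengths: first moment,
second moment and concentration.
-/

open MeasureTheory ProbabilityTheory Filter Matrix
open scoped Topology

noncomputable section

namespace Vale.Agent.P166.Pattern.Signed

open Multi (Ks cs can cnt_can)

/-- orthonormal linear forms of a standard Gaussian vector are standard Gaussian -/
theorem map_orth {κ κ' : Type*} [Fintype κ] [Fintype κ'] [DecidableEq κ'] (c : κ' → κ → ℝ)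
    (hc : ∀ a b, ∑ k, c a k * c b k = if a = b then 1 else 0) :
    (gauss κ).map (fun x a => ∑ k, c a k * x k) = gauss κ' := by
  classical
  have hm : Measurable fun (x : κ → ℝ) (a : κ') => ∑ k, c a k * x k := by fun_prop
  refine Measure.ext_of_charFunDual (funext fun L => ?_)
  set e := fun a : κ' => L (Pi.single a 1)
  have hL : ∀ x : κ' → ℝ, L x = ∑ a, e a * x a := fun x => by
    conv_lhs => rw [pi_eq_sum_univ' x, map_sum]
    exact Finset.sum_congr rfl fun p _ => by rw [map_smul, smul_eq_mul, mul_comm]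
  set d := fun k => ∑ a, e a * c a k
  have hd : ∀ x : κ → ℝ, L (fun a => ∑ k, c a k * x k) = ∑ k, d k * x k := fun x => by
    rw [hL]
    simp only [d, Finset.sum_mul, Finset.mul_sum]
    rw [Finset.sum_comm]
    exact Finset.sum_congr rfl fun k _ => Finset.sum_congr rfl fun i _ => by ring
  have hsq : ∑ k, d k ^ 2 = ∑ a, e a ^ 2 := by
    simp only [d, sq, Finset.sum_mul_sum]
    rw [Finset.sum_comm]
    refine Finset.sum_congr rfl fun a _ => ?_
    rw [Finset.sum_comm]
    calc ∑ b, ∑ k, e a * c a k * (e b * c b k) = ∑ b, e a * e b * ∑ k, c a k * c b k :=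
          Finset.sum_congr rfl fun b _ => by
            rw [Finset.mul_sum]; exact Finset.sum_congr rfl fun k _ => by ring
      _ = _ := by simp [hc]
  rw [charFunDual_apply, charFunDual_apply, integral_map hm.aemeasurable (by fun_prop)]
  simp only [hd, hL]
  have h : ∀ {ι : Type _} [Fintype ι] (e : ι → ℝ),
      ∫ x, Complex.exp (((∑ p, e p * x p : ℝ) : ℂ) * Complex.I) ∂gauss ι =
        Complex.exp (-((∑ p, e p ^ 2 : ℝ) : ℂ) / 2) := fun e => by
    have h := charFun_linear e 1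
    rw [charFun_apply_real, integral_map (measurable_linear e).aemeasurable (by fun_prop)] at h
    simpa using h
  rw [h d, hsq]
  have h2 := charFun_linear e 1
  rw [charFun_apply_real, integral_map (measurable_linear e).aemeasurable (by fun_prop)] at h2
  simpa using h2.symm

variable {M N : ℕ}

lemma integral_exp_line {u : Fin N → ℝ} (hu : ∑ i, u i ^ 2 = 1) {θ : ℝ} (hθ : θ < 1 / 2) :
    Integrable (fun x => Real.exp (θ * (∑ i, u i * x i) ^ 2)) (gauss (Fin N)) ∧
      ∫ x, Real.exp (θ * (∑ i, u i * x i) ^ 2) ∂gauss (Fin N) = (√(1 - 2 * θ))⁻¹ :=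
  ⟨integrable_linear u hu (integrable_exp_sq hθ), by
    rw [show (∫ x, Real.exp (θ * (∑ i, u i * x i) ^ 2) ∂gauss (Fin N)) = ∫ t, Real.exp (θ * t ^ 2) ∂gaussianReal 0 1
      from integral_linear u hu (F := fun t => Real.exp (θ * t ^ 2)) (by fun_prop), integral_exp_sq hθ]⟩

/-- two Gaussian linear forms with correlation `q` -/
theorem pair_bound {u v : Fin N → ℝ} (hu : ∑ i, u i ^ 2 = 1) (hv : ∑ i, v i ^ 2 = 1) {θ : ℝ}
    (hθ : |θ| ≤ 1 / 6) :
    Integrable (fun x => Real.exp (θ * (∑ i, u i * x i) ^ 2 + θ * (∑ i, v i * x i) ^ 2)) (gauss (Fin N)) ∧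
      ∫ x, Real.exp (θ * (∑ i, u i * x i) ^ 2 + θ * (∑ i, v i * x i) ^ 2) ∂gauss (Fin N) ≤
        (1 - 2 * θ)⁻¹ * Real.exp (9 * θ ^ 2 * (∑ i, u i * v i) ^ 2) := by
  have hθ' := abs_le.1 hθ
  set q := ∑ i, u i * v i
  have hq1 : |q| ≤ 1 := abs_dot_le_one hu hv
  have hb : 0 < 1 - 2 * θ := by linarith
  set r := (2 * θ * q / (1 - 2 * θ)) ^ 2
  have hr : r ≤ 9 * θ ^ 2 * q ^ 2 := by
    simp only [r]
    rw [div_pow, div_le_iff₀ (pow_pos hb 2), mul_pow, mul_pow]
    nlinarith [mul_le_mul_of_nonneg_left (show (4:ℝ) / 9 ≤ (1 - 2 * θ) ^ 2 by nlinarith)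
      (show 0 ≤ 9 * θ ^ 2 * q ^ 2 by positivity)]
  have hq2 : q ^ 2 ≤ 1 := (sq_le_one_iff_abs_le_one q).2 hq1
  have hr2 : r ≤ 1 / 4 := by nlinarith [sq_abs θ, abs_nonneg θ, sq_nonneg q, sq_nonneg θ]
  have hfinal : (√((1 - 2 * θ * (1 + q)) * (1 - 2 * θ * (1 - q))))⁻¹ ≤
      (1 - 2 * θ)⁻¹ * Real.exp (9 * θ ^ 2 * q ^ 2) := by
    have e : (1 - 2 * θ * (1 + q)) * (1 - 2 * θ * (1 - q)) = (1 - 2 * θ) * (1 - 2 * θ) * (1 - r) := by
      simp only [r]; field_simp; ring
    rw [e, Real.sqrt_mul (mul_self_nonneg _), Real.sqrt_mul_self hb.le, mul_inv]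
    refine mul_le_mul_of_nonneg_left ?_ (inv_nonneg.2 hb.le)
    refine le_trans ?_ (Real.exp_le_exp.2 hr)
    have hr0 : 0 ≤ r := sq_nonneg _
    rw [inv_le_comm₀ (Real.sqrt_pos.2 (by linarith)) (Real.exp_pos _), ← Real.exp_neg,
      Real.le_sqrt (Real.exp_pos _).le (by linarith), sq, ← Real.exp_add,
      show -r + -r = -(2 * r) by ring, Real.exp_neg, inv_le_iff_one_le_mul₀ (Real.exp_pos _)]
    nlinarith [mul_le_mul_of_nonneg_left (Real.add_one_le_exp (2 * r)) (show 0 ≤ 1 - r by linarith)]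
  have hsum : ∑ i, (v i - q * u i) ^ 2 = 1 - q ^ 2 := by
    have e : ∀ i, (v i - q * u i) ^ 2 = v i ^ 2 - 2 * q * (u i * v i) + q ^ 2 * u i ^ 2 := fun i => by ring
    simp only [e, Finset.sum_add_distrib, Finset.sum_sub_distrib, ← Finset.mul_sum, hu, hv, q]
    ring
  rcases eq_or_lt_of_le hq2 with h | h
  · have hvu : ∀ i, v i = q * u i := fun i => by
      have := (Finset.sum_eq_zero_iff_of_nonneg (fun i _ => sq_nonneg (v i - q * u i))).1
        (by rw [hsum, h, sub_self]) i (Finset.mem_univ i)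
      have := pow_eq_zero_iff two_ne_zero |>.1 this
      linarith
    have e : ∀ x : Fin N → ℝ, θ * (∑ i, u i * x i) ^ 2 + θ * (∑ i, v i * x i) ^ 2 =
        2 * θ * (∑ i, u i * x i) ^ 2 := fun x => by
      simp only [hvu, mul_assoc, ← Finset.mul_sum, mul_pow, h]
      ring
    simp only [e]
    obtain ⟨hi, he⟩ := integral_exp_line hu (θ := 2 * θ) (by linarith)
    refine ⟨hi, ?_⟩
    rw [he]
    refine le_trans (le_of_eq ?_) hfinal
    have hq : q = 1 ∨ q = -1 := sq_eq_one_iff.1 h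
    rcases hq with h1 | h1 <;> rw [h1] <;> ring_nf
  · have hp : 0 < 1 + q := by nlinarith [abs_le.1 hq1]
    have hm : 0 < 1 - q := by nlinarith [abs_le.1 hq1]
    set P := √(2 * (1 + q))
    set R := √(2 * (1 - q))
    have hP : 0 < P := Real.sqrt_pos.2 (by linarith)
    have hR : 0 < R := Real.sqrt_pos.2 (by linarith)
    have hPP : P * P = 2 * (1 + q) := Real.mul_self_sqrt (by linarith)
    have hRR : R * R = 2 * (1 - q) := Real.mul_self_sqrt (by linarith)
    set c : Fin 2 → Fin N → ℝ := ![fun i => (u i + v i) / P, fun i => (u i - v i) / R]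
    have huu : ∑ i, u i * u i = 1 := by simpa [sq] using hu
    have hvv : ∑ i, v i * v i = 1 := by simpa [sq] using hv
    have hvu : ∑ i, v i * u i = q := Finset.sum_congr rfl fun i _ => mul_comm _ _
    have hc : ∀ a b, ∑ k, c a k * c b k = if a = b then 1 else 0 := by
      intro a b
      fin_cases a <;> fin_cases b <;> simp [c, div_mul_div_comm, ← Finset.sum_div, add_mul, mul_add, sub_mul,
        mul_sub, Finset.sum_add_distrib, Finset.sum_sub_distrib, huu, hvv, hvu]
      · rw [show ∑ i, u i * v i = q from rfl, hPP]; field_simp; ring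
      · left; ring
      · left; ring
      · rw [show ∑ i, u i * v i = q from rfl, hRR]; field_simp; ring
    have hmap := map_orth c hc
    set F : Fin 2 → ℝ → ℝ := ![fun t => Real.exp (θ * (1 + q) * t ^ 2), fun t => Real.exp (θ * (1 - q) * t ^ 2)]
    have hF0 : θ * (1 + q) < 1 / 2 := by nlinarith [mul_le_mul_of_nonneg_right hθ'.2 hp.le, abs_le.1 hq1]
    have hF1 : θ * (1 - q) < 1 / 2 := by nlinarith [mul_le_mul_of_nonneg_right hθ'.2 hm.le, abs_le.1 hq1]
    have hFi : ∀ a, Integrable (F a) (gaussianReal 0 1) := fun a => by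
      fin_cases a
      · exact integrable_exp_sq hF0
      · exact integrable_exp_sq hF1
    have hG : Integrable (fun t : Fin 2 → ℝ => ∏ a, F a (t a)) (gauss (Fin 2)) :=
      Integrable.fintype_prod hFi
    have hmeas : Measurable fun (x : Fin N → ℝ) (a : Fin 2) => ∑ k, c a k * x k := by fun_prop
    have e : ∀ x : Fin N → ℝ, Real.exp (θ * (∑ i, u i * x i) ^ 2 + θ * (∑ i, v i * x i) ^ 2) =
        ∏ a, F a (∑ k, c a k * x k) := fun x => by
      rw [Fin.prod_univ_two]
      simp only [F, c, Matrix.cons_val_zero, Matrix.cons_val_one, ← Real.exp_add]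
      congr 1
      simp only [div_mul_eq_mul_div, ← Finset.sum_div, div_pow, add_mul, sub_mul, Finset.sum_add_distrib,
        Finset.sum_sub_distrib, sq P, sq R, hPP, hRR]
      field_simp
      ring
    simp only [e]
    rw [← hmap] at hG
    refine ⟨(integrable_map_measure hG.aestronglyMeasurable hmeas.aemeasurable).1 hG, ?_⟩
    rw [← integral_map (f := fun t : Fin 2 → ℝ => ∏ a, F a (t a)) hmeas.aemeasurable hG.aestronglyMeasurable, hmap,
      gauss, integral_fintype_prod_eq_prod, Fin.prod_univ_two]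
    simp only [F, Matrix.cons_val_zero, Matrix.cons_val_one]
    rw [integral_exp_sq hF0, integral_exp_sq hF1, ← mul_inv, ← Real.sqrt_mul (by linarith)]
    refine le_trans (le_of_eq ?_) hfinal
    congr 3 <;> ring

/-- radial projection onto the sphere of radius `√N` -/
def Sv (y : Fin N → ℝ) : Fin N → ℝ := fun i => √(N:ℝ) * y i / √(∑ j, y j ^ 2)

/-- width of the shell -/
def wid (N : ℕ) : ℝ := (N:ℝ) / √(√(N:ℝ))

/-- the shell around the sphere of radius `√N` -/
def shell (N : ℕ) : Set (Fin N → ℝ) := {y | |∑ i, y i ^ 2 - N| ≤ wid N}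

/-- spherical partition function of the weighted Wishart matrix -/
def Zs (s : ℝ) (c : Fin M → ℝ) (g : Fin M × Fin N → ℝ) : ℝ :=
  ∫ y, (shell N).indicator
    (fun y => Real.exp (∑ m, s * c m / 2 * ((∑ i, g (m, i) * Sv y i) ^ 2 / N))) y ∂gauss (Fin N)

lemma measurable_Sv : Measurable (Sv (N := N)) := by unfold Sv; fun_prop

lemma measurableSet_shell : MeasurableSet (shell N) :=
  measurableSet_le (by fun_prop) measurable_const

lemma sum_Sv_sq_le (y : Fin N → ℝ) : ∑ i, Sv y i ^ 2 ≤ N := by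
  simp only [Sv, div_pow, mul_pow, Real.sq_sqrt (Nat.cast_nonneg N),
    Real.sq_sqrt (Finset.sum_nonneg fun j _ => sq_nonneg (y j)), ← Finset.sum_div, ← Finset.mul_sum]
  exact div_le_of_le_mul₀ (Finset.sum_nonneg fun j _ => sq_nonneg _) (Nat.cast_nonneg N) le_rfl

lemma sum_Sv_sq {y : Fin N → ℝ} (hy : ∑ i, y i ^ 2 ≠ 0) : ∑ i, Sv y i ^ 2 = N := by
  simp only [Sv, div_pow, mul_pow, Real.sq_sqrt (Nat.cast_nonneg N),
    Real.sq_sqrt (Finset.sum_nonneg fun j _ => sq_nonneg (y j)), ← Finset.sum_div, ← Finset.mul_sum]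
  field_simp

lemma wid_lt (hN : 1 < N) : wid N < N := by
  refine div_lt_self (by exact_mod_cast (by omega : 0 < N)) ?_
  rw [Real.lt_sqrt zero_le_one, one_pow, Real.lt_sqrt zero_le_one, one_pow]
  exact_mod_cast hN

lemma shell_ne_zero (hN : 1 < N) {y : Fin N → ℝ} (hy : y ∈ shell N) : ∑ i, y i ^ 2 ≠ 0 := by
  intro h
  have hy' : |∑ i, y i ^ 2 - N| ≤ wid N := hy
  rw [h, zero_sub, abs_neg, Nat.abs_cast] at hy'
  linarith [wid_lt hN]

lemma form_le (y : Fin N → ℝ) (g : Fin M × Fin N → ℝ) (m : Fin M) :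
    (∑ i, g (m, i) * Sv y i) ^ 2 / N ≤ ∑ i, g (m, i) ^ 2 := by
  refine div_le_of_le_mul₀ (Nat.cast_nonneg N) (Finset.sum_nonneg fun i _ => sq_nonneg _) ?_
  refine (Finset.sum_mul_sq_le_sq_mul_sq _ _ _).trans ?_
  exact mul_le_mul_of_nonneg_left (sum_Sv_sq_le y) (Finset.sum_nonneg fun i _ => sq_nonneg _)

lemma expo_abs_le (s : ℝ) (c : Fin M → ℝ) (g : Fin M × Fin N → ℝ) (y : Fin N → ℝ) :
    |∑ m, s * c m / 2 * ((∑ i, g (m, i) * Sv y i) ^ 2 / N)| ≤ ∑ m, |s * c m / 2| * ∑ i, g (m, i) ^ 2 := by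
  refine (Finset.abs_sum_le_sum_abs _ _).trans (Finset.sum_le_sum fun m _ => ?_)
  rw [abs_mul, abs_of_nonneg (a := (∑ i, g (m, i) * Sv y i) ^ 2 / (N:ℝ))
    (div_nonneg (sq_nonneg _) (Nat.cast_nonneg N))]
  exact mul_le_mul_of_nonneg_left (form_le y g m) (abs_nonneg _)

lemma measurable_expo (s : ℝ) (c : Fin M → ℝ) : Measurable fun p : (Fin M × Fin N → ℝ) × (Fin N → ℝ) =>
    (shell N).indicator (fun y => Real.exp (∑ m, s * c m / 2 * ((∑ i, p.1 (m, i) * Sv y i) ^ 2 / N))) p.2 := by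
  have h : (fun p : (Fin M × Fin N → ℝ) × (Fin N → ℝ) =>
      (shell N).indicator (fun y => Real.exp (∑ m, s * c m / 2 * ((∑ i, p.1 (m, i) * Sv y i) ^ 2 / N))) p.2) =
      ((fun p : (Fin M × Fin N → ℝ) × (Fin N → ℝ) => p.2) ⁻¹' shell N).indicator
        fun p => Real.exp (∑ m, s * c m / 2 * ((∑ i, p.1 (m, i) * Sv p.2 i) ^ 2 / N)) := by
    funext p
    by_cases hp : p.2 ∈ shell N
    · rw [Set.indicator_of_mem hp, Set.indicator_of_mem (Set.mem_preimage.2 hp)]
    · rw [Set.indicator_of_notMem hp, Set.indicator_of_notMem (fun h => hp (Set.mem_preimage.1 h))]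
  rw [h]
  refine Measurable.indicator ?_ (measurable_snd measurableSet_shell)
  unfold Sv
  fun_prop

lemma measurable_Zs (s : ℝ) (c : Fin M → ℝ) : Measurable (Zs (N := N) s c) :=
  (measurable_expo s c).stronglyMeasurable.integral_prod_right'.measurable

lemma integrable_expo (s : ℝ) (c : Fin M → ℝ) (g : Fin M × Fin N → ℝ) :
    Integrable ((shell N).indicator
      fun y => Real.exp (∑ m, s * c m / 2 * ((∑ i, g (m, i) * Sv y i) ^ 2 / N))) (gauss (Fin N)) := by
  refine Integrable.of_bound (((measurable_expo s c).comp (measurable_const.prodMk measurable_id)).aestronglyMeasurable)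
    (Real.exp (∑ m, |s * c m / 2| * ∑ i, g (m, i) ^ 2)) (.of_forall fun y => ?_)
  rw [Real.norm_eq_abs, abs_of_nonneg (Set.indicator_nonneg (fun _ _ => (Real.exp_pos _).le) _)]
  exact Set.indicator_le' (fun y _ => Real.exp_le_exp.2 ((le_abs_self _).trans (expo_abs_le s c g y)))
    (fun _ _ => (Real.exp_pos _).le) _

lemma Zs_bounds (s : ℝ) (c : Fin M → ℝ) (g : Fin M × Fin N → ℝ) :
    (gauss (Fin N)).real (shell N) * Real.exp (-∑ m, |s * c m / 2| * ∑ i, g (m, i) ^ 2) ≤ Zs s c g ∧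
      Zs s c g ≤ (gauss (Fin N)).real (shell N) * Real.exp (∑ m, |s * c m / 2| * ∑ i, g (m, i) ^ 2) := by
  have hi : ∀ a : ℝ, Integrable ((shell N).indicator fun _ => a) (gauss (Fin N)) := fun a =>
    (integrable_const a).indicator measurableSet_shell
  constructor
  · rw [← smul_eq_mul, ← integral_indicator_const _ measurableSet_shell]
    exact integral_mono (hi _) (integrable_expo s c g)
      (fun y => Set.indicator_le_indicator (Real.exp_le_exp.2 (abs_le.1 (expo_abs_le s c g y)).1))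
  · rw [← smul_eq_mul, ← integral_indicator_const _ measurableSet_shell]
    exact integral_mono (integrable_expo s c g) (hi _)
      (fun y => Set.indicator_le_indicator (Real.exp_le_exp.2 (abs_le.1 (expo_abs_le s c g y)).2))

/-- annealed value -/
def ann (s : ℝ) (c : Fin M → ℝ) : ℝ := ∏ m, (√(1 - s * c m))⁻¹

lemma ann_pos {s : ℝ} {c : Fin M → ℝ} (hc : ∀ m, s * c m < 1) : 0 < ann s c :=
  Finset.prod_pos fun m _ => inv_pos.2 (Real.sqrt_pos.2 (sub_pos.2 (hc m)))

lemma annealed {u : Fin N → ℝ} (hu : ∑ i, u i ^ 2 = 1) {s : ℝ} {c : Fin M → ℝ} (hc : ∀ m, s * c m < 1) :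
    Integrable (fun g => Real.exp (∑ m, s * c m / 2 * (∑ i, u i * g (m, i)) ^ 2)) (gauss (Fin M × Fin N)) ∧
      ∫ g, Real.exp (∑ m, s * c m / 2 * (∑ i, u i * g (m, i)) ^ 2) ∂gauss (Fin M × Fin N) = ann s c := by
  have h := mp_uncurry (Fin N) M
  have hi : Integrable (fun g : Fin M → Fin N → ℝ =>
      ∏ m, Real.exp (s * c m / 2 * (∑ i, u i * g m i) ^ 2)) (pats (Fin N) M) :=
    Integrable.fintype_prod fun m => (integral_exp_line hu (θ := s * c m / 2) (by linarith [hc m])).1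
  refine ⟨?_, ?_⟩
  · have hm : AEStronglyMeasurable (fun g : Fin M × Fin N → ℝ =>
        Real.exp (∑ m, s * c m / 2 * (∑ i, u i * g (m, i)) ^ 2)) (gauss (Fin M × Fin N)) :=
      (Continuous.aestronglyMeasurable (by fun_prop))
    refine (h.integrable_comp hm).1 (hi.congr (.of_forall fun g => ?_))
    simp only [Function.comp_def, Real.exp_sum]
  · rw [← h.map_eq, integral_map h.measurable.aemeasurable (Continuous.aestronglyMeasurable (by fun_prop))]
    simp only [Real.exp_sum, pats]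
    rw [integral_fintype_prod_eq_prod (fun m (x : Fin N → ℝ) => Real.exp (s * c m / 2 * (∑ i, u i * x i) ^ 2))]
    refine Finset.prod_congr rfl fun m _ => ?_
    rw [(integral_exp_line hu (θ := s * c m / 2) (by linarith [hc m])).2]
    congr 2
    ring

/-- unit vector of a nonzero point -/
lemma unit_Sv {y : Fin N → ℝ} (hy : ∑ i, y i ^ 2 ≠ 0) : ∑ i, (Sv y i / √(N:ℝ)) ^ 2 = 1 := by
  simp only [div_pow, ← Finset.sum_div, sum_Sv_sq hy, Real.sq_sqrt (Nat.cast_nonneg N)]
  refine div_self fun h => hy ?_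
  have : N = 0 := by exact_mod_cast h
  subst this
  simp

lemma form_eq (y : Fin N → ℝ) (g : Fin M × Fin N → ℝ) (m : Fin M) :
    (∑ i, g (m, i) * Sv y i) ^ 2 / N = (∑ i, Sv y i / √(N:ℝ) * g (m, i)) ^ 2 := by
  simp only [div_mul_eq_mul_div, ← Finset.sum_div, div_pow, Real.sq_sqrt (Nat.cast_nonneg N)]
  congr 2
  exact Finset.sum_congr rfl fun i _ => mul_comm _ _

theorem mean_Zs (hN : 1 < N) {s : ℝ} {c : Fin M → ℝ} (hc : ∀ m, s * c m < 1) :
    Integrable (Zs (N := N) s c) (gauss (Fin M × Fin N)) ∧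
      ∫ g, Zs s c g ∂gauss (Fin M × Fin N) = (gauss (Fin N)).real (shell N) * ann s c := by
  set f := fun (p : (Fin M × Fin N → ℝ) × (Fin N → ℝ)) =>
    (shell N).indicator (fun y => Real.exp (∑ m, s * c m / 2 * ((∑ i, p.1 (m, i) * Sv y i) ^ 2 / N))) p.2
  have hy : ∀ y, ∫ g, f (g, y) ∂gauss (Fin M × Fin N) = (shell N).indicator (fun _ => ann s c) y ∧
      Integrable (fun g => f (g, y)) (gauss (Fin M × Fin N)) := fun y => by
    by_cases hy : y ∈ shell N
    · simp only [f, Set.indicator_of_mem hy, form_eq]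
      obtain ⟨h1, h2⟩ := annealed (unit_Sv (shell_ne_zero hN hy)) hc
      exact ⟨h2, h1⟩
    · simp [f, Set.indicator_of_notMem hy]
  have hint : Integrable f ((gauss (Fin M × Fin N)).prod (gauss (Fin N))) := by
    refine (integrable_prod_iff' (measurable_expo s c).aestronglyMeasurable).2
      ⟨.of_forall fun y => (hy y).2, ?_⟩
    refine ((integrable_const (ann s c)).indicator measurableSet_shell).congr (.of_forall fun y => ?_)
    rw [← (hy y).1]
    refine integral_congr_ae (.of_forall fun g => ?_)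
    exact (abs_of_nonneg (Set.indicator_nonneg (fun _ _ => (Real.exp_pos _).le) _)).symm
  refine ⟨hint.integral_prod_left, ?_⟩
  show ∫ g, ∫ y, f (g, y) ∂gauss (Fin N) ∂gauss (Fin M × Fin N) = _
  rw [integral_integral_swap hint]
  simp only [(hy _).1]
  rw [integral_indicator_const _ measurableSet_shell, smul_eq_mul]

/-- overlap integral -/
lemma overlap_bound (hN : 0 < N) {κ : ℝ} (hκ0 : 0 ≤ κ) (hκ : κ ≤ 9 / 100) {u : Fin N → ℝ}
    (hu : ∑ i, u i ^ 2 = 1) :
    Integrable (fun y => Real.exp (κ * (∑ i, u i * Sv y i) ^ 2)) (gauss (Fin N)) ∧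
      ∫ y, Real.exp (κ * (∑ i, u i * Sv y i) ^ 2) ∂gauss (Fin N) ≤ 3 := by
  have hN' : (0:ℝ) < N := by exact_mod_cast hN
  have hb : ∀ y, (∑ i, u i * Sv y i) ^ 2 ≤ N := fun y =>
    ((Finset.sum_mul_sq_le_sq_mul_sq _ _ _).trans (by rw [hu, one_mul])).trans (sum_Sv_sq_le y)
  have hi : Integrable (fun y => Real.exp (κ * (∑ i, u i * Sv y i) ^ 2)) (gauss (Fin N)) := by
    refine Integrable.of_bound (Measurable.aestronglyMeasurable (by unfold Sv; fun_prop)) (Real.exp (κ * N))
      (.of_forall fun y => ?_)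
    rw [Real.norm_eq_abs, abs_of_pos (Real.exp_pos _)]
    exact Real.exp_le_exp.2 (mul_le_mul_of_nonneg_left (hb y) hκ0)
  refine ⟨hi, ?_⟩
  obtain ⟨i1, e1⟩ := integral_exp_line hu (θ := 2 * κ) (by linarith)
  have i2' : Integrable (fun y : Fin N → ℝ => ∏ i, Real.exp (-(1 / 2) * y i ^ 2)) (gauss (Fin N)) :=
    Integrable.fintype_prod fun i => integrable_exp_sq (by norm_num)
  have i2 : Integrable (fun y : Fin N → ℝ => Real.exp (κ * N + N / 4) * ∏ i, Real.exp (-(1 / 2) * y i ^ 2))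
      (gauss (Fin N)) := i2'.const_mul _
  refine (integral_mono hi (i1.add i2) fun y => ?_).trans ?_
  · simp only [Pi.add_apply]
    by_cases hy : (N:ℝ) / 2 ≤ ∑ i, y i ^ 2
    · refine le_add_of_le_of_nonneg (Real.exp_le_exp.2 ?_)
        (mul_nonneg (Real.exp_pos _).le (Finset.prod_nonneg fun i _ => (Real.exp_pos _).le))
      have e : (∑ i, u i * Sv y i) ^ 2 = N / (∑ i, y i ^ 2) * (∑ i, u i * y i) ^ 2 := by
        simp only [Sv, ← mul_div_assoc, ← Finset.sum_div, div_pow,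
          Real.sq_sqrt (Finset.sum_nonneg fun j _ => sq_nonneg (y j))]
        rw [show ∑ i, u i * (√(N:ℝ) * y i) = √(N:ℝ) * ∑ i, u i * y i by
          rw [Finset.mul_sum]; exact Finset.sum_congr rfl fun i _ => by ring, mul_pow,
          Real.sq_sqrt hN'.le]
        ring
      rw [e, ← mul_assoc]
      refine mul_le_mul_of_nonneg_right ?_ (sq_nonneg _)
      rw [mul_comm 2 κ]
      refine mul_le_mul_of_nonneg_left ?_ hκ0
      rw [div_le_iff₀ (lt_of_lt_of_le (by positivity) hy)]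
      linarith
    · refine le_add_of_nonneg_of_le (Real.exp_pos _).le ?_
      rw [← Real.exp_sum, ← Real.exp_add, ← Finset.mul_sum]
      refine Real.exp_le_exp.2 ?_
      nlinarith [mul_le_mul_of_nonneg_left (hb y) hκ0, not_le.1 hy]
  · rw [integral_add' i1 i2, e1, integral_const_mul, gauss,
      integral_fintype_prod_eq_prod (fun _ (t : ℝ) => Real.exp (-(1 / 2) * t ^ 2))]
    simp only [integral_exp_sq (show -(1 / 2 : ℝ) < 1 / 2 by norm_num), Finset.prod_const, Finset.card_univ,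
      Fintype.card_fin]
    have h1 : (√(1 - 2 * (2 * κ)))⁻¹ ≤ 2 := by
      rw [inv_le_comm₀ (Real.sqrt_pos.2 (by linarith)) (by norm_num), Real.le_sqrt (by norm_num) (by linarith)]
      linarith
    have h2 : Real.exp (κ * N + N / 4) * ((√(1 - 2 * -(1 / 2 : ℝ)))⁻¹) ^ N ≤ 1 := by
      rw [show κ * N + (N:ℝ) / 4 = (N:ℝ) * (κ + 1 / 4) by ring, Real.exp_nat_mul, ← mul_pow]
      refine pow_le_one₀ (by positivity) ?_
      rw [← div_eq_mul_inv, div_le_one (by norm_num), Real.le_sqrt (Real.exp_pos _).le (by norm_num), sq,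
        ← Real.exp_add, show (1:ℝ) - 2 * -(1 / 2) = 2 by norm_num, ← Real.le_log_iff_exp_le two_pos]
      linarith [Real.log_two_gt_d9]
    linarith

/-- overlap weight of two points -/
def Kov (κ : ℝ) (p : (Fin N → ℝ) × (Fin N → ℝ)) : ℝ :=
  if ∑ i, p.1 i ^ 2 = 0 then 1 else Real.exp (κ * (∑ i, Sv p.1 i / √(N:ℝ) * Sv p.2 i) ^ 2)

/-- integrand of the second moment -/
def Fov (s : ℝ) (c : Fin M → ℝ) (q : (Fin M × Fin N → ℝ) × (Fin N → ℝ) × (Fin N → ℝ)) : ℝ :=
  (shell N).indicator (fun y => Real.exp (∑ m, s * c m / 2 * ((∑ i, q.1 (m, i) * Sv y i) ^ 2 / N))) q.2.1 *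
    (shell N).indicator (fun y => Real.exp (∑ m, s * c m / 2 * ((∑ i, q.1 (m, i) * Sv y i) ^ 2 / N))) q.2.2

lemma Kov_nonneg (κ : ℝ) (p : (Fin N → ℝ) × (Fin N → ℝ)) : 0 ≤ Kov κ p := by
  unfold Kov; split <;> positivity

lemma measurable_Fov (s : ℝ) (c : Fin M → ℝ) : Measurable (Fov (N := N) s c) := by
  have h1 : Measurable fun q : (Fin M × Fin N → ℝ) × (Fin N → ℝ) × (Fin N → ℝ) => (q.1, q.2.1) := by fun_prop
  have h2 : Measurable fun q : (Fin M × Fin N → ℝ) × (Fin N → ℝ) × (Fin N → ℝ) => (q.1, q.2.2) := by fun_prop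
  have a1 := (measurable_expo (M := M) (N := N) s c).comp h1
  have a2 := (measurable_expo (M := M) (N := N) s c).comp h2
  simp only [Function.comp_def] at a1 a2
  exact a1.fun_mul a2

lemma pair_mean (hN : 1 < N) {s : ℝ} {c : Fin M → ℝ} (hc : ∀ m, |s * c m| ≤ 1 / 3)
    (p : (Fin N → ℝ) × (Fin N → ℝ)) :
    Integrable (fun g => Fov s c (g, p)) (gauss (Fin M × Fin N)) ∧
      ∫ g, Fov s c (g, p) ∂gauss (Fin M × Fin N) ≤
        ann s c ^ 2 * Kov (9 / 4 * (∑ m, (s * c m) ^ 2) / N) p := by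
  have hN0 : (0:ℝ) < N := by exact_mod_cast (show 0 < N by omega)
  have hcc : ∀ m, s * c m < 1 := fun m => by linarith [(abs_le.1 (hc m)).2]
  set κ := 9 / 4 * (∑ m, (s * c m) ^ 2) / N
  have hA : 0 ≤ ann s c ^ 2 := sq_nonneg _
  have hm := measurable_Fov (M := M) (N := N) s c
  have hK := Kov_nonneg κ p
  by_cases h1 : p.1 ∈ shell N
  swap
  · have : ∀ g, Fov s c (g, p) = 0 := fun g => by simp [Fov, Set.indicator_of_notMem h1]
    simp only [this]
    exact ⟨integrable_zero _ _ _, by simp only [integral_zero]; positivity⟩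
  by_cases h2 : p.2 ∈ shell N
  swap
  · have : ∀ g, Fov s c (g, p) = 0 := fun g => by simp [Fov, Set.indicator_of_notMem h2]
    simp only [this]
    exact ⟨integrable_zero _ _ _, by simp only [integral_zero]; positivity⟩
  have hn1 := shell_ne_zero hN h1
  set u := fun i => Sv p.1 i / √(N:ℝ)
  set v := fun i => Sv p.2 i / √(N:ℝ)
  have hu : ∑ i, u i ^ 2 = 1 := unit_Sv hn1
  have hv : ∑ i, v i ^ 2 = 1 := unit_Sv (shell_ne_zero hN h2)
  set G := fun (m : Fin M) (x : Fin N → ℝ) =>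
    Real.exp (s * c m / 2 * (∑ i, u i * x i) ^ 2 + s * c m / 2 * (∑ i, v i * x i) ^ 2)
  have hG : ∀ m, Integrable (G m) (gauss (Fin N)) ∧ ∫ x, G m x ∂gauss (Fin N) ≤
      (1 - 2 * (s * c m / 2))⁻¹ * Real.exp (9 * (s * c m / 2) ^ 2 * (∑ i, u i * v i) ^ 2) := fun m =>
    pair_bound hu hv (by rw [abs_div, abs_two]; linarith [hc m])
  have e : ∀ g : Fin M → Fin N → ℝ, Fov s c (fun q => g q.1 q.2, p) = ∏ m, G m (g m) := fun g => by
    have fe : ∀ (y : Fin N → ℝ) (x : Fin M), (∑ i, g x i * Sv y i) ^ 2 / N = (∑ i, Sv y i / √(N:ℝ) * g x i) ^ 2 :=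
      fun y x => form_eq y (fun q => g q.1 q.2) x
    simp only [Fov, G, Set.indicator_of_mem h1, Set.indicator_of_mem h2, ← Real.exp_add, ← Real.exp_sum,
      fe, ← Finset.sum_add_distrib, u, v]
  have h := mp_uncurry (Fin N) M
  have hmF : AEStronglyMeasurable (fun g => Fov s c (g, p)) (gauss (Fin M × Fin N)) :=
    (hm.comp (measurable_id.prodMk measurable_const)).aestronglyMeasurable
  refine ⟨(h.integrable_comp hmF).1 ((Integrable.fintype_prod fun m => (hG m).1).congr
    (.of_forall fun g => (e g).symm)), ?_⟩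
  rw [← h.map_eq, integral_map h.measurable.aemeasurable (by rw [h.map_eq]; exact hmF)]
  simp only [e, pats]
  rw [integral_fintype_prod_eq_prod G]
  refine (Finset.prod_le_prod (fun m _ => integral_nonneg fun x => (Real.exp_pos _).le)
    fun m _ => (hG m).2).trans (le_of_eq ?_)
  rw [Finset.prod_mul_distrib, ← Real.exp_sum]
  congr 1
  · rw [ann, ← Finset.prod_pow]
    refine Finset.prod_congr rfl fun m _ => ?_
    rw [inv_pow, Real.sq_sqrt (by linarith [hcc m])]
    congr 1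
    ring
  · simp only [Kov, if_neg hn1]
    congr 1
    simp only [κ, u, v, ← Finset.sum_mul]
    have e2 : ∑ i, Sv p.1 i / √(N:ℝ) * (Sv p.2 i / √(N:ℝ)) = (∑ i, Sv p.1 i / √(N:ℝ) * Sv p.2 i) / √(N:ℝ) := by
      rw [Finset.sum_div]; exact Finset.sum_congr rfl fun i _ => by ring
    rw [e2, div_pow (∑ i, Sv p.1 i / √(N:ℝ) * Sv p.2 i), Real.sq_sqrt hN0.le,
      show ∑ m, 9 * (s * c m / 2) ^ 2 = 9 / 4 * ∑ m, (s * c m) ^ 2 by
        rw [Finset.mul_sum]; exact Finset.sum_congr rfl fun m _ => by ring]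
    ring

theorem second_Zs (hN : 1 < N) {s : ℝ} {c : Fin M → ℝ} (hc : ∀ m, |s * c m| ≤ 1 / 3)
    (hκ : 9 / 4 * (∑ m, (s * c m) ^ 2) ≤ 9 / 100 * N) :
    Integrable (fun g => Zs (N := N) s c g ^ 2) (gauss (Fin M × Fin N)) ∧
      ∫ g, Zs s c g ^ 2 ∂gauss (Fin M × Fin N) ≤ 3 * ann s c ^ 2 := by
  have hN0 : (0:ℝ) < N := by exact_mod_cast (show 0 < N by omega)
  have hf0 : ∀ q : (Fin M × Fin N → ℝ) × (Fin N → ℝ) × (Fin N → ℝ), 0 ≤ Fov s c q := fun q =>
    mul_nonneg (Set.indicator_nonneg (fun _ _ => (Real.exp_pos _).le) _)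
      (Set.indicator_nonneg (fun _ _ => (Real.exp_pos _).le) _)
  set μ := (gauss (Fin N)).prod (gauss (Fin N))
  have hm := measurable_Fov (M := M) (N := N) s c
  set κ := 9 / 4 * (∑ m, (s * c m) ^ 2) / N
  have hκ0 : 0 ≤ κ := by positivity
  have hκ1 : κ ≤ 9 / 100 := by simp only [κ]; rw [div_le_iff₀ hN0]; exact hκ
  have hA : 0 ≤ ann s c ^ 2 := sq_nonneg _
  have hp := pair_mean (N := N) hN hc
  have hKm : Measurable (Kov (N := N) κ) := by
    refine Measurable.ite (measurableSet_eq_fun (by fun_prop) measurable_const) measurable_const ?_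
    unfold Sv
    fun_prop
  have hKy : ∀ y, Integrable (fun y' => Kov κ (y, y')) (gauss (Fin N)) ∧ ∫ y', Kov κ (y, y') ∂gauss (Fin N) ≤ 3 := fun y => by
    by_cases hy : ∑ i, y i ^ 2 = 0
    · simp only [Kov, if_pos hy]
      exact ⟨integrable_const _, by simp⟩
    · simp only [Kov, if_neg hy]
      exact overlap_bound (by omega) hκ0 hκ1 (unit_Sv hy)
  have hK0 := Kov_nonneg (N := N) κ
  have hKi : Integrable (Kov (N := N) κ) μ := by
    refine (integrable_prod_iff hKm.aestronglyMeasurable).2 ⟨.of_forall fun y => (hKy y).1, ?_⟩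
    refine Integrable.of_bound (hKm.norm.stronglyMeasurable.integral_prod_right').aestronglyMeasurable 3
      (.of_forall fun y => ?_)
    rw [Real.norm_eq_abs, abs_of_nonneg (integral_nonneg fun _ => norm_nonneg _)]
    simp only [Real.norm_eq_abs, abs_of_nonneg (hK0 _)]
    exact (hKy y).2
  have hFi : Integrable (Fov (N := N) s c) ((gauss (Fin M × Fin N)).prod μ) := by
    refine (integrable_prod_iff' hm.aestronglyMeasurable).2 ⟨.of_forall fun p => (hp p).1, ?_⟩
    refine Integrable.mono' (hKi.const_mul (ann s c ^ 2))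
      (hm.norm.stronglyMeasurable.integral_prod_left').aestronglyMeasurable (.of_forall fun p => ?_)
    rw [Real.norm_eq_abs, abs_of_nonneg (integral_nonneg fun _ => norm_nonneg _)]
    refine le_trans (le_of_eq ?_) (hp p).2
    exact integral_congr_ae (.of_forall fun g => (Real.norm_eq_abs _).trans
      (abs_of_nonneg (hf0 _)))
  have hsq : ∀ g, Zs s c g ^ 2 = ∫ p, Fov s c (g, p) ∂μ := fun g => by
    rw [sq, Zs]
    exact (integral_prod_mul _ _).symm
  refine ⟨hFi.integral_prod_left.congr (.of_forall fun g => (hsq g).symm), ?_⟩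
  simp only [hsq]
  rw [integral_integral_swap (f := fun g p => Fov s c (g, p)) hFi]
  refine (integral_mono hFi.integral_prod_right (hKi.const_mul _) fun p => (hp p).2).trans ?_
  rw [integral_const_mul, integral_prod _ hKi, mul_comm 3]
  refine mul_le_mul_of_nonneg_left ((integral_mono hKi.integral_prod_left (integrable_const 3)
    fun y => (hKy y).2).trans_eq (by simp)) hA

end Vale.Agent.P166.Pattern.Signed
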