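import Vale.Agent.P166.Pattern.Signed.Kernel
import Vale.Agent.P166.Pattern.Signed.Spec
import Vale.Agent.P166.Pattern.Signed.Link
import Vale.Agent.P166.Functional

/-!
Compound Poisson discretisations of a free infinitely divisible law with jumps of both signs, with
bounds that are uniform in the discretisation step.
-/

open MeasureTheory ProbabilityTheory Filter Matrix
open scoped Topology

noncomputable section

namespace Vale.Agent.P166.Pattern.Signed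

open Multi (Rk dom edgeR Ks cs)

/-- largest jump at step `n` -/
def An (ρ : Measure ℝ) (δ : ℝ) (n : ℕ) : ℝ := max (sSup ρ.support) (δ / ((n:ℝ) + 1))

/-- grid point before removing zero -/
def tn (ρ : Measure ℝ) (A δ : ℝ) (n : ℕ) (i : Fin (n + 1)) : ℝ :=
  min (An ρ δ n) (-max A δ + 2 * max A δ * ((i:ℕ) + 1) / ((n:ℝ) + 1))

/-- jump sizes at step `n` -/
def jn (ρ : Measure ℝ) (A δ : ℝ) (n : ℕ) (i : Fin (n + 1)) : ℝ :=
  if |tn ρ A δ n i| < δ / ((n:ℝ) + 1) then δ / ((n:ℝ) + 1) else tn ρ A δ n i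

/-- cell of a point at step `n` -/
def idx (A δ : ℝ) (n : ℕ) (x : ℝ) : Fin (n + 1) :=
  ⟨min n ⌊(x + max A δ) * ((n:ℝ) + 1) / (2 * max A δ)⌋₊, by omega⟩

/-- weights at step `n` -/
def wt (ρ : Measure ℝ) (A δ : ℝ) (n : ℕ) (i : Fin (n + 1)) : ℝ :=
  ρ.real (idx A δ n ⁻¹' {i}) + 1 / ((n:ℝ) + 1) ^ 2

/-- rates at step `n` -/
def alf (ρ : Measure ℝ) (A δ : ℝ) (n : ℕ) (i : Fin (n + 1)) : ℝ := wt ρ A δ n i / jn ρ A δ n i ^ 2

/-- deterministic shift at step `n` -/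
def shift (γ : ℝ) (ρ : Measure ℝ) (A δ : ℝ) (n : ℕ) : ℝ := γ - ∑ i, alf ρ A δ n i * jn ρ A δ n i

/-- kernel at step `n` -/
def Rn (γ : ℝ) (ρ : Measure ℝ) (A δ : ℝ) (n : ℕ) (y : ℝ) : ℝ :=
  γ + ∑ i, wt ρ A δ n i * (y / (1 - jn ρ A δ n i * y))

/-- upper edge at step `n` -/
def En (γ : ℝ) (ρ : Measure ℝ) (A δ : ℝ) (n : ℕ) : ℝ :=
  sInf ((fun y => 1 / y + Rn γ ρ A δ n y) '' {y | 0 < y ∧ An ρ δ n * y < 1})

/-- total weight bound -/
def RT (ρ : Measure ℝ) : ℝ := ρ.real Set.univ + 1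

/-- uniform bound for the spectra -/
def Lb (γ : ℝ) (ρ : Measure ℝ) (A : ℝ) : ℝ := |γ| + 2 * (A + 1) + RT ρ + 1

variable {ρ : Measure ℝ} {A δ : ℝ} {n : ℕ} {γ : ℝ}

lemma RT_pos : 0 < RT ρ := by unfold RT; positivity

lemma An_pos (hδ : 0 < δ) : 0 < An ρ δ n := lt_of_lt_of_le (by positivity) (le_max_right _ _)

lemma step_le (hδ : 0 < δ) : δ / ((n:ℝ) + 1) ≤ δ :=
  div_le_self hδ.le (by linarith [(n.cast_nonneg : (0:ℝ) ≤ n)])

lemma An_le_max (h : Carried ρ A) (hδ : 0 < δ) : An ρ δ n ≤ max A δ :=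
  max_le_max h.top_le (step_le hδ)

lemma jn_ne (hδ : 0 < δ) (i : Fin (n + 1)) : jn ρ A δ n i ≠ 0 := by
  have hη : 0 < δ / ((n:ℝ) + 1) := by positivity
  unfold jn
  split_ifs with h
  · exact hη.ne'
  · intro h0; rw [h0, abs_zero] at h; exact h hη

lemma jn_le (i : Fin (n + 1)) : jn ρ A δ n i ≤ An ρ δ n := by
  unfold jn
  split_ifs
  · exact le_max_right _ _
  · exact min_le_left _ _

lemma jn_abs (h : Carried ρ A) (hδ : 0 < δ) (i : Fin (n + 1)) : |jn ρ A δ n i| ≤ max A δ := by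
  have hB : 0 < max A δ := lt_of_lt_of_le hδ (le_max_right _ _)
  have hη : 0 < δ / ((n:ℝ) + 1) := by positivity
  refine abs_le.2 ⟨?_, (jn_le i).trans (An_le_max h hδ)⟩
  unfold jn
  split_ifs
  · linarith
  · refine le_min (le_trans (by linarith) (An_pos hδ).le) ?_
    have : 0 ≤ 2 * max A δ * ((i:ℕ) + 1) / ((n:ℝ) + 1) := by positivity
    linarith

lemma wt_pos (i : Fin (n + 1)) : 0 < wt ρ A δ n i := add_pos_of_nonneg_of_pos measureReal_nonneg (by positivity)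

lemma alf_pos (hδ : 0 < δ) (i : Fin (n + 1)) : 0 < alf ρ A δ n i :=
  div_pos (wt_pos i) (by have := jn_ne (ρ := ρ) (A := A) hδ i; positivity)

lemma alf_sq (hδ : 0 < δ) (i : Fin (n + 1)) : alf ρ A δ n i * jn ρ A δ n i ^ 2 = wt ρ A δ n i :=
  div_mul_cancel₀ _ (pow_ne_zero 2 (jn_ne hδ i))

lemma idx_close (hδ : 0 < δ) {x : ℝ} (hx : x ∈ Set.Icc (-A) (sSup ρ.support)) (h : Carried ρ A) :
    |jn ρ A δ n (idx A δ n x) - x| ≤ (2 * max A δ + 2 * δ) / ((n:ℝ) + 1) := by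
  set B := max A δ
  have hB : 0 < B := lt_of_lt_of_le hδ (le_max_right _ _)
  have hn : (0:ℝ) < (n:ℝ) + 1 := by positivity
  set u := (x + B) * ((n:ℝ) + 1) / (2 * B)
  have hxB : -B ≤ x := le_trans (neg_le_neg (le_max_left _ _)) hx.1
  have hxB' : x ≤ B := hx.2.trans (h.top_le.trans (le_max_left _ _))
  have hu : 0 ≤ u := div_nonneg (mul_nonneg (by linarith) hn.le) (by linarith)
  have hu1 : u ≤ (n:ℝ) + 1 := by
    rw [div_le_iff₀ (by linarith)]
    nlinarith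
  set t := -B + 2 * B * (((idx A δ n x : Fin (n + 1)) : ℕ) + 1) / ((n:ℝ) + 1)
  have e : t - x = 2 * B / ((n:ℝ) + 1) * (((min n ⌊u⌋₊ : ℕ) : ℝ) + 1 - u) := by
    simp only [t, idx, u, B]
    field_simp
    ring
  have h0 : |t - x| ≤ 2 * B / ((n:ℝ) + 1) := by
    rw [e, abs_mul, abs_of_pos (div_pos (by linarith) hn)]
    refine mul_le_of_le_one_right (div_pos (by linarith) hn).le (abs_le.2 ?_)
    have h1 := Nat.floor_le hu
    have h2 := Nat.lt_floor_add_one u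
    rcases le_total n ⌊u⌋₊ with h | h
    · have h3 : (n:ℝ) ≤ ⌊u⌋₊ := by exact_mod_cast h
      rw [min_eq_left h]
      constructor <;> linarith
    · rw [min_eq_right h]
      constructor <;> linarith
  have hxA : x ≤ An ρ δ n := hx.2.trans (le_max_left _ _)
  have h1 : |tn ρ A δ n (idx A δ n x) - x| ≤ 2 * B / ((n:ℝ) + 1) := by
    refine le_trans ?_ h0
    show |min (An ρ δ n) t - x| ≤ |t - x|
    rcases le_total (An ρ δ n) t with h | h
    · rw [min_eq_left h, abs_of_nonneg (sub_nonneg.2 hxA), abs_of_nonneg (by linarith)]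
      linarith
    · rw [min_eq_right h]
  have hη : 0 < δ / ((n:ℝ) + 1) := by positivity
  rw [add_div, show 2 * δ / ((n:ℝ) + 1) = 2 * (δ / ((n:ℝ) + 1)) by ring]
  unfold jn
  split_ifs with hc
  · have h2 := abs_le.1 h1
    have h3 := abs_lt.1 hc
    exact abs_le.2 ⟨by linarith, by linarith⟩
  · linarith

lemma measurable_idx : Measurable (idx A δ n) := by
  have hm : Measurable fun x : ℝ => min n ⌊(x + max A δ) * ((n:ℝ) + 1) / (2 * max A δ)⌋₊ :=
    measurable_const.min (Nat.measurable_floor.comp (by fun_prop))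
  refine measurable_to_countable' fun i => ?_
  have e : idx A δ n ⁻¹' {i} =
      (fun x : ℝ => min n ⌊(x + max A δ) * ((n:ℝ) + 1) / (2 * max A δ)⌋₊) ⁻¹' {(i:ℕ)} := by
    ext x
    simp [idx, Fin.ext_iff]
  rw [e]
  exact hm (measurableSet_singleton _)

lemma sum_wt [IsFiniteMeasure ρ] (f : Fin (n + 1) → ℝ) :
    ∑ i, wt ρ A δ n i * f i = (∫ x, f (idx A δ n x) ∂ρ) + 1 / ((n:ℝ) + 1) ^ 2 * ∑ i, f i := by
  rw [← integral_map measurable_idx.aemeasurable (measurable_of_countable f).aestronglyMeasurable,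
    integral_fintype .of_finite, Finset.mul_sum, ← Finset.sum_add_distrib]
  refine Finset.sum_congr rfl fun i _ => ?_
  rw [map_measureReal_apply measurable_idx (measurableSet_singleton i), smul_eq_mul, wt, add_mul]

lemma sum_wt_le [IsFiniteMeasure ρ] : ∑ i, wt ρ A δ n i ≤ RT ρ := by
  have h := sum_wt (ρ := ρ) (A := A) (δ := δ) (n := n) fun _ => (1:ℝ)
  simp only [mul_one, integral_const, smul_eq_mul, Finset.sum_const, Finset.card_univ, Fintype.card_fin,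
    nsmul_eq_mul] at h
  rw [h, RT]
  refine add_le_add le_rfl ?_
  push_cast
  rw [div_mul_eq_mul_div, one_mul, div_le_one (by positivity)]
  have : (0:ℝ) ≤ n := Nat.cast_nonneg n
  nlinarith

lemma Rn_close (h : Carried ρ A) (hδ : 0 < δ) (γ : ℝ) {θ y : ℝ} (hy : 0 < y) (hθ : An ρ δ n * y ≤ θ)
    (hθ1 : θ < 1) :
    |Rn γ ρ A δ n y - Rk γ ρ y| ≤
      y * y * (2 * max A δ + 2 * δ) * RT ρ / ((1 - θ) ^ 2 * ((n:ℝ) + 1)) + y / ((1 - θ) * ((n:ℝ) + 1)) := by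
  haveI := h.finite
  have hd : 0 < 1 - θ := sub_pos.2 hθ1
  have hn : (0:ℝ) < (n:ℝ) + 1 := by positivity
  have hden : ∀ i, 1 - θ ≤ 1 - jn ρ A δ n i * y := fun i => by
    have := mul_le_mul_of_nonneg_right (jn_le (ρ := ρ) (A := A) (δ := δ) i) hy.le
    linarith
  have hxden : ∀ x ∈ Set.Icc (-A) (sSup ρ.support), 1 - θ ≤ 1 - x * y := fun x hx => by
    have hx' : x ≤ An ρ δ n := hx.2.trans (le_max_left _ _)
    have := mul_le_mul_of_nonneg_right hx' hy.le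
    linarith
  have i1 : Integrable (fun x => y / (1 - jn ρ A δ n (idx A δ n x) * y)) ρ := by
    refine Integrable.of_bound ((measurable_of_countable fun i : Fin (n + 1) => y / (1 - jn ρ A δ n i * y)).comp
      measurable_idx).aestronglyMeasurable (y / (1 - θ)) (.of_forall fun x => ?_)
    rw [Real.norm_eq_abs, abs_of_nonneg (div_nonneg hy.le (hd.le.trans (hden _)))]
    exact div_le_div_of_nonneg_left hy.le hd (hden _)
  have i2 : Integrable (fun x => y / (1 - x * y)) ρ := by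
    refine Integrable.of_bound (Measurable.aestronglyMeasurable (by fun_prop)) (y / (1 - θ))
      (h.ae_top.mono fun x hx => ?_)
    rw [Real.norm_eq_abs, abs_of_nonneg (div_nonneg hy.le (hd.le.trans (hxden x hx)))]
    exact div_le_div_of_nonneg_left hy.le hd (hxden x hx)
  have e : Rn γ ρ A δ n y - Rk γ ρ y =
      (∫ x, (y / (1 - jn ρ A δ n (idx A δ n x) * y) - y / (1 - x * y)) ∂ρ) +
      1 / ((n:ℝ) + 1) ^ 2 * ∑ i, y / (1 - jn ρ A δ n i * y) := by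
    rw [integral_sub i1 i2, Rn, Rk, sum_wt fun i => y / (1 - jn ρ A δ n i * y)]
    ring
  rw [e]
  refine (abs_add_le _ _).trans (add_le_add ?_ ?_)
  · rw [← Real.norm_eq_abs]
    refine (norm_integral_le_of_norm_le_const
      (C := y * y * ((2 * max A δ + 2 * δ) / ((n:ℝ) + 1)) / (1 - θ) ^ 2) (h.ae_top.mono fun x hx => ?_)).trans ?_
    · have hp : (1 - θ) ^ 2 ≤ (1 - jn ρ A δ n (idx A δ n x) * y) * (1 - x * y) := by
        rw [sq]; exact mul_le_mul (hden _) (hxden x hx) hd.le (hd.le.trans (hden _))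
      rw [Real.norm_eq_abs, div_sub_div _ _ (hd.trans_le (hden _)).ne' (hd.trans_le (hxden x hx)).ne', abs_div,
        abs_of_pos (lt_of_lt_of_le (pow_pos hd 2) hp)]
      refine div_le_div₀ (mul_nonneg (by positivity) (div_nonneg (by have := h.nonneg; positivity) hn.le)) ?_
        (pow_pos hd 2) hp
      rw [show y * (1 - x * y) - (1 - jn ρ A δ n (idx A δ n x) * y) * y =
        y * y * (jn ρ A δ n (idx A δ n x) - x) by ring, abs_mul, abs_of_pos (mul_pos hy hy)]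
      exact mul_le_mul_of_nonneg_left (idx_close hδ hx h) (by positivity)
    · refine le_trans (mul_le_mul_of_nonneg_left (show ρ.real Set.univ ≤ RT ρ by unfold RT; linarith)
        (by have := h.nonneg; positivity)) (le_of_eq ?_)
      field_simp
  · rw [abs_of_nonneg (mul_nonneg (by positivity) (Finset.sum_nonneg fun i _ =>
      div_nonneg hy.le (hd.le.trans (hden i))))]
    refine le_trans (mul_le_mul_of_nonneg_left (Finset.sum_le_card_nsmul _ _ (y / (1 - θ)) fun i _ =>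
      div_le_div_of_nonneg_left hy.le hd (hden i)) (by positivity)) (le_of_eq ?_)
    simp
    field_simp

lemma An_lim (hδ : 0 < δ) : An ρ δ n ≤ max (sSup ρ.support) 0 + δ / ((n:ℝ) + 1) := by
  have : 0 ≤ δ / ((n:ℝ) + 1) := by positivity
  exact max_le (by linarith [le_max_left (sSup ρ.support) 0]) (by linarith [le_max_right (sSup ρ.support) 0])

lemma dom_max {y : ℝ} (hy : y ∈ dom ρ) : y * max (sSup ρ.support) 0 < 1 := by
  rw [mul_max_of_nonneg _ _ hy.1.le, mul_zero]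
  exact max_lt hy.2 one_pos

/-- the kernels converge locally uniformly -/
theorem Rn_tendsto (h : Carried ρ A) (hδ : 0 < δ) (γ : ℝ) {y0 : ℝ} (hy : y0 ∈ dom ρ) :
    Tendsto (fun q : ℕ × ℝ => Rn γ ρ A δ q.1 q.2) (atTop ×ˢ 𝓝 y0) (𝓝 (Rk γ ρ y0)) := by
  set A0 := max (sSup ρ.support) 0
  set θ := (1 + y0 * A0) / 2
  have hθ1 : θ < 1 := by have := dom_max hy; simp only [θ]; linarith
  have hθ0 : y0 * A0 < θ := by have := dom_max hy; simp only [θ]; linarith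
  have hn : Tendsto (fun m : ℕ => δ / ((m:ℝ) + 1)) atTop (𝓝 0) :=
    tendsto_const_nhds.div_atTop (tendsto_atTop_add_const_right _ 1 tendsto_natCast_atTop_atTop)
  have h2 : Tendsto (fun q : ℕ × ℝ => (A0 + δ / ((q.1:ℝ) + 1)) * q.2) (atTop ×ˢ 𝓝 y0) (𝓝 (y0 * A0)) := by
    simpa [mul_comm] using ((hn.comp tendsto_fst).const_add A0).mul (tendsto_snd (f := atTop) (g := 𝓝 y0))
  have hev : ∀ᶠ q : ℕ × ℝ in atTop ×ˢ 𝓝 y0, 0 < q.2 ∧ q.2 ≤ y0 + 1 ∧ An ρ δ q.1 * q.2 ≤ θ := by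
    filter_upwards [(tendsto_snd (f := atTop) (g := 𝓝 y0)).eventually (eventually_gt_nhds hy.1),
      (tendsto_snd (f := atTop) (g := 𝓝 y0)).eventually (eventually_le_nhds (show y0 < y0 + 1 by linarith)),
      h2.eventually (eventually_le_nhds hθ0)] with q h1 h1' h3
    exact ⟨h1, h1', (mul_le_mul_of_nonneg_right (An_lim hδ) h1.le).trans h3⟩
  have hc : Tendsto (fun q : ℕ × ℝ => Rk γ ρ q.2) (atTop ×ˢ 𝓝 y0) (𝓝 (Rk γ ρ y0)) :=
    (analytic_Rk h γ hy).continuousAt.tendsto.comp tendsto_snd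
  set C := (y0 + 1) * (y0 + 1) * (2 * max A δ + 2 * δ) * RT ρ / (1 - θ) ^ 2 + (y0 + 1) / (1 - θ)
  have hb : Tendsto (fun q : ℕ × ℝ => C / ((q.1:ℝ) + 1)) (atTop ×ˢ 𝓝 y0) (𝓝 0) :=
    (tendsto_const_nhds.div_atTop (tendsto_atTop_add_const_right _ 1 tendsto_natCast_atTop_atTop)).comp tendsto_fst
  have hz : Tendsto (fun q : ℕ × ℝ => Rn γ ρ A δ q.1 q.2 - Rk γ ρ q.2) (atTop ×ˢ 𝓝 y0) (𝓝 0) := by
    refine squeeze_zero_norm' (hev.mono fun q hq => ?_) hb
    obtain ⟨q0, q1, q2⟩ := hq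
    rw [Real.norm_eq_abs]
    refine (Rn_close h hδ γ q0 q2 hθ1).trans ?_
    have hd : 0 < 1 - θ := sub_pos.2 hθ1
    have hR := RT_pos (ρ := ρ)
    have hB : 0 < max A δ := lt_of_lt_of_le hδ (le_max_right _ _)
    refine le_trans (add_le_add (div_le_div_of_nonneg_right
      (show q.2 * q.2 * (2 * max A δ + 2 * δ) * RT ρ ≤ (y0 + 1) * (y0 + 1) * (2 * max A δ + 2 * δ) * RT ρ by
        gcongr; linarith [hy.1]) (by positivity))
      (div_le_div_of_nonneg_right q1 (by positivity))) (le_of_eq ?_)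
    simp only [C, add_div, div_div]
  simpa using hz.add hc

lemma En_bdd : BddBelow ((fun y => 1 / y + Rn γ ρ A δ n y) '' {y | 0 < y ∧ An ρ δ n * y < 1}) := by
  refine ⟨γ, ?_⟩
  rintro _ ⟨y, ⟨hy, hyA⟩, rfl⟩
  have h1 : 0 ≤ ∑ i, wt ρ A δ n i * (y / (1 - jn ρ A δ n i * y)) := Finset.sum_nonneg fun i _ =>
    mul_nonneg (wt_pos i).le (div_nonneg hy.le (by
      nlinarith [mul_le_mul_of_nonneg_right (jn_le (ρ := ρ) (A := A) (δ := δ) i) hy.le]))
  have : 0 < 1 / y := one_div_pos.2 hy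
  show γ ≤ 1 / y + Rn γ ρ A δ n y
  simp only [Rn]
  linarith

lemma slice {f : ℕ → ℝ → ℝ} {y l : ℝ} (h : Tendsto (fun q : ℕ × ℝ => f q.1 q.2) (atTop ×ˢ 𝓝 y) (𝓝 l)) :
    Tendsto (fun k => f k y) atTop (𝓝 l) :=
  h.comp (tendsto_id.prodMk tendsto_const_nhds)

lemma En_eventually (h : Carried ρ A) (hδ : 0 < δ) (γ : ℝ) {ε : ℝ} (hε : 0 < ε) :
    ∀ᶠ k in atTop, En γ ρ A δ k ≤ edgeR γ ρ + ε := by
  have hne : ((fun y => 1 / y + Rk γ ρ y) '' dom ρ).Nonempty := by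
    refine Set.Nonempty.image _ ⟨1 / (A + 1), by have := h.nonneg; positivity, ?_⟩
    rw [one_div_mul_eq_div, div_lt_one (by linarith [h.nonneg])]
    linarith [h.top_le]
  obtain ⟨_, ⟨y, hy, rfl⟩, hlt⟩ := exists_lt_of_csInf_lt hne
    (show sInf ((fun y => 1 / y + Rk γ ρ y) '' dom ρ) < edgeR γ ρ + ε / 2 by simp only [edgeR]; linarith)
  have hR : Tendsto (fun k : ℕ => Rn γ ρ A δ k y) atTop (𝓝 (Rk γ ρ y)) :=
    slice (f := Rn γ ρ A δ) (Rn_tendsto h hδ γ hy)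
  have hA : Tendsto (fun k : ℕ => (max (sSup ρ.support) 0 + δ / ((k:ℝ) + 1)) * y) atTop
      (𝓝 (y * max (sSup ρ.support) 0)) := by
    simpa [mul_comm] using ((tendsto_const_nhds.div_atTop (tendsto_atTop_add_const_right _ 1
      tendsto_natCast_atTop_atTop) : Tendsto (fun k : ℕ => δ / ((k:ℝ) + 1)) atTop (𝓝 0)).const_add
        (max (sSup ρ.support) 0)).mul_const y
  filter_upwards [hA.eventually (eventually_lt_nhds (dom_max hy)),
    hR.eventually (eventually_le_nhds (show Rk γ ρ y < Rk γ ρ y + ε / 2 by linarith))] with k h1 h2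
  have hmem : y ∈ {y | 0 < y ∧ An ρ δ k * y < 1} :=
    ⟨hy.1, lt_of_le_of_lt (mul_le_mul_of_nonneg_right (An_lim hδ) hy.1.le) h1⟩
  have h3 : En γ ρ A δ k ≤ 1 / y + Rn γ ρ A δ k y :=
    csInf_le (En_bdd (γ := γ) (ρ := ρ) (A := A) (δ := δ) (n := k))
      (Set.mem_image_of_mem (fun y => 1 / y + Rn γ ρ A δ k y) hmem)
  simp only at hlt
  linarith

lemma Ka_shift (hδ : 0 < δ) (γ : ℝ) {y : ℝ} (hy : ∀ i, y * jn ρ A δ n i < 1) :
    Ka (jn ρ A δ n) (alf ρ A δ n) y + shift γ ρ A δ n = 1 / y + Rn γ ρ A δ n y := by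
  simp only [Ka, Ra, shift, Rn]
  rw [show ∀ u v w : ℝ, u + v + (γ - w) = u + (γ + (v - w)) from fun u v w => by ring, ← Finset.sum_sub_distrib]
  congr 2
  refine Finset.sum_congr rfl fun i _ => ?_
  rw [← alf_sq hδ i]
  have hd : 1 - y * jn ρ A δ n i ≠ 0 := (sub_pos.2 (hy i)).ne'
  rw [show 1 - jn ρ A δ n i * y = 1 - y * jn ρ A δ n i by ring]
  generalize hD : 1 - y * jn ρ A δ n i = D at hd ⊢
  field_simp
  rw [← hD]
  ring

lemma jn_small (h : Carried ρ A) (hδ : 0 < δ) {β : ℝ} (hβ : 0 ≤ β) (hβA : β * max A δ ≤ 1 / 10)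
    (j : Fin (n + 1)) : |β * jn ρ A δ n j| ≤ 1 / 10 := by
  rw [abs_mul, abs_of_nonneg hβ]
  exact (mul_le_mul_of_nonneg_left (jn_abs h hδ j) hβ).trans hβA

/-- one discretisation step, with the functional of its pattern model given -/
theorem stage_of (h : Carried ρ A) (hδ : 0 < δ) (hδ1 : δ ≤ 1) (γ : ℝ) (n : ℕ) {β : ℝ} {p0 : ℝ}
    (hgood : ∀ ν : ∀ N, Measure (Mat N), (∀ N, IsHaarOrthogonal (ν N)) →
      ∃ Ψ : ∀ N : ℕ, (Fin (∑ j, Ks (alf ρ A δ n) N j) × Fin N → ℝ) → ℝ,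
        (∀ N, Measurable (Ψ N)) ∧ (∀ N g, 0 ≤ Ψ N g ∧ Ψ N g ≤ 1) ∧
        Tendsto (fun N : ℕ => ∫ g, Ψ N g ∂gauss (Fin (∑ j, Ks (alf ρ A δ n) N j) × Fin N)) atTop (𝓝 0) ∧
        ∀ N g (lam : Fin N → ℝ) (Q : Matrix (Fin N) (Fin N) ℝ), Q ∈ Matrix.orthogonalGroup (Fin N) ℝ →
          Multi.WC (cs (jn ρ A δ n) (alf ρ A δ n) N) g = Qᵀ * Matrix.diagonal lam * Q →
          ∫ U, min |pressure β lam U - p0| 1 ∂ν N = Ψ N g) :
    ∀ ν : ∀ N : ℕ, Measure (Mat N), (∀ N, IsHaarOrthogonal (ν N)) → ∃ X : ∀ N : ℕ, Fin N → ℝ,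
      (∀ᶠ N : ℕ in atTop, ∀ i, |X N i| ≤ Lb γ ρ A) ∧
      (∀ ε : ℝ, 0 < ε → ∀ᶠ N : ℕ in atTop, ∀ i, X N i ≤ En γ ρ A δ n + ε) ∧
      (∀ w, Lb γ ρ A + A + RT ρ + 3 ≤ w → ∃ y, 0 < y ∧ y ≤ 1 / (w - Lb γ ρ A) ∧
        w = 1 / y + Rn γ ρ A δ n y ∧ Tendsto (fun N : ℕ => (∑ i, 1 / (w - X N i)) / (N:ℝ)) atTop (𝓝 y)) ∧
      Tendsto (fun N : ℕ => ∫ U, min |pressure β (X N) U - (p0 + β * shift γ ρ A δ n / 2)| 1 ∂ν N)
        atTop (𝓝 0) := by
  haveI := h.finite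
  have hA := h.nonneg
  have hR := RT_pos (ρ := ρ)
  set B := max A δ
  have hB : B ≤ A + 1 := max_le (by linarith) (by linarith)
  set a := jn ρ A δ n
  set α := alf ρ A δ n
  set c0 := shift γ ρ A δ n
  have hα : ∀ j, 0 < α j := alf_pos hδ
  intro ν hν
  obtain ⟨Ψ, hm, h01, hlim, hid⟩ := hgood ν hν
  obtain ⟨g, lam, hS, hS', ⟨L, hL⟩, hΨ, hdiag⟩ := exists_spec n.succ_pos (a := a) hα Ψ hm h01 hlim
  set X : ∀ N : ℕ, Fin N → ℝ := fun N i => lam N i + c0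
  have htop : ∀ ε : ℝ, 0 < ε → ∀ᶠ N : ℕ in atTop, ∀ i, X N i ≤ En γ ρ A δ n + ε := fun ε hε => by
    obtain ⟨_, ⟨y, ⟨hy, hyA⟩, rfl⟩, hlt⟩ := exists_lt_of_csInf_lt
      (show ((fun y => 1 / y + Rn γ ρ A δ n y) '' {y | 0 < y ∧ An ρ δ n * y < 1}).Nonempty by
        refine Set.Nonempty.image _ ⟨1 / (2 * An ρ δ n), by have := An_pos (ρ := ρ) (n := n) hδ; positivity, ?_⟩
        have := An_pos (ρ := ρ) (n := n) hδ
        field_simp
        norm_num)
      (show sInf _ < En γ ρ A δ n + ε / 2 by simp only [En]; linarith)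
    have hya : ∀ j, y * a j < 1 := fun j => lt_of_le_of_lt
      ((mul_le_mul_of_nonneg_left (jn_le j) hy.le).trans_eq (mul_comm _ _)) hyA
    filter_upwards [top_le hα hS hL hy hya (half_pos hε)] with N hN i
    have e : Ka a α y + c0 = 1 / y + Rn γ ρ A δ n y := Ka_shift hδ γ hya
    simp only at hlt
    simp only [X]
    linarith [hN i]
  set y0 := 1 / (2 * (A + 1))
  have hy0 : 0 < y0 := by positivity
  have hy0a : ∀ j, |y0 * a j| ≤ 1 / 2 := fun j => by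
    rw [abs_mul, abs_of_pos hy0]
    refine (mul_le_mul_of_nonneg_left ((jn_abs h hδ j).trans hB) hy0.le).trans (le_of_eq ?_)
    simp only [y0]; field_simp
  have hy01 : y0 ≤ 1 / 2 := one_div_le_one_div_of_le two_pos (by linarith)
  have hinv : 1 / y0 = 2 * (A + 1) := by simp only [y0, one_div_one_div]
  have hbound : ∀ᶠ N : ℕ in atTop, ∀ i, |X N i| ≤ Lb γ ρ A := by
    have hnega : ∀ j, y0 * -a j < 1 := fun j => by linarith [(abs_le.1 (hy0a j)).1]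
    have hupa : ∀ j, y0 * a j < 1 := fun j => by linarith [(abs_le.1 (hy0a j)).2]
    have hterm : ∀ j, 0 < 1 - y0 * a j ∧ y0 / (1 - y0 * a j) ≤ 1 ∧ y0 / (1 + y0 * a j) ≤ 1 := fun j => by
      have := abs_le.1 (hy0a j)
      exact ⟨by linarith, (div_le_one (by linarith)).2 (by linarith), (div_le_one (by linarith)).2 (by linarith)⟩
    have hup : Ka a α y0 + c0 ≤ 2 * (A + 1) + |γ| + RT ρ := by
      rw [show Ka a α y0 + c0 = 1 / y0 + Rn γ ρ A δ n y0 from Ka_shift hδ γ hupa, hinv, Rn, add_assoc]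
      refine add_le_add le_rfl (add_le_add (le_abs_self γ) (le_trans (Finset.sum_le_sum fun i _ =>
        mul_le_of_le_one_right (wt_pos i).le ?_) sum_wt_le))
      rw [mul_comm (jn ρ A δ n i)]
      exact (hterm i).2.1
    have hdown : Ka (fun j => -a j) α y0 - c0 ≤ 2 * (A + 1) + |γ| + RT ρ := by
      simp only [Ka, Ra, hinv, c0, shift]
      have e : ∑ j, α j * (-a j / (1 - y0 * -a j)) + ∑ j, α j * a j ≤ RT ρ := by
        rw [← Finset.sum_add_distrib]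
        refine le_trans (Finset.sum_le_sum fun j _ => ?_) (sum_wt_le (ρ := ρ) (A := A) (δ := δ) (n := n))
        have hd : 0 < 1 + y0 * a j := by linarith [(abs_le.1 (hy0a j)).1]
        have e2 : α j * (-a j / (1 - y0 * -a j)) + α j * a j = wt ρ A δ n j * (y0 / (1 + y0 * a j)) := by
          rw [← alf_sq hδ j, show 1 - y0 * -a j = 1 + y0 * a j by ring]
          simp only [α, a] at hd ⊢
          generalize hD : 1 + y0 * jn ρ A δ n j = D at hd ⊢
          field_simp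
          rw [← hD]
          ring
        rw [e2]
        exact mul_le_of_le_one_right (wt_pos j).le (hterm j).2.2
      linarith [neg_abs_le γ]
    filter_upwards [top_le hα hS hL hy0 hupa one_pos,
      top_le hα hS' (hL.mono fun N hN i => by rw [abs_neg]; exact hN i) hy0 hnega one_pos] with N h1 h2 i
    have := h1 i
    have := h2 i
    simp only [X, Lb]
    exact abs_le.2 ⟨by linarith, by linarith⟩
  refine ⟨X, hbound, htop, fun w hw => ?_, ?_⟩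
  · obtain ⟨y, hy, hyb, hya, hyK, hlimy⟩ := transform hα hS hL (c := Lb γ ρ A - c0) (A := B)
      (fun d hd => hbound.mono fun N hN i => by
        have := (abs_le.1 (hN i)).2
        simp only [X] at this
        linarith)
      (fun j => (le_abs_self _).trans (jn_abs h hδ j)) (le_trans hδ.le (le_max_right _ _))
      (w := w - c0) (by linarith) (by
        have hS2 : ∑ j, α j * a j ^ 2 ≤ RT ρ := by
          simp only [α, a, alf_sq hδ]; exact sum_wt_le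
        refine lt_of_le_of_lt hS2 ?_
        nlinarith)
    rw [show w - c0 - (Lb γ ρ A - c0) = w - Lb γ ρ A by ring] at hyb
    refine ⟨y, hy, hyb, ?_, ?_⟩
    · rw [← Ka_shift hδ γ hya]
      show w = Ka a α y + c0
      linarith
    · refine hlimy.congr fun N => ?_
      congr 1
      exact Finset.sum_congr rfl fun i _ => by simp only [X]; congr 1; ring
  · refine hΨ.congr' ?_
    filter_upwards [eventually_gt_atTop 0] with N hN
    obtain ⟨Q, hQ, hW⟩ := hdiag N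
    rw [← hid N (g N) (lam N) Q hQ hW]
    refine integral_congr_ae ((hν N).2.1.mono fun U hU => ?_)
    simp only [X, pressure_shift hN β c0 (lam N) hU]
    congr 2
    ring

/-- one discretisation step, with the limit of its pattern pressure given -/
theorem stage_at (h : Carried ρ A) (hδ : 0 < δ) (hδ1 : δ ≤ 1) (γ : ℝ) (n : ℕ) {β : ℝ} (hβ : 0 ≤ β)
    (hβA : β * max A δ ≤ 1 / 10) {p0 : ℝ}
    (hp0 : Tendsto (fun N : ℕ => fC (fun j => β * jn ρ A δ n j) N (Ks (alf ρ A δ n) N) / N) atTop (𝓝 p0)) :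
    ∀ ν : ∀ N : ℕ, Measure (Mat N), (∀ N, IsHaarOrthogonal (ν N)) → ∃ X : ∀ N : ℕ, Fin N → ℝ,
      (∀ᶠ N : ℕ in atTop, ∀ i, |X N i| ≤ Lb γ ρ A) ∧
      (∀ ε : ℝ, 0 < ε → ∀ᶠ N : ℕ in atTop, ∀ i, X N i ≤ En γ ρ A δ n + ε) ∧
      (∀ w, Lb γ ρ A + A + RT ρ + 3 ≤ w → ∃ y, 0 < y ∧ y ≤ 1 / (w - Lb γ ρ A) ∧
        w = 1 / y + Rn γ ρ A δ n y ∧ Tendsto (fun N : ℕ => (∑ i, 1 / (w - X N i)) / (N:ℝ)) atTop (𝓝 y)) ∧
      Tendsto (fun N : ℕ => ∫ U, min |pressure β (X N) U - (p0 + β * shift γ ρ A δ n / 2)| 1 ∂ν N)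
        atTop (𝓝 0) :=
  stage_of h hδ hδ1 γ n (fun ν hν => good_functional_at (jn_small h hδ hβ hβA) (alf_pos hδ) hp0 ν hν)

/-- one discretisation step -/
theorem stage (h : Carried ρ A) (hδ : 0 < δ) (hδ1 : δ ≤ 1) (γ : ℝ) (n : ℕ) {β : ℝ} (hβ : 0 ≤ β)
    (hβA : β * max A δ ≤ 1 / 10) :
    ∃ p : ℝ, ∀ ν : ∀ N : ℕ, Measure (Mat N), (∀ N, IsHaarOrthogonal (ν N)) → ∃ X : ∀ N : ℕ, Fin N → ℝ,
      (∀ᶠ N : ℕ in atTop, ∀ i, |X N i| ≤ Lb γ ρ A) ∧
      (∀ ε : ℝ, 0 < ε → ∀ᶠ N : ℕ in atTop, ∀ i, X N i ≤ En γ ρ A δ n + ε) ∧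
      (∀ w, Lb γ ρ A + A + RT ρ + 3 ≤ w → ∃ y, 0 < y ∧ y ≤ 1 / (w - Lb γ ρ A) ∧
        w = 1 / y + Rn γ ρ A δ n y ∧ Tendsto (fun N : ℕ => (∑ i, 1 / (w - X N i)) / (N:ℝ)) atTop (𝓝 y)) ∧
      Tendsto (fun N : ℕ => ∫ U, min |pressure β (X N) U - p| 1 ∂ν N) atTop (𝓝 0) := by
  obtain ⟨p0, hp0⟩ := exists_limit (b := fun j => β * jn ρ A δ n j) (jn_small h hδ hβ hβA) (alf_pos hδ)
  exact ⟨_, stage_at h hδ hδ1 γ n hβ hβA hp0⟩

end Vale.Agent.P166.Pattern.Signed
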